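import Crest.Agent.X212.Std94.Smo
import Crest.Agent.X212.Wz78.Mu
import Crest.Agent.X212.Wrd81.In
import Crest.Agent.X212.Wz78.Par

-- ▼ part X212/Wrd81/Hf
section

/-!
# X212 / WORDS, part 11 (helper81): complex Clifford submodules at a point.
-/

set_option autoImplicit false
set_option linter.unusedSectionVars false
noncomputable section
open scoped Manifold ContDiff Topology InnerProductSpace
open Set Function

namespace Crest.Agent.X212.Wrd81
open An Wz78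

variable {E : Type} [NormedAddCommGroup E] [NormedSpace ℝ E] [FiniteDimensional ℝ E]
  [MeasurableSpace E] [BorelSpace E]
  {HM : Type} [TopologicalSpace HM] {I : ModelWithCorners ℝ E HM}
  {M : Type} [TopologicalSpace M] [ChartedSpace HM M] [IsManifold I ∞ M]
  [MeasurableSpace M] {ι : Type} [Fintype ι] {lam : Type} [Fintype lam]
  {B : Base M ι lam} {m : Md M ι lam} {x : M} {π : En (Fin m.N)}

variable (m) in
/-- the projector onto a complex Clifford submodule of the fibre -/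
structure Hf (x : M) (π : En (Fin m.N)) : Prop where
  sym : Sym π
  idem : π * π = π
  p : m.p x * π = π
  J : π * m.J = m.J * π
  ρ : ∀ a, π * m.ρ a x = m.ρ a x * π

variable (hB : B.OK I) (H : m.OK I B)
include H

lemma cs_j_inv {d : ℂ} (hd : d ≠ 0) (s : Eu lam) (w : m.V) :
    cs m.J d (m.j x (cs B.il d⁻¹ s) w) = m.j x s w := by
  rw [Eqv71.ME.j_cs H, Eqv71.cs_mul H.Jsq, mul_inv_cancel₀ hd, Eqv71.cs_one]

namespace Hf
variable (h : Hf m x π)
include h

lemma p' : π * m.p x = π := by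
  have := congrArg trn h.p
  rwa [trn_mul, Sym.trn h.sym, Sym.trn (H.psym x)] at this

omit H in
lemma app (v : m.V) : π (π v) = π v := by rw [← mul_apply_eq_comp, h.idem]

lemma pm : π * m.pm B x = m.pm B x * π := pm_comm (by rw [h.p' H, h.p]) h.ρ

lemma pp : π * m.pp B x = m.pp B x * π := pp_comm (by rw [h.p' H, h.p]) h.ρ

include hB

lemma exists_t : ∃ (s₀ : Eu lam) (t : ℝ), m.j x s₀ * m.j x s₀ = m.p x ∧
    (∀ s, ∃ a b : ℝ, m.j x s = a • m.j x s₀ + b • (m.J * m.j x s₀)) ∧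
    π + m.j x s₀ * π * m.j x s₀ = t • m.p x := by
  obtain ⟨U, s₀, u, f⟩ := Std94.exists_fx hB (Std94.pmx H x)
  have e := fun s => f.pm.j_eq f.lf s
  have kk : m.j x s₀ * m.j x s₀ = m.p x := by rw [H.jsq, f.lf.ls, f.lf.n1, one_pow, one_smul]
  have kJ := H.jJ x s₀
  have kp := j_p H x s₀
  have pk := H.pj x s₀
  have kρ := fun a => H.jρ a x s₀
  generalize hk : m.j x s₀ = k at *
  have cJ : (π + k * π * k) * m.J = m.J * (π + k * π * k) := by
    rw [add_mul, mul_add, h.J, mul_assoc, kJ, mul_neg, ← mul_assoc, mul_assoc k, h.J, ← mul_assoc,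
      kJ]
    simp only [neg_mul, neg_neg, mul_assoc]
  have ck : (π + k * π * k) * k = k * (π + k * π * k) := by
    rw [add_mul, mul_add, mul_assoc, kk, mul_assoc, h.p' H, ← mul_assoc, ← mul_assoc, kk, h.p,
      add_comm]
  have c1 : m.p x * (π + k * π * k) = π + k * π * k := by
    rw [mul_add, h.p, ← mul_assoc, ← mul_assoc, pk]
  have c2 : (π + k * π * k) * m.p x = π + k * π * k := by rw [add_mul, h.p' H, mul_assoc, kp]
  have c3 : ∀ a, (π + k * π * k) * m.ρ a x = m.ρ a x * (π + k * π * k) := fun a => by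
    rw [add_mul, mul_add, h.ρ, mul_assoc, kρ, ← mul_assoc, mul_assoc k, h.ρ, ← mul_assoc, kρ]
    simp only [mul_assoc]
  have c4 : ∀ s, (π + k * π * k) * m.j x s = m.j x s * (π + k * π * k) := fun s => by
    rw [e s, mul_add _ (_ • k), add_mul (_ • k), mul_smul_comm, mul_smul_comm, smul_mul_assoc,
      smul_mul_assoc, ck, ← mul_assoc _ m.J, cJ, mul_assoc m.J, ck, mul_assoc m.J]
  have ap : ∀ {S T : En (Fin m.N)}, S = T → ∀ v, S v = T v := fun e v => by rw [e]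
  obtain ⟨c, hc⟩ := (f.itx_iff f (π + k * π * k)).1
    ⟨ap c1, ap c2, fun a => ap (c3 a), ap cJ, fun s => ap (c4 s)⟩
  have ks : Sym k := hk ▸ H.jsym x s₀
  have := (Std94.symm_Xi_iff u c).1 fun v w => by
    simp only [← hc, add_apply, mul_apply_eq_comp, inner_add_left, inner_add_right, h.sym _,
      ks _]
  exact ⟨s₀, c.re, hk ▸ kk, fun s => ⟨_, _, hk ▸ e s⟩, by rw [hk, hc, ← f.Xi_coe, ← this]⟩

/-- `π V + j π V` is everything -/
lemma ext (h0 : π ≠ 0) {v : m.V} (hv : m.p x v = v) (h1 : π v = 0)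
    (h2 : ∀ s, π (m.j x s v) = 0) : v = 0 := by
  obtain ⟨s, t, -, -, e⟩ := h.exists_t hB H
  have a := congrArg (· v) e
  simp only [add_apply, mul_apply_eq_comp, h1, h2, map_zero, add_zero, smul_apply, hv] at a
  refine (smul_eq_zero.1 a.symm).resolve_left fun ht => h0 (ContinuousLinearMap.ext fun w => ?_)
  have b := congrArg (fun T : En (Fin m.N) => ⟪T w, w⟫_ℝ) e
  have c : ∀ z, ⟪π z, z⟫_ℝ = ‖π z‖ ^ 2 := fun z => by
    rw [← real_inner_self_eq_norm_sq, ← h.sym (π z), h.app]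
  simp only [ht, zero_smul, add_apply, mul_apply_eq_comp, inner_add_left, H.jsym x s _, c,
    zero_apply, inner_zero_left] at b
  have := sq_nonneg ‖π (m.j x s w)‖
  simpa using le_antisymm (show ‖π w‖ ^ 2 ≤ 0 by linarith) (sq_nonneg _)

/-- an element of `g` is determined by its blocks `π ζ π`, `π j ζ π` -/
lemma g_zero (h0 : π ≠ 0) {ζ : m.A} (hζ : ζ ∈ m.gS x) (h1 : ∀ a, π (opL ζ (π a)) = 0)
    (h2 : ∀ s a, π (m.j x s (opL ζ (π a))) = 0) : ζ = 0 := by
  have p : ∀ w, m.p x (opL ζ w) = opL ζ w := fun w => by rw [← mul_apply_eq_comp, g_p hζ]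
  have a : ∀ w, π (opL ζ w) = 0 := fun w => ext_inner_right ℝ fun z => by
    rw [h.sym, g_skw hζ, h.ext hB H h0 (p _) (h1 z) fun s => h2 s z]; simp
  refine opL_inj (ContinuousLinearMap.ext fun w => ?_)
  rw [map_zero, zero_apply]
  exact h.ext hB H h0 (p w) (a w) fun s => by
    rw [← mul_apply_eq_comp (m.j x s), g_j hζ, mul_apply_eq_comp, a]

/-- nothing, everything, or one half -/
lemma tri : π = 0 ∨ π = m.p x ∨ ∀ s, π * m.j x s * π = 0 := by
  obtain ⟨s, t, kk, e, ht⟩ := h.exists_t hB H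
  have kp := j_p H x s
  generalize m.j x s = k at *
  have a : k * π * k = t • m.p x - π := by rw [← ht, add_sub_cancel_left]
  have b : k * π * k * (k * π * k) = k * π * k := by
    rw [mul_assoc (k * π), ← mul_assoc k, ← mul_assoc k, kk, h.p, ← mul_assoc, mul_assoc k, h.idem]
  rw [a] at b
  simp only [mul_sub, sub_mul, smul_mul_assoc, mul_smul_comm, H.pidem, h.p, h.p' H, h.idem] at b
  by_cases t1 : t = 1
  · have c : π * k * π = 0 := by
      have : k * π = k * π * k * k := by rw [mul_assoc _ k k, kk, mul_assoc, h.p' H]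
      rw [mul_assoc, this, a, t1, one_smul, ← mul_assoc, mul_sub, h.p' H, h.idem]; simp
    refine .inr (.inr fun s => ?_)
    obtain ⟨a, b, e⟩ := e s
    rw [e, mul_add, add_mul, mul_smul_comm, mul_smul_comm, smul_mul_assoc, smul_mul_assoc, c,
      ← mul_assoc, h.J, mul_assoc m.J, mul_assoc m.J, c]
    simp
  · have c : π = (t / 2) • m.p x := by
      refine smul_right_injective _ (sub_ne_zero.2 t1) ?_
      linear_combination (norm := module) (-1 / 2 : ℝ) • b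
    have d := h.idem
    rw [c, smul_mul_smul_comm, H.pidem, ← sub_eq_zero, ← sub_smul, ← mul_sub_one, mul_smul,
      smul_eq_zero, sub_smul, one_smul, ← c, sub_eq_zero] at d
    exact d.imp (fun d => by rw [c, d, zero_smul]) .inl

end Hf

end Crest.Agent.X212.Wrd81
end
end

-- ▼ part X212/Wrd81/Gau

/-!
# X212 / WORDS, part 13 (helper81): spinor words; density of the Dirac row and of the curvature row.
-/

set_option autoImplicit false
set_option linter.unusedSectionVars false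
noncomputable section
open scoped Manifold ContDiff Topology InnerProductSpace
open MeasureTheory Set Function Filter

namespace Crest.Agent.X212.Wrd81
open An Sob92 Wz78

variable {E : Type} [NormedAddCommGroup E] [NormedSpace ℝ E] [FiniteDimensional ℝ E]
  [MeasurableSpace E] [BorelSpace E]
  {HM : Type} [TopologicalSpace HM] {I : ModelWithCorners ℝ E HM} [I.Boundaryless]
  {M : Type} [TopologicalSpace M] [ChartedSpace HM M] [IsManifold I ∞ M]
  [MeasurableSpace M] [T2Space M] [BorelSpace M] [SecondCountableTopology M]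
  {ι : Type} [Fintype ι] {ι' : Type} [Fintype ι'] {lam : Type} [Fintype lam] {r n : ℕ}

section gen
variable {V : Type} [NormedAddCommGroup V] [InnerProductSpace ℝ V] [FiniteDimensional ℝ V]
  {W : Type} [NormedAddCommGroup W] [InnerProductSpace ℝ W] [FiniteDimensional ℝ W]
  {F : Fr I M ι} {A : ι → M → V →L[ℝ] V} {q : M → V →L[ℝ] V}

lemma exists_tf_D (F : Fr I M ι) {O : Set M} {x : M} (hO : O ∈ 𝓝 x) (b : ι) :
    ∃ g, Tf I O g ∧ ∀ a, F.D a g x = F.P b a x := by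
  obtain ⟨ξ, hξ⟩ := exists_covector F x b
  obtain ⟨g, g1, g2, g3, g4⟩ := exists_fun_deriv (I := I) hO ξ
  exact ⟨g, ⟨g1, g2, g3⟩, fun a => (g4 _).trans (hξ a)⟩

lemma norm_prj_le {T : V →L[ℝ] V} (hs : ∀ v w, ⟪T v, w⟫_ℝ = ⟪v, T w⟫_ℝ)
    (hi : ∀ v, T (T v) = T v) : ‖T‖ ≤ 1 := T.opNorm_le_bound zero_le_one fun v => by
  have := real_inner_le_norm v (T v)
  rw [← hi, ← hs, hi, real_inner_self_eq_norm_sq] at this
  nlinarith [norm_nonneg (T v), norm_nonneg v]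

lemma itw_of_nabE {x : M} (h : ∀ a, nabE I F.e A a q x = 0) : Eqv71.Itw I F.e A A q x := fun a =>
  sub_eq_zero.1 ((add_sub_assoc _ _ _).trans (h a))

/-- the resolvent preserves parallel projectors -/
lemma RH.res_prj (h : RH F A) (hq : Sm I q) (hs : ∀ x v w, ⟪q x v, w⟫_ℝ = ⟪v, q x w⟫_ℝ)
    (hi : ∀ x v, q x (q x v) = q x v) (hp : ∀ a x, nabE I F.e A a q x = 0) {s : M → V}
    (h1 : ∀ x, q x (s x) = s x) (x : M) : q x (F.res A s x) = F.res A s x :=
  Mp86.res_fix h.bmp h.mc hq ⟨1, fun x => norm_prj_le (hs x) (hi x)⟩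
    (fun x => itw_of_nabE fun a => hp a x) h1 x

variable {K Ω : Set M} {𝒲 : Set (M → V)} {π : M → V →L[ℝ] V}

lemma Prj.nabE (h : Prj K Ω F A 𝒲 π) (a : ι) (x : M) : nabE I F.e A a π x = 0 := by
  rw [Wz78.nabE, ← Pre.D_def, h.par]; abel

lemma Prj.loc₂ (h : Prj K Ω F A 𝒲 π) (hΩ : IsOpen Ω) (hsm : ∀ w ∈ 𝒲, Sm I w) {F' : Pre I M ι'}
    {k : ℕ} {𝒯 : Set (M → W)} {β : M → V →L[ℝ] V →L[ℝ] W} (hβ : Sm I β)
    (hw : ∀ g, Tf I Ω g → ∀ u ∈ 𝒲, ∀ v ∈ 𝒲, (fun x => g x • β x (u x) (v x)) ∈ Ap F' k 𝒯)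
    {f : M → ℝ} (hf : Tf I Ω f) {a b : M → V} (ha : Sm I a) (hb : Sm I b) :
    (fun x => f x • β x (π x (a x)) (π x (b x))) ∈ Ap F' k 𝒯 :=
  h.loc hΩ (hβ.clm_apply (h.sm.clm_apply ha)) (fun _ hg v hv =>
    h.loc (T := fun x => (β x).flip (v x)) hΩ
      (((ContinuousLinearMap.flipₗᵢ ℝ V V W).contDiff.contMDiff.comp hβ).clm_apply (hsm v hv))
      (fun g hg u hu => hw g hg u hu v hv) hg ha) hf hb

/-- pointwise action of a field -/
def act (T : M → V →L[ℝ] W) : (M → V) →ₗ[ℝ] M → W where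
  toFun u x := T x (u x)
  map_add' _ _ := funext fun _ => map_add _ _ _
  map_smul' _ _ := funext fun _ => map_smul _ _ _

open Classical in
/-- `ξ ↦ dg ⊗ dh ⊗ ξ` -/
def wg (F : Fr I M ι) (V : Type) [NormedAddCommGroup V] [InnerProductSpace ℝ V] (g h : M → ℝ)
    (x : M) : CL V (Fm (ι × ι) V) :=
  ∑ s : ι × ι, (F.D s.1 g x * F.D s.2 h x) •
    ((PiLp.continuousLinearEquiv 2 ℝ fun _ : ι × ι => V).symm.toContinuousLinearMap ∘L
      ContinuousLinearMap.single ℝ (fun _ : ι × ι => V) s)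

lemma wg_apply (g h : M → ℝ) (x : M) (ξ : V) :
    wg F V g h x ξ = WithLp.toLp 2 fun s => (F.D s.1 g x * F.D s.2 h x) • ξ := by
  ext1 s
  simp [wg, Pi.single_apply, Finset.sum_apply]

lemma sm_wg {g h : M → ℝ} (hg : Sm I g) (hh : Sm I h) : Sm I (wg F V g h) :=
  contMDiff_finsetSum fun _ _ => sm_smul ((F.sm_D hg _).mul (F.sm_D hh _)) contMDiff_const

/-- self-dual forms with values in a bundle are generated by `(dg ∧ dh)⁺ ⊗ ξ` -/
theorem mem_two {B : Base M ι lam} (hB : B.OK I) (hP : F.P = B.P) (hq : Sm I q)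
    (hs : ∀ x v w, ⟪q x v, w⟫_ℝ = ⟪v, q x w⟫_ℝ) (hi : ∀ x v, q x (q x v) = q x v) {O : Set M}
    (hO : IsOpen O) {U : Submodule ℝ (M → Fm (ι × ι) V)}
    (h : ∀ g, Tf I O g → ∀ g', Tf I O g' → ∀ f, Tf I O f → ∀ b,
      (fun x => f x • idx (B.sd x) (q x) (wg F V g g' x b)) ∈ U) {u : M → Fm (ι × ι) V}
    (hu : Sm I u) (hc : HasCompactSupport u) (huO : tsupport u ⊆ O)
    (hqu : ∀ x, idx (B.sd x) (q x) (u x) = u x) : u ∈ U := by
  have h1 : Sm I fun x => idx (B.sd x) (q x) := Std94.Kl.idx (K := Std94.smAll I)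
    (fun s t => ((((hB.sP _ _).mul (hB.sP _ _)).sub ((hB.sP _ _).mul (hB.sP _ _))).div_const 2
      |>.add ((hB.so _ _ _ _).div_const 2)).div_const 2) hq
  have h2 : ∀ x v, idx (B.sd x) (q x) (idx (B.sd x) (q x) v) = idx (B.sd x) (q x) v :=
    fun x v => by simp only [idx_idx, sd_sd hB, show q x * q x = q x from ContinuousLinearMap.ext (hi x)]
  have h3 := fun x => inner_idx (sd_symm hB x) (hs x)
  refine mem_of_span (𝒩 := {w | ∃ g, Tf I O g ∧ ∃ g', Tf I O g' ∧ ∃ b,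
    w = fun x => idx (B.sd x) (q x) (wg F V g g' x b)}) h1 h3 h2 ?_ ?_ hO ?_ (fun x hx v hv h0 => ?_)
    hu hc huO hqu
  · rintro _ ⟨g, hg, g', hg', b, rfl⟩
    exact h1.clm_apply ((sm_wg hg.sm hg'.sm).clm_apply contMDiff_const)
  · rintro _ ⟨g, hg, g', hg', b, rfl⟩ x
    exact h2 x _
  · rintro f f1 f2 f3 _ ⟨g, hg, g', hg', b, rfl⟩
    exact h g hg g' hg' f ⟨f1, f2, f3⟩ b
  · have a : ∀ (a a' : ι) b, ∑ s : ι × ι, B.P a s.1 x * B.P a' s.2 x * ⟪b, v s⟫_ℝ = 0 := by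
      intro a a' b
      obtain ⟨g, hg, e⟩ := exists_tf_D F (hO.mem_nhds hx) a
      obtain ⟨g', hg', e'⟩ := exists_tf_D F (hO.mem_nhds hx) a'
      have := h0 _ ⟨g, hg, g', hg', b, rfl⟩
      simpa only [h3, hv, wg_apply, PiLp.inner_apply, real_inner_smul_left, e, e', hP] using this
    ext1 s
    refine ext_inner_left ℝ fun b => ?_
    have e : v s = ∑ t, B.a2 x s t • v t := by
      conv_lhs => rw [← hv]
      conv_rhs => rw [← hv]
      simp only [idx_apply, Finset.smul_sum, smul_smul, ← a2_sd hB x s, Finset.sum_smul]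
      exact Finset.sum_comm
    have e2 : ∑ t, B.a2 x s t * ⟪b, v t⟫_ℝ = (∑ t : ι × ι, B.P s.1 t.1 x * B.P s.2 t.2 x * ⟪b, v t⟫_ℝ
        - ∑ t : ι × ι, B.P s.2 t.1 x * B.P s.1 t.2 x * ⟪b, v t⟫_ℝ) / 2 := by
      rw [← Finset.sum_sub_distrib, Finset.sum_div]
      exact Finset.sum_congr rfl fun t _ => by rw [Base.a2]; ring
    rw [e, inner_sum]
    simp only [real_inner_smul_right, e2, a]
    simp

end gen

variable (c : Cfg M ι lam r) (B : Base M ι lam) (G : Geo I M ι lam) (K Ω : Set M)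

/-- an admissible configuration, a piece `K` and an open set `Ω` of full measure in `K` -/
structure Pc : Prop where
  hB : B.OK I
  hG : G.OK B
  ok : c.m.OK I B
  conn : c.m.IsConn B G c.W
  sm : Sm I c.Φ
  pΦ : ∀ x, c.m.p x (c.Φ x) = c.Φ x
  rs : RH G.F c.W
  ra : RH G.F (c.m.adW c.W)
  cl : IsClopen K
  op : IsOpen Ω
  null : G.F.μ (K \ Ω) = 0

/-- the values of the spinor words -/
def SWs (F : Fr I M ι) : Set (M → c.m.V) := {w | ∃ u, SwIn I Ω u ∧ w = c.sw F u}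

/-- the values of the terms with the property `P` in the Dirac row -/
def TD (F : Fr I M ι) (P : Tm M lam r n → Prop) : Set (M → c.m.V) :=
  {v | ∃ T, TmIn I Ω T ∧ P T ∧ v = c.tD B F T}

/-- the values of the terms with the property `P` in the curvature row -/
def TC (F : Fr I M ι) (P : Tm M lam r n → Prop) : Set (M → Fm (ι × ι) c.m.A) :=
  {v | ∃ T, TmIn I Ω T ∧ P T ∧ v = c.tC B F T}

/-- the projector of the spinor words -/
structure SP (π : M → En (Fin c.m.N)) : Prop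
    extends Prj K (Ω ∩ K) G.F c.W (SWs c Ω G.F) π where
  hf : ∀ x, Hf c.m x (π x)

variable {c B G K Ω}

lemma sw_ind {F : Fr I M ι} {P : (M → c.m.V) → Prop} (h0 : P c.Φ)
    (h : ∀ t a, LtIn I Ω t → P a → P (c.lt F t a)) {u : SW M} (hu : SwIn I Ω u) : P (c.sw F u) := by
  induction u with
  | nil => exact h0
  | cons t u ih => exact h t _ (hu t List.mem_cons_self) (ih fun t k => hu t (List.mem_cons_of_mem _ k))

lemma lt_cl (F : Fr I M ι) (g : M → ℝ) (w : M → c.m.V) :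
    c.lt F (.cl g) w = fun x => (∑ a, F.D a g x • c.m.ρ a x) (w x) := funext fun x => by
  simp [Cfg.lt]

lemma lt_mem {F : Fr I M ι} {t : Lt M} (ht : LtIn I Ω t) {w : M → c.m.V} (hw : w ∈ SWs c Ω F) :
    c.lt F t w ∈ SWs c Ω F := let ⟨u, hu, e⟩ := hw; ⟨t :: u, hu.cons ht, e ▸ rfl⟩

/-- the hypotheses on the resolvents hold in bounded geometry -/
theorem rh_conn {m : Md M ι lam} {W : m.Cn} {C : ℕ → ℝ} (hG : G.OK B) (hF : G.F.Tame C)
    (h : m.IsConn B G W) (hW : ∀ a, G.F.Cb (W a)) : RH G.F W ∧ RH G.F (m.adW W) :=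
  ⟨rh_of_tame hF hW h.sk (hG.P ▸ h.cc.proj), rh_of_tame hF (fun a => Cb_clm adcL (hW a))
    (adW_skw h) (hG.P ▸ (con_adW h).proj)⟩

namespace Pc
variable (h : Pc c B G K Ω)
include h

lemma opn : IsOpen (Ω ∩ K) := h.op.inter h.cl.2

lemma sm_cl {g : M → ℝ} (hg : Sm I g) : Sm I fun x => ∑ a, G.F.D a g x • c.m.ρ a x :=
  contMDiff_finsetSum fun a _ => sm_smul (G.F.sm_D hg a) (h.ok.sρ a)

lemma sm_sw : ∀ w ∈ SWs c Ω G.F, Sm I w := by
  rintro _ ⟨u, hu, rfl⟩
  refine sw_ind h.sm (fun t a ht ha => ?_) hu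
  cases t
  exacts [sm_smul ht.sm ha, lt_cl G.F _ a ▸ (h.sm_cl ht.sm).clm_apply ha,
    c.m.J.contMDiff.comp ha, Mp86.sm_res _ _ _]

lemma p_sw : ∀ w ∈ SWs c Ω G.F, ∀ x, c.m.p x (w x) = w x := by
  rintro _ ⟨u, hu, rfl⟩
  refine sw_ind (P := fun w => ∀ x, c.m.p x (w x) = w x) h.pΦ (fun t a _ ha x => ?_) hu
  cases t with
  | mul f => exact (map_smul _ _ _).trans (congrArg _ (ha x))
  | cl g => simp only [Cfg.lt, map_sum, map_smul, ← mul_apply_eq_comp, (h.ok.cl x).pl]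
  | im => rw [Cfg.lt, ← mul_apply_eq_comp, ← h.ok.Jp, mul_apply_eq_comp, ha]
  | G => exact h.rs.res_prj h.ok.sp h.ok.psym (fun x v => by
      rw [← mul_apply_eq_comp, h.ok.pidem]) h.conn.cc.par ha x

lemma fam : Fam K (Ω ∩ K) G.F c.W (SWs c Ω G.F) :=
  ⟨h.cl, h.opn, inter_subset_right, by rw [sdiff_inter_self_eq_sdiff, h.null], h.sm_sw,
    fun f hf _ => lt_mem (t := .mul f) (hf.mono inter_subset_left), fun _ => lt_mem (t := .G) trivial⟩

theorem exists_sp : ∃ π, SP c G K Ω π := by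
  obtain ⟨π, p⟩ := h.fam.exists_prj h.rs
  have k : ∀ {T : M → En (Fin c.m.N)}, Sm I T → (∀ x, An.Skw (T x)) →
      (∀ w ∈ SWs c Ω G.F, (fun y => T y (w y)) ∈ SWs c Ω G.F) → ∀ x ∈ K, π x * T x = T x * π x :=
    fun {T} h1 h2 h3 => p.comm T (fun x => -T x) h1 h1.neg
      (fun x v w => by rw [h2, neg_apply, inner_neg_right])
      (fun w hw => Submodule.subset_span (h3 w hw))
      fun w hw => neg_mem (Submodule.subset_span (h3 w hw))
  refine ⟨π, p, fun x => ?_⟩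
  by_cases hx : x ∈ K
  swap
  · rw [p.off x hx]
    exact ⟨fun _ _ => by simp, by simp, by simp, by simp, by simp⟩
  refine ⟨p.symm x, ContinuousLinearMap.ext (p.idem x),
    ContinuousLinearMap.ext fun v => (p.le h.cl.2 h.ok.sp h.ok.psym h.p_sw x v).2,
    k contMDiff_const (fun _ => h.ok.Jsk) (fun _ => lt_mem (t := .im) trivial) x hx, fun a => ?_⟩
  refine h.fam.ext (p.sm.continuous.mul (h.ok.sρ a).continuous)
    ((h.ok.sρ a).continuous.mul p.sm.continuous) h.cl.2 Subset.rfl (fun x hx => ?_) x hx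
  obtain ⟨g, hg, e⟩ := exists_tf_D G.F (h.op.mem_nhds hx.2.1) a
  have := k (h.sm_cl hg.sm) (fun x v w => by
    simp [sum_inner, inner_sum, real_inner_smul_left, real_inner_smul_right, h.ok.ρsk _ x v])
    (fun w hw => lt_cl G.F g w ▸ lt_mem (t := .cl g) hg hw) x hx.1
  simp only [e, h.hG.P, (h.ok.cl x).proj] at this
  exact this

lemma sm_j (s : Eu lam) : Sm I fun x => c.m.j x s := h.ok.sj.clm_apply contMDiff_const

lemma sm_dj (d : ℂ) (s : Eu lam) : Sm I fun x => Eqv71.csL c.m.J d ∘L c.m.j x s :=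
  contMDiff_const.clm_comp (h.sm_j s)

lemma sm_qL : Sm I (qL c.m) := by
  have h1 : Sm I fun x => (c.m.pg x ∘L hsL : CL (En (Fin c.m.N)) c.m.A) :=
    (Std94.sm_pg h.hB h.ok).clm_comp contMDiff_const
  unfold qL
  exact ContMDiff.clm_comp (Std94.Kl.clm (K := Std94.smAll I)
    (N' := CL (CL c.m.V (En (Fin c.m.N))) (CL c.m.V c.m.A)) _ h1) contMDiff_const

lemma sm_pw {g g' : M → ℝ} (hg : Sm I g) (hg' : Sm I g') :
    Sm I fun x => c.m.p2 B x ∘L wg G.F c.m.A g g' x :=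
  (Std94.sm_p2 h.hB h.ok).clm_comp (sm_wg hg hg')

end Pc

namespace SP
variable {π : M → En (Fin c.m.N)} (h : Pc c B G K Ω) (p : SP c G K Ω π)
include h p

omit h in
lemma ne_zero (hΦ : ∀ x ∈ K, ∃ y ∈ connectedComponent x, c.Φ y ≠ 0) (hK : IsClopen K) :
    ∀ x ∈ K, π x ≠ 0 := fun x hx =>
  let ⟨_, hy, h0⟩ := hΦ x hx
  p.ne_zero' isPreconnected_connectedComponent ⟨[], swIn_nil, rfl⟩ hy
    (hK.connectedComponent_subset hx hy) h0 mem_connectedComponent

/-- **(D1)** if all weight two scalars vanish, the words lie in one half -/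
theorem half (hs : ∀ g : Sg M lam, SgIn I Ω g → c.sg G.F g = 0) :
    ∀ x ∈ K, ∀ s, π x * c.m.j x s * π x = 0 := fun x hx s => by
  refine ContinuousLinearMap.ext (p.orth₂ h.sm_sw (h.sm_j s) h.cl.2 Subset.rfl ?_ hx)
  rintro _ ⟨u, hu, rfl⟩ _ ⟨v, hv, rfl⟩ y hy
  obtain ⟨f, hf, f1⟩ := exists_tf (I := I) (h.op.mem_nhds hy.2.1)
  have su := h.sm_sw _ ⟨u, hu, rfl⟩
  have sv := h.sm_sw _ ⟨v, hv, rfl⟩
  have sm := sm_inner ((h.sm_j s).clm_apply su) sv
  have := eq_zero_of_tst (V := ℝ) G.F.μ isOpen_univ dense_univ (hf.sm.mul sm) fun φ hφ _ => by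
    have hf' := hf.mul hφ.1
    have i : Integrable (fun x => hm c.m.J (c.m.j x ((φ x * f x) • s) (c.sw G.F u x))
        (c.sw G.F v x)) G.F.μ := by
      have a := (h.ok.sj.clm_apply (hf'.tv s).sm).clm_apply su
      have b : HasCompactSupport fun x => c.m.j x ((φ x * f x) • s) (c.sw G.F u x) :=
        hf'.hcs.mono fun x hx e => hx (by simp [e])
      have i1 := G.F.integrable_inner a.continuous b sv.continuous
      have i2 := G.F.integrable_inner a.continuous b (c.m.J.continuous.comp sv.continuous)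
      exact (i1.ofReal.add (i2.neg.ofReal.mul_const Complex.I)).congr
        (Eventually.of_forall fun x => (Complex.mk_eq_add_mul_I _ _).symm)
    have := congrArg Complex.re (hs ⟨_, u, v⟩ ⟨hf'.tv s, hu, hv⟩)
    rw [Cfg.sg, ← RCLike.re_to_complex, ← integral_re i] at this
    refine Eq.trans (integral_congr_ae (Eventually.of_forall fun x => ?_)) this
    simp [hm, real_inner_smul_left, mul_comm, mul_left_comm, mul_assoc]
  simpa [f1] using congrFun this y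

/-- either all words lie in one half or some coefficient does not vanish -/
theorem exists_co : (∀ x ∈ K, ∀ s, π x * c.m.j x s * π x = 0) ∨
    ∃ g : Sg M lam, SgIn I Ω g ∧ c.sg G.F g ≠ 0 ∧ CoIn I Ω (.s g [] : Co M lam r) ∧
      c.co G.F (.s g []) ≠ 0 := by
  by_contra! k
  obtain ⟨x, hx, s, k1⟩ := k.1
  refine k1 (p.half h (fun g hg => by_contra fun h0 => ?_) x hx s)
  refine div_ne_zero h0 ?_ (k.2 g hg h0 ⟨hg, fun _ h => nomatch h⟩)
  exact Complex.ofReal_ne_zero.2 (Real.sqrt_ne_zero'.2 (by simp; positivity))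

variable {F' : Pre I M ι'} {k : ℕ} {P : Tm M lam r n → Prop} {f : M → ℝ} {d : Co M lam r}

theorem ap_lin (P1 : ∀ u, P (.lin u)) (hf : Tf I (Ω ∩ K) f) {a : M → c.m.V} (ha : Sm I a) :
    (fun x => f x • c.m.pm B x (π x (a x))) ∈ Ap F' k (TD c B Ω G.F P) := by
  refine p.loc h.opn (sm_pm h.ok h.hB) ?_ hf ha
  rintro g hg _ ⟨u, hu, rfl⟩
  exact Ap.of_mem (smul_mem_tst hg.sm hg.hcs ((sm_pm h.ok h.hB).clm_apply (h.sm_sw _ ⟨u, hu, rfl⟩)))
    ⟨.lin (.mul g :: u), ⟨hu.cons (hg.mono inter_subset_left), _, _, rfl⟩, P1 _,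
      funext fun x => (map_smul _ _ _).symm⟩

theorem ap_anti (hd : CoIn I Ω d) (P2 : ∀ s u, P (.anti d s u)) (hf : Tf I (Ω ∩ K) f) (s : Eu lam)
    {a : M → c.m.V} (ha : Sm I a) :
    (fun x => f x • c.m.pm B x (cs c.m.J (c.co G.F d) (c.m.j x s (π x (a x))))) ∈
      Ap F' k (TD c B Ω G.F P) := by
  have hT := (sm_pm h.ok h.hB).clm_comp (h.sm_dj (c.co G.F d) s)
  refine p.loc h.opn hT ?_ hf ha
  rintro g hg _ ⟨u, hu, rfl⟩
  exact Ap.of_mem (smul_mem_tst hg.sm hg.hcs (hT.clm_apply (h.sm_sw _ ⟨u, hu, rfl⟩)))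
    ⟨.anti d (fun x => g x • s) u, ⟨hd, (hg.mono inter_subset_left).tv s, hu⟩, P2 _ _,
      funext fun x => by simp [Cfg.tD, ← Eqv71.csL_apply]⟩

/-- **(D2), Dirac row** -/
theorem ap_D (h0 : ∀ x ∈ K, π x ≠ 0) (hd : CoIn I Ω d) (d0 : c.co G.F d ≠ 0)
    (P1 : ∀ u, P (.lin u)) (P2 : ∀ s u, P (.anti d s u)) {u : M → c.m.V} (hu : Sm I u)
    (hc : HasCompactSupport u) (hs : tsupport u ⊆ Ω ∩ K) (hq : ∀ x, c.m.pm B x (u x) = u x) :
    u ∈ Ap F' k (TD c B Ω G.F P) := by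
  have hi : ∀ x v, c.m.pm B x (c.m.pm B x v) = c.m.pm B x v := fun x v => by
    rw [← mul_apply_eq_comp, pm_pm h.hB h.ok]
  refine mem_of_span (𝒩 := {w | (∃ a, w = fun x => c.m.pm B x (π x a)) ∨ ∃ s a,
    w = fun x => c.m.pm B x (cs c.m.J (c.co G.F d) (c.m.j x s (π x a)))}) (sm_pm h.ok h.hB)
    (pm_sym h.hB h.ok) hi ?_ ?_ h.opn ?_ (fun x hx v hv h1 => ?_) hu hc hs hq
  · have := fun a => p.sm.clm_apply (contMDiff_const (c := a))
    rintro _ (⟨a, rfl⟩ | ⟨s, a, rfl⟩)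
    exacts [(sm_pm h.ok h.hB).clm_apply (this a),
      (sm_pm h.ok h.hB).clm_apply ((h.sm_dj _ s).clm_apply (this a))]
  · rintro _ (⟨a, rfl⟩ | ⟨s, a, rfl⟩) x <;> exact hi x _
  · rintro f f1 f2 f3 _ (⟨a, rfl⟩ | ⟨s, a, rfl⟩)
    exacts [p.ap_lin h P1 ⟨f1, f2, f3⟩ contMDiff_const,
      p.ap_anti h hd P2 ⟨f1, f2, f3⟩ s contMDiff_const]
  · refine (p.hf x).ext h.hB h.ok (h0 x hx.2) (by rw [← hv, ← mul_apply_eq_comp, p_pm h.ok])
      (ext_inner_left ℝ fun a => ?_) fun s => ext_inner_left ℝ fun a => ?_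
    · simpa only [pm_sym h.hB h.ok x _, hv, p.symm, inner_zero_right] using h1 _ (.inl ⟨a, rfl⟩)
    · simpa only [pm_sym h.hB h.ok x _, hv, cs_j_inv h.ok d0, h.ok.jsym x s _, p.symm,
        inner_zero_right] using h1 _ (.inr ⟨cs B.il (c.co G.F d)⁻¹ s, a, rfl⟩)

variable {g g' : M → ℝ} (hg : Tf I Ω g) (hg' : Tf I Ω g')
include hg hg'

theorem ap_q (P3 : ∀ g g' u v f, P (.ad g g' ⟨.q u v, [.mul f]⟩)) (hf : Tf I (Ω ∩ K) f)
    {a b : M → c.m.V} (ha : Sm I a) (hb : Sm I b) :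
    (fun x => f x • c.m.p2 B x (wg G.F c.m.A g g' x (c.m.q x (π x (a x)) (π x (b x))))) ∈
      Ap F' k (TC c B Ω G.F P) := by
  have hβ := ((ContinuousLinearMap.compL ℝ c.m.V _ _).contMDiff.comp
    (h.sm_pw hg.sm hg'.sm)).clm_comp h.sm_qL
  refine p.loc₂ h.opn h.sm_sw hβ ?_ hf ha hb
  rintro f hf _ ⟨u, hu, rfl⟩ _ ⟨v, hv, rfl⟩
  exact Ap.of_mem (smul_mem_tst hf.sm hf.hcs ((hβ.clm_apply (h.sm_sw _ ⟨u, hu, rfl⟩)).clm_apply
    (h.sm_sw _ ⟨v, hv, rfl⟩))) ⟨.ad g g' ⟨.q u v, [.mul f]⟩,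
    ⟨hg, hg', ⟨hu, hv⟩, llIn_nil.cons (hf.mono inter_subset_left)⟩, P3 _ _ _ _ _,
    funext fun x => by
      simp only [Cfg.tC, ← wg_apply]; exact ((c.m.p2 B x ∘L _).map_smul _ _).symm⟩

theorem ap_qj (hd : CoIn I Ω d) (P4 : ∀ s g g' u v, P (.adj d s g g' u v []))
    (hf : Tf I (Ω ∩ K) f) (s : Eu lam) {a b : M → c.m.V} (ha : Sm I a) (hb : Sm I b) :
    (fun x => f x • c.m.p2 B x (wg G.F c.m.A g g' x
      (c.m.q x (cs c.m.J (c.co G.F d) (c.m.j x s (π x (a x)))) (π x (b x))))) ∈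
      Ap F' k (TC c B Ω G.F P) := by
  have hβ := (((ContinuousLinearMap.compL ℝ c.m.V _ _).contMDiff.comp
    (h.sm_pw hg.sm hg'.sm)).clm_comp h.sm_qL).clm_comp (h.sm_dj (c.co G.F d) s)
  refine p.loc₂ h.opn h.sm_sw hβ ?_ hf ha hb
  rintro f hf _ ⟨u, hu, rfl⟩ _ ⟨v, hv, rfl⟩
  exact Ap.of_mem (smul_mem_tst hf.sm hf.hcs ((hβ.clm_apply (h.sm_sw _ ⟨u, hu, rfl⟩)).clm_apply
    (h.sm_sw _ ⟨v, hv, rfl⟩))) ⟨.adj d (fun x => f x • s) g g' u v [],
    ⟨hd, (hf.mono inter_subset_left).tv s, hg, hg', hu, hv, llIn_nil⟩, P4 _ _ _ _ _,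
    funext fun x => by
      simp only [Cfg.tC, ← wg_apply]
      simp [wd, Cfg.qj, ← Eqv71.csL_apply, ← qL_apply]⟩

omit hg hg' in
/-- **(D2), curvature row** -/
theorem ap_C (h0 : ∀ x ∈ K, π x ≠ 0) (hd : CoIn I Ω d) (d0 : c.co G.F d ≠ 0)
    (P3 : ∀ g g' u v f, P (.ad g g' ⟨.q u v, [.mul f]⟩))
    (P4 : ∀ s g g' u v, P (.adj d s g g' u v []))
    {u : M → Fm (ι × ι) c.m.A} (hu : Sm I u) (hc : HasCompactSupport u) (hs : tsupport u ⊆ Ω ∩ K)
    (hq : ∀ x, c.m.p2 B x (u x) = u x) : u ∈ Ap F' k (TC c B Ω G.F P) := by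
  have sg := Std94.sm_pg h.hB h.ok
  refine mem_two h.hB h.hG.P sg inner_pg pg_pg h.opn (fun g hg g' hg' f hf b => ?_) hu hc hs hq
  have hg := hg.mono inter_subset_left
  have hg' := hg'.mono inter_subset_left
  have := mem_of_span (𝒩 := {w | (∃ a b, w = fun x => c.m.q x (π x a) (π x b)) ∨ ∃ s a b,
    w = fun x => c.m.q x (cs c.m.J (c.co G.F d) (c.m.j x s (π x a))) (π x b)})
    (W := (Ap F' k (TC c B Ω G.F P)).comap (act fun x => c.m.p2 B x ∘L wg G.F c.m.A g g' x))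
    sg inner_pg pg_pg ?_ ?_ h.opn ?_ (fun x hx v hv h1 => ?_)
    (sm_smul hf.sm (sg.clm_apply (contMDiff_const (c := b)))) hf.hcs.smul_right
    ((tsupport_smul_subset_left _ _).trans hf.sub) fun x => by rw [map_smul, pg_pg]
  · convert Submodule.mem_comap.1 this using 1
    ext1 x
    ext1 s
    simp [act, Md.p2, wg_apply, Finset.smul_sum, smul_comm (f x)]
  · have := fun a => p.sm.clm_apply (contMDiff_const (c := a))
    rintro _ (⟨a, b, rfl⟩ | ⟨s, a, b, rfl⟩)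
    exacts [(h.sm_qL.clm_apply (this a)).clm_apply (this b),
      (h.sm_qL.clm_apply ((h.sm_dj _ s).clm_apply (this a))).clm_apply (this b)]
  · rintro _ (⟨a, b, rfl⟩ | ⟨s, a, b, rfl⟩) x <;> exact pg_pg x _
  · rintro f f1 f2 f3 _ (⟨a, b, rfl⟩ | ⟨s, a, b, rfl⟩)
    · simpa only [Submodule.mem_comap, act, LinearMap.coe_mk, AddHom.coe_mk, map_smul,
        ContinuousLinearMap.comp_apply] using
        p.ap_q h hg hg' P3 ⟨f1, f2, f3⟩ contMDiff_const contMDiff_const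
    · simpa only [Submodule.mem_comap, act, LinearMap.coe_mk, AddHom.coe_mk, map_smul,
        ContinuousLinearMap.comp_apply] using
        p.ap_qj h hg hg' hd P4 ⟨f1, f2, f3⟩ s contMDiff_const contMDiff_const
  · have m : v ∈ c.m.gS x := hv ▸ pg_mem x v
    refine (p.hf x).g_zero h.hB h.ok (h0 x hx.2) m (fun b => ext_inner_left ℝ fun a => ?_)
      fun s b => ext_inner_left ℝ fun a => ?_
    · have := h1 _ (.inl ⟨a, b, rfl⟩)
      rwa [real_inner_comm, inner_q' m, real_inner_comm, p.symm, ← inner_zero_right a] at this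
    · have := h1 _ (.inr ⟨cs B.il (c.co G.F d)⁻¹ s, a, b, rfl⟩)
      rwa [real_inner_comm, inner_q' m, real_inner_comm, cs_j_inv h.ok d0, h.ok.jsym, p.symm,
        ← inner_zero_right a] at this

end SP

end Crest.Agent.X212.Wrd81
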