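import Crest.Agent.X212.Wrd81.Cut
import Crest.Agent.X212.Map77.Qm
import Crest.Agent.X212.Wrd81.Adj
import Crest.Agent.X212.Map77.Rp
import Crest.Agent.X212.Mod61.Hs

-- ▼ part X212/Wrd81/Cok
section

/-!
# X212 / WORDS, part 15 (helper81): the cokernel of an elliptic operator is seen in every open set
of full measure.
-/

set_option autoImplicit false
set_option linter.unusedSectionVars false
noncomputable section
open scoped Manifold ContDiff Topology InnerProductSpace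
open MeasureTheory Set Function Filter

namespace Crest.Agent.X212.Wrd81
open An Sob92 Ell97 Map77

/-- a closed subspace which contains the range and is dense at the lowest level is everything -/
theorem pair_top {X Y : ℕ → Type*} [∀ k, NormedAddCommGroup (X k)] [∀ k, InnerProductSpace ℝ (X k)]
    [∀ k, NormedAddCommGroup (Y k)] [∀ k, InnerProductSpace ℝ (Y k)] [∀ k, CompleteSpace (X k)]
    [∀ k, CompleteSpace (Y k)] (P : Pair X Y) (k : ℕ) (N : Submodule ℝ (Y k))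
    (hc : IsClosed (N : Set (Y k))) (hL : ∀ u, P.L k u ∈ N)
    (hd : ∀ U : Submodule ℝ (Y 0), IsClosed (U : Set (Y 0)) → (∀ y ∈ N, dn0 P.j k y ∈ U) →
      ∀ z, z ∈ U) (y : Y k) : y ∈ N := by
  induction k with
  | zero => exact hd N hc (fun _ h => h) y
  | succ k ih =>
    let R := P.j (k + 1) ∘L P.swap.G k
    have a : ∀ y, R (P.j k y) + P.L (k + 1) (P.Ls (k + 2) (P.swap.G (k + 1) y)) = y := fun y =>
      (congrArg (fun z => P.j (k + 1) z + _) (P.swap.G_i k y)).trans (P.swap.Q_G (k + 1) y)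
    have b := ih (N.comap (R : Y k →ₗ[ℝ] Y (k + 1))) (hc.preimage R.continuous) (fun u => by
      obtain ⟨w, rfl⟩ := P.surjX (k + 1) u
      have : P.L k (P.i (k + 1) (P.i (k + 2) w) + P.Ls (k + 1) (P.L (k + 2) w)) =
          P.swap.Q k (P.L (k + 2) w) := by
        rw [map_add, ← P.Li, ← P.Li]; rfl
      change P.j (k + 1) (P.swap.G k _) ∈ N
      rw [this, Half.G_Q, P.Li]
      exact hL _) (fun U hU h => hd U hU fun y hy =>
        h (P.j k y) ((N.add_mem_iff_left (hL _)).1 ((a y).symm ▸ hy))) (P.j k y)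
    exact a y ▸ add_mem b (hL _)

variable {E : Type} [NormedAddCommGroup E] [NormedSpace ℝ E] [FiniteDimensional ℝ E]
  [MeasurableSpace E] [BorelSpace E]
  {HM : Type} [TopologicalSpace HM] {I : ModelWithCorners ℝ E HM} [I.Boundaryless]
  {M : Type} [TopologicalSpace M] [ChartedSpace HM M] [IsManifold I ∞ M]
  [MeasurableSpace M] [T2Space M] [BorelSpace M] [SecondCountableTopology M]
  {ι : Type} [Fintype ι] {ι' : Type} [Fintype ι']
  {V : Type} [NormedAddCommGroup V] [InnerProductSpace ℝ V] [FiniteDimensional ℝ V]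
  {W : Type} [NormedAddCommGroup W] [InnerProductSpace ℝ W] [FiniteDimensional ℝ W]
  {k : ℕ} {Ω : Set M} {p : M → V →L[ℝ] V} {q : M → W →L[ℝ] W}

/-- null sets do not depend on the frame -/
lemma null_frame (F : Pre I M ι) (F' : Pre I M ι') {S : Set M} (h : F.μ S = 0) : F'.μ S = 0 :=
  measure_null_of_locally_null S fun x _ => by
    obtain ⟨O, hO, c, hc⟩ := Prm93.meas_le_loc F F' x
    refine ⟨S ∩ O, inter_mem_nhdsWithin S hO, nonpos_iff_eq_zero.1 ?_⟩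
    rw [← Measure.restrict_eq_self _ inter_subset_right]
    exact (hc _).trans (by simp [measure_mono_null inter_subset_left h])

/-- the closure of the sections supported in `Ω` -/
def HO (F : Pre I M ι) (k : ℕ) (q : M → W →L[ℝ] W) (Ω : Set M) : Submodule ℝ (F.H k q) :=
  SpH F k q {u | tsupport u ⊆ Ω}

section
variable {F : Pre I M ι}

lemma isClosed_HO : IsClosed (HO F k q Ω : Set (F.H k q)) := isClosed_cl _

lemma toH_mem_HO (u : Sec I q) (h : tsupport u.1 ⊆ Ω) : F.toH k q u ∈ HO F k q Ω :=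
  mem_cl ⟨u, h, rfl⟩

lemma HO_map {Z : Type*} [NormedAddCommGroup Z] [NormedSpace ℝ Z] {N : Submodule ℝ Z}
    (hN : IsClosed (N : Set Z)) (L : F.H k q →L[ℝ] Z)
    (h : ∀ u : Sec I q, tsupport u.1 ⊆ Ω → L (F.toH k q u) ∈ N) {y : F.H k q}
    (hy : y ∈ HO F k q Ω) : L y ∈ N :=
  cl_le (U := N.comap (L : F.H k q →ₗ[ℝ] Z)) (hN.preimage L.continuous)
    (by rintro _ ⟨u, hu, rfl⟩; exact h u hu) hy

lemma smulH_mem_HO {g : M → ℝ} (hg : F.Cb g) (hs : tsupport g ⊆ Ω) (y : F.H k q) :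
    smulH F k q g y ∈ HO F k q Ω := by
  induction y using H_ind with
  | hP => exact isClosed_HO.preimage (smulH F k q g).continuous
  | h u =>
    rw [RepT_toH (rep_smulH hg)]
    exact toH_mem_HO _ ((tsupport_smul_subset_left _ _).trans hs)

lemma tsupport_app {N N' : Type} [NormedAddCommGroup N] [NormedSpace ℝ N] [NormedAddCommGroup N']
    [NormedSpace ℝ N'] (T : M → N →L[ℝ] N') (u : M → N) :
    tsupport (fun x => T x (u x)) ⊆ tsupport u := closure_mono fun x hx e => hx (by simp [e])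

lemma tsupport_sec {K : Set M} (hK : IsClosed K) (h : ∀ x ∉ K, q x = 0) (u : Sec I q) :
    tsupport u.1 ⊆ K := closure_minimal (fun x hx => by_contra fun k => hx (by
      rw [← u.2.2.2 x, h x k, zero_apply])) hK

lemma HO_top {K : Set M} (hK : IsClosed K) (h : ∀ x ∉ K, q x = 0) (hΩ : K ⊆ Ω) (y : F.H k q) :
    y ∈ HO F k q Ω := by
  induction y using H_ind with
  | hP => exact isClosed_HO
  | h u => exact toH_mem_HO u ((tsupport_sec hK h u).trans hΩ)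

lemma HO_zero (hΩ : IsOpen Ω) (h0 : F.μ Ωᶜ = 0) (hq : F.Cb q) (hi : ∀ x v, q x (q x v) = q x v)
    (y : F.H 0 q) : y ∈ HO F 0 q Ω := by
  have hL := rep_mulH (k := 0) hq (Maps.of_left (p := triv M W) (q := q) hi)
  have h1 : HO F 0 (triv M W) Ω = ⊤ := by
    have := isClosed_HO (F := F) (k := 0) (q := triv M W) (Ω := Ω) |>.completeSpace_coe
    exact Submodule.orthogonal_eq_bot_iff.1 (eq_bot_iff.2 fun z hz =>
      (l2d W F).eq_zero_of_orth hΩ h0 fun φ hφ => hz _ (toH_mem_HO φ hφ))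
  induction y using H_ind with
  | hP => exact isClosed_HO
  | h u =>
    rw [← RepT_toH' hL ⟨u.1, mem_tst u.2.1 u.2.2.1⟩ u (funext u.2.2.2)]
    refine HO_map isClosed_HO _ (fun v hv => ?_) (h1 ▸ Submodule.mem_top)
    rw [RepT_toH hL]
    exact toH_mem_HO _ ((tsupport_app _ _).trans hv)

end

variable {F : Fr I M ι'} {G : Fr I M ι}

theorem cok0 {C C' : ℕ → ℝ} {A : Op M ι V W} (h1 : G.Tame C) (h2 : A.Good G C') (hc : A.Cliff G)
    (hΩ : IsOpen Ω) (h0 : G.μ Ωᶜ = 0) {N : Submodule ℝ (G.H k A.q)}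
    (hN : IsClosed (N : Set (G.H k A.q))) (hL : ∀ x, A.H G k x ∈ N)
    (hT : ∀ w : Sec I A.q, tsupport w.1 ⊆ Ω → G.toH k _ w ∈ N) (y : G.H k A.q) : y ∈ N := by
  refine pair_top (Ell97.pair (Ell97.reg V G) (Ell97.reg W G) h1 h2 hc) k N hN hL
    (fun U hU h z => HO_map hU (.id ℝ _) (fun u hu => ?_)
      (HO_zero hΩ h0 ⟨_, h2.q.cb⟩ (fun x v => h2.q.idem x v) z)) y
  rw [ContinuousLinearMap.id_apply, ← incl_toH (Nat.zero_le k), ← dn0_incl]
  exact h _ (hT u hu)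

/-- **Cokernel lemma.** -/
theorem cok (h : Tw F G) {A : Op M ι V W} (hA : Nc F.toPre G.P A) (hc : A.Cliff G) (e1 : A.p = p)
    (e2 : A.q = q) (hΩ : IsOpen Ω) (h0 : G.μ Ωᶜ = 0) {N : Submodule ℝ (F.H k q)}
    (hN : IsClosed (N : Set (F.H k q))) (hL : ∀ x, LH F.toPre G.toPre k p q A x ∈ N)
    (hT : ∀ w : Sec I q, tsupport w.1 ⊆ Ω → F.toH k _ w ∈ N) (y : F.H k q) : y ∈ N := by
  subst e1 e2
  obtain ⟨C, h1, h2⟩ := h.good hA
  let e : G.H k A.q →L[ℝ] F.H k A.q := (Prm93.chg k A.q h.cmp).symm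
  have := cok0 h1 h2 hc hΩ h0 (N := N.comap (e : G.H k A.q →ₗ[ℝ] F.H k A.q))
    (hN.preimage e.continuous) (fun x => ?_) (fun w hw => ?_) (Prm93.chg k A.q h.cmp y)
  · simpa [e] using this
  · simpa [e, h.conj hA k] using hL ((Prm93.chg (k + 1) A.p h.cmp).symm x)
  · simpa [e, ← Prm93.chg_toH h.cmp] using hT w hw

/-- the cokernel of the linearised monopole equations -/
theorem cok_lin {κ : Type} [Fintype κ] [DecidableEq κ] {d : Bd M ι κ} (h : d.Hy F G)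
    {u : M → Cf ι κ} (hu : F.Cb u) (hΩ : IsOpen Ω) (h0 : G.μ Ωᶜ = 0)
    {N : Submodule ℝ (F.H k d.pE)} (hN : IsClosed (N : Set (F.H k d.pE)))
    (hL : ∀ x, d.LL F.toPre G k u x ∈ N)
    (hT : ∀ w : Sec I d.pE, tsupport w.1 ⊆ Ω → F.toH k _ w ∈ N) (y : F.H k d.pE) : y ∈ N := by
  let e := sH F.toPre k d.g d.pE
  have := cok (p := d.pC) (q := ps d.g d.pE) h.toTw (h.nc_full hu) (h.cliff_full h.P u) rfl rfl hΩ
    h0 (N := N.comap e.toLinearMap) (hN.preimage e.continuous) (fun x => ?_) (fun w hw => ?_)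
    (iH2 F.toPre k d.g d.pE y)
  · simpa [e] using this
  · simpa [e, h.FF_eq hu x] using hL x
  · rw [Submodule.mem_comap, ContinuousLinearMap.coe_coe, RepT_toH rep_sH]
    exact hT _ ((tsupport_app (fun _ => s2 (HS κ) (Ef ι κ)) w.1).trans hw)

end Crest.Agent.X212.Wrd81
end
end

-- ▼ part X212/Wrd81/Exp

/-!
# X212 / WORDS, part 16 (helper81): the terms in the Banach model.
-/

set_option autoImplicit false
set_option linter.unusedSectionVars false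
noncomputable section
open scoped Manifold ContDiff Topology InnerProductSpace
open MeasureTheory Set Function Filter

namespace Crest.Agent.X212.Wrd81
open An Sob92 Mod61

variable {E : Type} [NormedAddCommGroup E] [NormedSpace ℝ E] [FiniteDimensional ℝ E]
  [MeasurableSpace E] [BorelSpace E]
  {HM : Type} [TopologicalSpace HM] {I : ModelWithCorners ℝ E HM} [I.Boundaryless]
  {M : Type} [TopologicalSpace M] [ChartedSpace HM M] [IsManifold I ∞ M]
  [MeasurableSpace M] [T2Space M] [BorelSpace M] [SecondCountableTopology M]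
  {ι : Type} [Fintype ι] {lam : Type} [Fintype lam]
  {T : Type} [NormedAddCommGroup T] [NormedSpace ℝ T] {r n : ℕ}

/-- the terms needed for density -/
def Bas : Tm M lam r n → Prop
  | .ad _ _ ξ => ∃ f l, ξ.l = .mul f :: l
  | .adn .. => False
  | _ => True

/-- one term as a perturbation -/
def tmX (𝔉 : Mod61.Fam I M ι lam T) (m : ℕ) (τ : Tm M lam r n) (t : T) : PtX M ι lam r n m :=
  ⟨⟨fun c => c.tD 𝔉.B (𝔉.G t).F τ, fun c => c.tC 𝔉.B (𝔉.G t).F τ, fun c => c.tS (𝔉.G t).F τ⟩,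
    fun _ => 0⟩

variable {𝔉 : Mod61.Fam I M ι lam T} {o : Ref 𝔉} {m k : ℕ} {Ω K : Set M}

variable (o Ω n m k) in
/-- equations supported in `Ω` -/
def Lc : Submodule ℝ (o.Y n m k) :=
  (HO 𝔉.F0.toPre k o.Pm Ω).prod ((HO 𝔉.F0.toPre k o.P2 Ω).prod ⊤)

lemma mem_Lc {e : o.Y n m k} :
    e ∈ Lc n o m k Ω ↔ e.1 ∈ HO 𝔉.F0.toPre k o.Pm Ω ∧ e.2.1 ∈ HO 𝔉.F0.toPre k o.P2 Ω := by
  simp [Lc]

variable (n Ω) in
/-- the hypotheses of the density theorem at a smooth point -/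
structure Den (y : Pnt o r) : Prop where
  op : IsOpen Ω
  null : 𝔉.F0.μ (𝔉.Om \ Ω) = 0
  ne : ∀ x ∈ 𝔉.Om', ∃ x' ∈ connectedComponent x, y.cfg.Φ x' ≠ 0
  co : (𝔉.Om' = ∅ ∧ n = 0) ∨ ∃ d, CoIn I Ω d ∧ y.cfg.co (𝔉.G y.t).F d ≠ 0
  full : Full y.cfg (𝔉.G y.t) (𝔉.Om \ 𝔉.Om')

variable (Ω) in
/-- `N` contains the values of the terms at `y` -/
def Has (y : Pnt o r) (N : Submodule ℝ (o.Y n m k)) : Prop :=
  ∀ τ : Tm M lam r n, TmIn I Ω τ → Bas τ → ∀ e, RepE (tmX 𝔉 m τ) y e → e ∈ N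

lemma off_P2 {x : M} (hx : x ∉ 𝔉.Om) : o.P2 x = 0 := by
  ext1 v; ext1 s; simp [Ref.P2, Ref.Pg, hx, Wz78.idx_apply]

lemma on_P2 {x : M} (hx : x ∈ 𝔉.Om) : o.P2 x = o.m.p2 𝔉.B x := by
  rw [Ref.P2, Ref.Pg, indicator_of_mem hx, Md.p2]

variable (h : 𝔉.OK) {y : Pnt o r}
include h

theorem pc (y : Pnt o r) (hK : IsClopen K) (hΩ : IsOpen Ω) (h0 : 𝔉.F0.μ (K \ Ω) = 0) :
    Pc y.cfg 𝔉.B (𝔉.G y.t) K Ω := by
  have a := y.ad0 h
  obtain ⟨C, hC⟩ := h.tameG _ y.ht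
  have b := rh_conn (h.G _ y.ht) hC a.conn fun a =>
    (h.mix _ y.ht).Cb (fun a b => (h.sS a b).cb _ y.ht) (by
      have := Cb_clm (Map77.oa a) (Map77.cb_uy h y)
      simp only [Map77.uy, Map77.oa_base] at this
      exact this)
  exact ⟨h.B, h.G _ y.ht, a.ok, a.conn, a.sm, fun x => by
    rw [← a.pos x, ← mul_apply_eq_comp, Wz78.p_pp a.ok], b.1, b.2, hK, hΩ, null_frame _ _ h0⟩

variable (D : Den n Ω y) {N : Submodule ℝ (o.Y n m k)} (hN : IsClosed (N : Set (o.Y n m k)))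
  (hT : Has Ω y N) (hk : 4 ≤ k)
include D

lemma Den.pc' : Pc y.cfg 𝔉.B (𝔉.G y.t) 𝔉.Om' Ω :=
  pc h y h.Om' D.op (measure_mono_null (sdiff_subset_sdiff_left h.sub) D.null)

include hN hT hk

/-- the Dirac row -/
theorem Den.exp_D {a : 𝔉.F0.H k o.Pm} (ha : a ∈ HO 𝔉.F0.toPre k o.Pm Ω) : (a, 0) ∈ N := by
  let L : 𝔉.F0.H k o.Pm →L[ℝ] o.Y n m k := .inl ℝ _ _
  refine HO_map hN L (fun u hu => ?_) ha
  have s := tsupport_sec h.Om'.1 (fun x hx => indicator_of_notMem hx _) u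
  rcases D.co with d | ⟨d, d1, d2⟩
  · obtain rfl : u = 0 := Subtype.ext (tsupport_eq_empty_iff.1 (subset_eq_empty s d.1))
    simpa only [map_zero] using zero_mem N
  obtain ⟨π, p⟩ := (D.pc' h).exists_sp
  have hi := (Map77.ok_bd o h).sm.idem
  have i2 := fun x v => congrArg (fun S : En (Fin o.m.N) => S v) (Wz78.pm_pm h.B o.ok x)
  refine Ap.map_H (rep_mulH (h.cPm o) (Maps.of_left hi)) (U := N.comap L.toLinearMap)
    (hN.preimage L.continuous) ?_ (p.ap_D (F' := 𝔉.F0.toPre) (k := k)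
      (P := fun τ : Tm M lam r n => Bas τ ∧ (∀ x, o.m.pm 𝔉.B x ((tmX 𝔉 m τ y.t).D y.cfg x) =
        (tmX 𝔉 m τ y.t).D y.cfg x) ∧ (tmX 𝔉 m τ y.t).C y.cfg = 0 ∧ (tmX 𝔉 m τ y.t).S y.cfg = 0)
      (D.pc' h) (p.ne_zero D.ne h.Om') d1 d2 ?_ ?_ u.2.1 u.2.2.1 (subset_inter hu s)
      fun x => ind_fix (u.2.2.2 x)) u (funext u.2.2.2).symm
  · rintro _ ⟨τ, t1, ⟨t2, t3, t4, t5⟩, rfl⟩ - w hw
    refine hT τ t1 t2 _ ⟨(val_toH h.sup hk w).trans (hw.trans (funext fun x => ?_)), ?_, t5.symm, rfl⟩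
    · by_cases hx : x ∈ 𝔉.Om'
      · rw [Ref.Pm, indicator_of_mem hx, indicator_of_mem hx]; exact t3 x
      · rw [Ref.Pm, indicator_of_notMem hx, indicator_of_notMem hx]; rfl
    · rw [t4, indicator_zero']; exact val_zero
  · exact fun u => ⟨trivial, fun x => i2 x _, rfl, rfl⟩
  · exact fun s u => ⟨trivial, fun x => i2 x _, rfl, rfl⟩

/-- the curvature row -/
theorem Den.exp_C {b : 𝔉.F0.H k o.P2} (hb : b ∈ HO 𝔉.F0.toPre k o.P2 Ω) : (0, b, 0) ∈ N := by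
  let L : 𝔉.F0.H k o.P2 →L[ℝ] o.Y n m k := .inr ℝ _ _ ∘L .inl ℝ _ _
  refine HO_map hN L (fun u hu => ?_) hb
  have s := tsupport_sec h.Om.1 (fun x hx => off_P2 hx) u
  have hi := ((Map77.ok_bd o h).prj2).idem
  have i2 := Std94.p2_p2 (m := o.m) h.B
  let P := fun τ : Tm M lam r n => Bas τ ∧ (∀ x, o.m.p2 𝔉.B x ((tmX 𝔉 m τ y.t).C y.cfg x) =
    (tmX 𝔉 m τ y.t).C y.cfg x) ∧ (tmX 𝔉 m τ y.t).D y.cfg = 0 ∧ (tmX 𝔉 m τ y.t).S y.cfg = 0
  have P3 : ∀ g g' t f l, P (.ad g g' ⟨t, .mul f :: l⟩) := fun _ _ _ _ _ =>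
    ⟨⟨_, _, rfl⟩, fun x => i2 x _, rfl, rfl⟩
  have c : ∀ {K}, IsClopen K → Sm I (K.indicator u.1) ∧ HasCompactSupport (K.indicator u.1) ∧
      tsupport (K.indicator u.1) ⊆ Ω ∩ K ∧
      ∀ x, o.m.p2 𝔉.B x (K.indicator u.1 x) = K.indicator u.1 x := fun {K} hK => by
    have e : support (K.indicator u.1) ⊆ K ∩ support u.1 := support_indicator.subset
    refine ⟨Eqv71.sm_ind hK fun x _ => u.2.1 x, u.2.2.1.mono (e.trans inter_subset_right),
      subset_inter ((closure_mono (e.trans inter_subset_right)).trans hu)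
        (closure_minimal (e.trans inter_subset_left) hK.1), fun x => ?_⟩
    by_cases hx : x ∈ K ∧ x ∈ 𝔉.Om
    · rw [indicator_of_mem hx.1, ← on_P2 hx.2, u.2.2.2]
    · rw [notMem_support.1 fun k => hx ⟨(e k).1, s (subset_closure (e k).2)⟩, map_zero]
  refine Ap.map_H (𝒯 := TC y.cfg 𝔉.B Ω (𝔉.G y.t).F P) (rep_mulH (h.cP2 o) (Maps.of_left hi))
    (U := N.comap L.toLinearMap) (hN.preimage L.continuous) ?_ ?_ u (funext u.2.2.2).symm
  · rintro _ ⟨τ, t1, ⟨t2, t3, t4, t5⟩, rfl⟩ - w hw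
    refine hT τ t1 t2 _ ⟨?_, (val_toH h.sup hk w).trans (hw.trans (funext fun x => ?_)), t5.symm, rfl⟩
    · rw [t4, indicator_zero']; exact val_zero
    · by_cases hx : x ∈ 𝔉.Om
      · rw [on_P2 hx, indicator_of_mem hx]; exact t3 x
      · rw [off_P2 hx, indicator_of_notMem hx]; rfl
  have e : u.1 = 𝔉.Om'.indicator u.1 + (𝔉.Om \ 𝔉.Om').indicator u.1 := by
    rw [Pi.add_def, ← indicator_union_of_disjoint disjoint_sdiff_right, union_sdiff_cancel h.sub,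
      indicator_eq_self.2 (subset_closure.trans s)]
  rw [e]
  refine add_mem ?_ ?_
  · rcases D.co with d | ⟨d, d1, d2⟩
    · rw [d.1, indicator_empty']; exact zero_mem _
    obtain ⟨π, p⟩ := (D.pc' h).exists_sp
    obtain ⟨c1, c2, c3, c4⟩ := c h.Om'
    exact p.ap_C (D.pc' h) (p.ne_zero D.ne h.Om') d1 d2 (fun _ _ _ _ _ => P3 _ _ _ _ _)
      (fun _ _ _ _ _ => ⟨trivial, fun x => i2 x _, rfl, rfl⟩) c1 c2 c3 c4
  · obtain ⟨c1, c2, c3, c4⟩ := c (h.Om.diff h.Om')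
    exact (pc h y (h.Om.diff h.Om') D.op (measure_mono_null (sdiff_subset_sdiff_left sdiff_subset)
      D.null)).ap_full D.full P3 c1 c2 c3 c4

omit h hN hk in
/-- the scalar rows -/
theorem Den.exp_S (s : Fin n → ℂ) : (0, 0, s, 0) ∈ N := by
  rcases D.co with d | ⟨d, d1, d2⟩
  · obtain rfl : s = 0 := funext fun i => (d.2 ▸ i).elim0
    exact zero_mem _
  have a : ∀ i w, ((0, 0, Pi.single i w, 0) : o.Y n m k) ∈ N := fun i w => by
    have z : ∀ {τ : Tm M lam r n}, TmIn I Ω τ → Bas τ → (tmX 𝔉 m τ y.t).D y.cfg = 0 →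
        (tmX 𝔉 m τ y.t).C y.cfg = 0 → ((0, 0, (tmX 𝔉 m τ y.t).S y.cfg, 0) : o.Y n m k) ∈ N :=
      fun t1 t2 t3 t4 => hT _ t1 t2 _ ⟨by rw [t3, indicator_zero']; exact val_zero,
        by rw [t4, indicator_zero']; exact val_zero, rfl, rfl⟩
    cases d with
    | z j => exact div_mul_cancel₀ w d2 ▸ z (τ := .cz i _ j) trivial trivial rfl rfl
    | s g L =>
      exact div_mul_cancel₀ w (div_ne_zero_iff.1 d2).1 ▸ z (τ := .cut i _ g) d1.1 trivial rfl rfl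
  have e : ((0, 0, s, 0) : o.Y n m k) = ∑ i, (0, 0, Pi.single i (s i), 0) := by
    simp [Prod.ext_iff, Prod.fst_sum, Prod.snd_sum, Finset.univ_sum_single]
  exact e ▸ sum_mem fun i _ => a i _

theorem Den.lc_le (hR : ∀ ρ, ∃ e ∈ N, e ∈ Lc n o m k Ω ∧ e.2.2.2 = ρ) : Lc n o m k Ω ≤ N := by
  intro e he
  obtain ⟨e', h1, h2, h3⟩ := hR e.2.2.2
  obtain ⟨h4, h5⟩ := mem_Lc.1 (sub_mem he h2)
  convert add_mem (add_mem (add_mem (D.exp_D h hN hT hk h4) (D.exp_C h hN hT hk h5))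
    (D.exp_S hT (e - e').2.2.1)) h1 using 1
  simp [Prod.ext_iff, h3]

end Crest.Agent.X212.Wrd81
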