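import Crest.Agent.X212.Wrd81.Par
import Crest.Agent.X212.Sob92.Ev
import Crest.Agent.X212.Mp86.Res
import Crest.Agent.X212.Cht98.Br
import Crest.Agent.X212.Mon62.Abs
import Crest.Agent.X212.Prm93.Chg
import Crest.Agent.X212.Ell97.Nab
import Crest.Agent.X212.Cht98.Reg

-- ▼ part X212/Wrd81/L2
section

/-!
# X212 / WORDS, part 5 (helper81): `L²` tools.  Integration by parts, cut-offs, weak
representatives, multiplication operators, resolvent data.
-/

set_option autoImplicit false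
set_option linter.unusedSectionVars false
noncomputable section
open scoped Manifold ContDiff Topology InnerProductSpace
open MeasureTheory Set Function Filter

namespace Crest.Agent.X212.Wrd81
open Crest.Agent.X212.An

variable {E : Type} [NormedAddCommGroup E] [NormedSpace ℝ E] [FiniteDimensional ℝ E]
  [MeasurableSpace E] [BorelSpace E]
  {HM : Type} [TopologicalSpace HM] {I : ModelWithCorners ℝ E HM}
  {M : Type} [TopologicalSpace M] [ChartedSpace HM M] [IsManifold I ∞ M]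
  [MeasurableSpace M] [T2Space M] [BorelSpace M] {ι : Type} [Fintype ι]
  {V : Type} [NormedAddCommGroup V] [InnerProductSpace ℝ V]

/-- skew connection form -/
def Skw (A : ι → M → V →L[ℝ] V) : Prop := ∀ a x v w, ⟪A a x v, w⟫_ℝ = -⟪v, A a x w⟫_ℝ

lemma sm_inner {u v : M → V} (hu : Sm I u) (hv : Sm I v) : Sm I fun x => ⟪u x, v x⟫_ℝ :=
  Sob92.smooth_bil (innerSL ℝ) hu hv

lemma hcs_inner {u : M → V} (hc : HasCompactSupport u) (v : M → V) :
    HasCompactSupport fun x => ⟪u x, v x⟫_ℝ := hc.mono fun x hx h => hx (by simp [h])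

lemma tsupport_cov (F : Pre I M ι) (A : ι → M → V →L[ℝ] V) (u : M → V) (a : ι) :
    tsupport (cov F A a u) ⊆ tsupport u := by
  refine closure_minimal (fun x hx => ?_) (isClosed_tsupport u)
  by_contra h
  apply hx
  have h1 : F.D a u x = 0 := Sob92.dv_eq_zero_of_notMem h
  simp [cov, h1, image_eq_zero_of_notMem_tsupport h]

lemma hcs_cov (F : Pre I M ι) (A : ι → M → V →L[ℝ] V) {u : M → V} (hc : HasCompactSupport u)
    (a : ι) : HasCompactSupport (cov F A a u) :=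
  hc.of_isClosed_subset (isClosed_tsupport _) (tsupport_cov F A u a)

lemma hcs_lap1 (F : Fr I M ι) (A : ι → M → V →L[ℝ] V) {u : M → V} (hc : HasCompactSupport u) :
    HasCompactSupport (lap1 F A u) := by
  refine HasCompactSupport.intro hc fun x hx => ?_
  have h1 : ∀ a, cov F.toPre A a u x = 0 := fun a =>
    image_eq_zero_of_notMem_tsupport fun h => hx (tsupport_cov _ A u a h)
  have h2 : ∀ a, cov F.toPre A a (cov F.toPre A a u) x = 0 := fun a =>
    image_eq_zero_of_notMem_tsupport fun h => hx (tsupport_cov _ A u a (tsupport_cov _ A _ a h))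
  simp [lap1, h1, h2, image_eq_zero_of_notMem_tsupport hx]

lemma ibp_cov (F : Fr I M ι) {A : ι → M → V →L[ℝ] V} (hA : ∀ a, Sm I (A a)) (hs : Skw A)
    {φ u : M → V} (hφ : Sm I φ) (hc : HasCompactSupport φ) (hu : Sm I u) (a : ι) :
    ∫ x, ⟪cov F.toPre A a φ x, u x⟫_ℝ ∂F.μ + ∫ x, ⟪φ x, cov F.toPre A a u x⟫_ℝ ∂F.μ =
      -∫ x, F.dv a x * ⟪φ x, u x⟫_ℝ ∂F.μ := by
  rw [← F.ibp a _ (sm_inner hφ hu) (hcs_inner hc u), ← integral_add
    (F.integrable_inner (sm_cov _ hA hφ a).continuous (hcs_cov _ A hc a) hu.continuous)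
    (F.integrable_inner hφ.continuous hc (sm_cov _ hA hu a).continuous)]
  refine integral_congr_ae (Eventually.of_forall fun x => ?_)
  have : Sob92.dv I (F.e a) (fun y => ⟪φ y, u y⟫_ℝ) x =
      ⟪Sob92.dv I (F.e a) φ x, u x⟫_ℝ + ⟪φ x, Sob92.dv I (F.e a) u x⟫_ℝ :=
    Sob92.dv_bil (e := F.e a) (innerSL ℝ) (md hφ x) (md hu x)
  simp only [cov, Pre.D, this, inner_add_left, inner_add_right, hs a x]
  ring

lemma integrable_dv (F : Fr I M ι) {φ u : M → V} (hφ : Sm I φ) (hc : HasCompactSupport φ)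
    (hu : Sm I u) (a : ι) : Integrable (fun x => F.dv a x * ⟪φ x, u x⟫_ℝ) F.μ :=
  ((F.dv_sm a).continuous.mul (sm_inner hφ hu).continuous).integrable_of_hasCompactSupport
    (hcs_inner hc u).mul_left

/-- `1 + ∇^*∇` is formally self-adjoint -/
lemma ibp_lap1 (F : Fr I M ι) {A : ι → M → V →L[ℝ] V} (hA : ∀ a, Sm I (A a)) (hs : Skw A)
    {φ u : M → V} (hφ : Sm I φ) (hc : HasCompactSupport φ) (hu : Sm I u) :
    ∫ x, ⟪lap1 F A φ x, u x⟫_ℝ ∂F.μ = ∫ x, ⟪φ x, lap1 F A u x⟫_ℝ ∂F.μ := by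
  have i0 := F.integrable_inner hφ.continuous hc hu.continuous
  have i1 := fun a => F.integrable_inner (sm_cov _ hA (sm_cov _ hA hφ a) a).continuous
    (hcs_cov F.toPre A (hcs_cov F.toPre A hc a) a) hu.continuous
  have i2 := fun a => integrable_dv F (sm_cov _ hA hφ a) (hcs_cov F.toPre A hc a) hu a
  have i3 := fun a => F.integrable_inner hφ.continuous hc
    (sm_cov F.toPre hA (sm_cov F.toPre hA hu a) a).continuous
  have i4 := fun a => integrable_dv F hφ hc (sm_cov F.toPre hA hu a) a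
  simp only [lap1, inner_sub_left, inner_sub_right, sum_inner, inner_sum, inner_add_left,
    inner_add_right, real_inner_smul_left, real_inner_smul_right]
  have j1 : ∀ a, Integrable (fun x => ⟪cov F.toPre A a (cov F.toPre A a φ) x, u x⟫_ℝ +
      F.dv a x * ⟪cov F.toPre A a φ x, u x⟫_ℝ) F.μ := fun a => (i1 a).add (i2 a)
  have j3 : ∀ a, Integrable (fun x => ⟪φ x, cov F.toPre A a (cov F.toPre A a u) x⟫_ℝ +
      F.dv a x * ⟪φ x, cov F.toPre A a u x⟫_ℝ) F.μ := fun a => (i3 a).add (i4 a)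
  rw [integral_sub i0 (integrable_finsetSum _ fun a _ => j1 a),
    integral_sub i0 (integrable_finsetSum _ fun a _ => j3 a),
    integral_finsetSum _ fun a _ => j1 a, integral_finsetSum _ fun a _ => j3 a]
  congr 1
  refine Finset.sum_congr rfl fun a _ => ?_
  rw [integral_add (i1 a) (i2 a), integral_add (i3 a) (i4 a)]
  have h1 := ibp_cov F hA hs (sm_cov _ hA hφ a) (hcs_cov F.toPre A hc a) hu a
  have h2 := ibp_cov F hA hs hφ hc (sm_cov F.toPre hA hu a) a
  linarith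

/-- compactly supported smooth functions with values in `V` -/
abbrev Tst (I : ModelWithCorners ℝ E HM) (M V : Type) [TopologicalSpace M] [ChartedSpace HM M]
    [NormedAddCommGroup V] [InnerProductSpace ℝ V] : Submodule ℝ (M → V) := Sec I (triv M V)

lemma mem_tst {u : M → V} (hu : Sm I u) (hc : HasCompactSupport u) : u ∈ Tst I M V :=
  ⟨hu, hc, fun _ => rfl⟩

lemma smul_mem_tst {f : M → ℝ} (hf : Sm I f) (hc : HasCompactSupport f) {u : M → V}
    (hu : Sm I u) : (fun x => f x • u x) ∈ Tst I M V := mem_tst (sm_smul hf hu) hc.smul_right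

/-- a smooth function orthogonal to all test functions supported in a dense open set vanishes -/
lemma eq_zero_of_tst (μ : Measure M) [IsFiniteMeasureOnCompacts μ] [μ.IsOpenPosMeasure]
    {Ω : Set M} (hΩ : IsOpen Ω) (hd : Dense Ω) {u : M → V} (hu : Sm I u)
    (h : ∀ φ ∈ Tst I M V, tsupport φ ⊆ Ω → ∫ x, ⟪φ x, u x⟫_ℝ ∂μ = 0) : u = 0 := by
  refine Continuous.ext_on hd hu.continuous continuous_const fun x hx => ?_
  by_contra hne
  obtain ⟨χ, hχ, hc, hs, h1⟩ := exists_bump (I := I) (hΩ.mem_nhds hx)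
  have h0 := h _ (smul_mem_tst (hχ.mul hχ) hc.mul_right hu)
    ((tsupport_smul_subset_left _ _).trans (tsupport_mul_subset_left.trans hs))
  have hpos : 0 < ∫ y, ⟪(χ * χ) y • u y, u y⟫_ℝ ∂μ := by
    refine Continuous.integral_pos_of_hasCompactSupport_nonneg_nonzero (x := x)
      (sm_inner (sm_smul (hχ.mul hχ) hu) hu).continuous
      (hcs_inner (HasCompactSupport.smul_right hc.mul_right) u) (fun y => ?_) ?_
    · simp only [real_inner_smul_left, Pi.mul_apply]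
      exact mul_nonneg (mul_self_nonneg _) real_inner_self_nonneg
    · have : χ x = 1 := h1.eq_of_nhds
      simpa [this] using hne
  exact hpos.ne' h0

variable [SecondCountableTopology M]

/-- cut-off functions -/
lemma exists_cut {K Ω : Set M} (hK : IsCompact K) (hΩ : IsOpen Ω) (h : K ⊆ Ω) :
    ∃ g : M → ℝ, Sm I g ∧ HasCompactSupport g ∧ tsupport g ⊆ Ω ∧ ∀ x ∈ K, g x = 1 := by
  have : LocallyCompactSpace M := Manifold.locallyCompact_of_finiteDimensional I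
  obtain ⟨L, hL, hKL, hLΩ⟩ := exists_compact_between hK hΩ h
  obtain ⟨f, h0, h1, -⟩ := exists_contMDiffMap_zero_one_of_isClosed I (n := ⊤)
    (isOpen_interior (s := L)).isClosed_compl hK.isClosed
    (disjoint_compl_left_iff_subset.2 hKL)
  have hs : tsupport f ⊆ L := closure_minimal (fun x hx => by
    by_contra hx'
    exact hx (h0 fun h => hx' (interior_subset h))) hL.isClosed
  exact ⟨f, f.contMDiff, hL.of_isClosed_subset (isClosed_tsupport _) hs, hs.trans hLΩ, h1⟩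

/-- test functions can be approximated in `L²` by test functions supported in an open set of full
measure -/
lemma exists_approx (μ : Measure M) [IsFiniteMeasureOnCompacts μ] {Ω : Set M} (hΩ : IsOpen Ω)
    (h0 : μ Ωᶜ = 0) {φ : M → V} (hφ : φ ∈ Tst I M V) :
    ∃ ψ : ℕ → M → V, (∀ n, ψ n ∈ Tst I M V ∧ tsupport (ψ n) ⊆ Ω) ∧
      Tendsto (fun n => ∫ x, ⟪φ x - ψ n x, φ x - ψ n x⟫_ℝ ∂μ) atTop (𝓝 0) := by
  have : LocallyCompactSpace M := Manifold.locallyCompact_of_finiteDimensional I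
  obtain ⟨h, hs, hsm, hp⟩ := hΩ.exists_contMDiff_support_eq I (n := ⊤)
  let g : ℕ → M → ℝ := fun n x => Real.smoothTransition (n * h x - 1)
  have hg : ∀ n, Sm I (g n) := fun n =>
    (Real.smoothTransition.contDiff (n := ⊤)).contMDiff.comp
      ((contMDiff_const.mul hsm).sub contMDiff_const)
  have hgs : ∀ n, tsupport (g n) ⊆ Ω := by
    intro n
    have hc : IsClosed {x | 1 ≤ (n : ℝ) * h x} :=
      isClosed_le continuous_const (continuous_const.mul hsm.continuous)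
    refine (closure_minimal (fun x hx => ?_) hc).trans fun x hx => ?_
    · by_contra hx'
      exact hx (Real.smoothTransition.zero_of_nonpos (by simp at hx'; linarith))
    · rw [← hs]
      intro h0
      simp [h0] at hx
      linarith
  refine ⟨fun n x => g n x • φ x, fun n => ⟨mem_tst (sm_smul (hg n) hφ.1) hφ.2.1.smul_left,
    (tsupport_smul_subset_left _ _).trans (hgs n)⟩, ?_⟩
  have e : ∀ n x, ⟪φ x - g n x • φ x, φ x - g n x • φ x⟫_ℝ = (1 - g n x) ^ 2 * ⟪φ x, φ x⟫_ℝ := by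
    intro n x
    have : φ x - g n x • φ x = (1 - g n x) • φ x := by rw [sub_smul, one_smul]
    rw [this, real_inner_smul_left, real_inner_smul_right]; ring
  simp only [e]
  have hi : Integrable (fun x => ⟪φ x, φ x⟫_ℝ) μ :=
    (sm_inner hφ.1 hφ.1).continuous.integrable_of_hasCompactSupport (hcs_inner hφ.2.1 φ)
  have := tendsto_integral_of_dominated_convergence (μ := μ)
    (F := fun n x => (1 - g n x) ^ 2 * ⟪φ x, φ x⟫_ℝ) (f := fun _ => (0 : ℝ))
    (fun x => ⟪φ x, φ x⟫_ℝ)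
    (fun n => (((continuous_const.sub (hg n).continuous).pow 2).mul
      (sm_inner hφ.1 hφ.1).continuous).aestronglyMeasurable) hi
    (fun n => Eventually.of_forall fun x => by
      have h1 : 0 ≤ g n x := Real.smoothTransition.nonneg _
      have h2 : g n x ≤ 1 := Real.smoothTransition.le_one _
      have h3 : 0 ≤ ⟪φ x, φ x⟫_ℝ := real_inner_self_nonneg
      rw [Real.norm_of_nonneg (by positivity)]
      have : (1 - g n x) ^ 2 ≤ 1 := by nlinarith
      nlinarith)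
    (by
      have : ∀ᵐ x ∂μ, x ∈ Ω := h0
      filter_upwards [this] with x hx
      have hx' : 0 < h x := lt_of_le_of_ne (hp x) (by rw [← hs] at hx; exact Ne.symm hx)
      refine tendsto_const_nhds.congr' ?_
      have := (tendsto_natCast_atTop_atTop (R := ℝ)).atTop_mul_const hx'
      filter_upwards [this.eventually_ge_atTop 2] with n hn
      have : g n x = 1 := Real.smoothTransition.one_of_one_le (by linarith)
      simp [this])
  simpa using this

/-- an `L²` space: a Hilbert space containing the test functions as a dense subspace -/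
structure L2D (I : ModelWithCorners ℝ E HM) (μ : Measure M) (V H : Type) [NormedAddCommGroup V]
    [InnerProductSpace ℝ V] [NormedAddCommGroup H] [InnerProductSpace ℝ H] where
  j : Tst I M V →ₗ[ℝ] H
  inner_j : ∀ u v, ⟪j u, j v⟫_ℝ = ∫ x, ⟪u.1 x, v.1 x⟫_ℝ ∂μ
  dense : DenseRange j

namespace L2D
variable {μ : Measure M} {H : Type} [NormedAddCommGroup H] [InnerProductSpace ℝ H]
  (r : L2D I μ V H)

/-- `u` represents `x` -/
def Rp (x : H) (u : M → V) : Prop := ∀ φ : Tst I M V, ⟪r.j φ, x⟫_ℝ = ∫ y, ⟪φ.1 y, u y⟫_ℝ ∂μ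

lemma rp_j (u : Tst I M V) : r.Rp (r.j u) u.1 := fun φ => r.inner_j φ u

lemma ext {x y : H} (h : ∀ φ, ⟪r.j φ, x⟫_ℝ = ⟪r.j φ, y⟫_ℝ) : x = y := by
  have h1 : ∀ z, ⟪z, x⟫_ℝ = ⟪z, y⟫_ℝ := fun z => congrFun
    (r.dense.equalizer (g := fun z => ⟪z, x⟫_ℝ) (h := fun z => ⟪z, y⟫_ℝ) (by fun_prop)
      (by fun_prop) (funext h)) z
  exact ext_inner_left ℝ h1

variable {r}

lemma Rp.unique {x y : H} {u : M → V} (hx : r.Rp x u) (hy : r.Rp y u) : x = y :=
  r.ext fun φ => by rw [hx, hy]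

variable [IsFiniteMeasureOnCompacts μ]

lemma integrable {φ u : M → V} (hφ : φ ∈ Tst I M V) (hu : Sm I u) :
    Integrable (fun y => ⟪φ y, u y⟫_ℝ) μ :=
  (sm_inner hφ.1 hu).continuous.integrable_of_hasCompactSupport (hcs_inner hφ.2.1 u)

lemma Rp.add {x y : H} {u v : M → V} (hx : r.Rp x u) (hy : r.Rp y v) (hu : Sm I u)
    (hv : Sm I v) : r.Rp (x + y) (u + v) := fun φ => by
  rw [inner_add_right, hx, hy, ← integral_add (integrable φ.2 hu) (integrable φ.2 hv)]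
  simp only [Pi.add_apply, inner_add_right]

lemma Rp.smul {x : H} {u : M → V} (hx : r.Rp x u) (c : ℝ) : r.Rp (c • x) (c • u) := fun φ => by
  rw [real_inner_smul_right, hx, ← integral_const_mul]
  simp only [Pi.smul_apply, real_inner_smul_right]

lemma Rp.eq [μ.IsOpenPosMeasure] {x : H} {u v : M → V} (hx : r.Rp x u) (hy : r.Rp x v)
    (hu : Sm I u) (hv : Sm I v) : u = v := by
  rw [← sub_eq_zero]
  refine eq_zero_of_tst μ isOpen_univ dense_univ (hu.sub hv) fun φ hφ _ => ?_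
  simp only [Pi.sub_apply, inner_sub_right]
  rw [integral_sub (integrable hφ hu) (integrable hφ hv), ← hx ⟨φ, hφ⟩, ← hy ⟨φ, hφ⟩, sub_self]

variable (r)

/-- an element orthogonal to the test functions supported in an open set of full measure is zero -/
lemma eq_zero_of_orth {Ω : Set M} (hΩ : IsOpen Ω) (h0 : μ Ωᶜ = 0) {z : H}
    (h : ∀ φ : Tst I M V, tsupport φ.1 ⊆ Ω → ⟪r.j φ, z⟫_ℝ = 0) : z = 0 := by
  refine r.ext fun φ => ?_
  obtain ⟨ψ, hψ, ht⟩ := exists_approx μ hΩ h0 φ.2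
  have h1 : Tendsto (fun n => r.j ⟨ψ n, (hψ n).1⟩) atTop (𝓝 (r.j φ)) := by
    rw [tendsto_iff_norm_sub_tendsto_zero]
    have e : ∀ n, ‖r.j ⟨ψ n, (hψ n).1⟩ - r.j φ‖ =
        √(∫ x, ⟪φ.1 x - ψ n x, φ.1 x - ψ n x⟫_ℝ ∂μ) := by
      intro n
      rw [norm_sub_rev, ← map_sub, norm_eq_sqrt_real_inner, r.inner_j]
      rfl
    simp only [e]
    simpa using ht.sqrt
  have h2 := h1.inner (𝕜 := ℝ) (tendsto_const_nhds (x := z))
  simp only [h ⟨ψ _, (hψ _).1⟩ (hψ _).2] at h2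
  rw [inner_zero_right]
  exact tendsto_nhds_unique h2 tendsto_const_nhds

/-- a field of endomorphisms acting on test functions -/
def tstMul {T : M → V →L[ℝ] V} (hT : Sm I T) : Tst I M V →ₗ[ℝ] Tst I M V where
  toFun u := ⟨fun x => T x (u.1 x), mem_tst (hT.clm_apply u.2.1)
    (u.2.2.1.mono fun x hx h => hx (by simp [h]))⟩
  map_add' u v := Subtype.ext (funext fun x => map_add (T x) _ _)
  map_smul' c u := Subtype.ext (funext fun x => map_smul (T x) _ _)

/-- multiplication by a bounded smooth field of endomorphisms -/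
lemma exists_mul [CompleteSpace H] {T : M → V →L[ℝ] V} (hT : Sm I T) {C : ℝ}
    (hC : ∀ x, ‖T x‖ ≤ C) : ∃ m : H →L[ℝ] H, ∀ u, m (r.j u) = r.j (tstMul hT u) := by
  have hb : ∀ u, ‖(r.j ∘ₗ tstMul hT) u‖ ≤ |C| * ‖r.j u‖ := by
    intro u
    refine (abs_le_of_sq_le_sq' ?_ (by positivity)).2
    rw [mul_pow, ← real_inner_self_eq_norm_sq, ← real_inner_self_eq_norm_sq, LinearMap.comp_apply,
      r.inner_j, r.inner_j, ← integral_const_mul]
    refine integral_mono (integrable (tstMul hT u).2 (tstMul hT u).2.1)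
      ((integrable u.2 u.2.1).const_mul _) fun x => ?_
    simp only [real_inner_self_eq_norm_sq, ← mul_pow]
    refine pow_le_pow_left₀ (norm_nonneg _) ?_ 2
    exact ((T x).le_opNorm _).trans
      (mul_le_mul_of_nonneg_right ((hC x).trans (le_abs_self C)) (norm_nonneg _))
  exact ⟨(r.j ∘ₗ tstMul hT).extendOfNorm r.j, fun u =>
    LinearMap.extendOfNorm_eq r.dense ⟨_, hb⟩ u⟩

lemma exists_mul_of_hcs [CompleteSpace H] {T : M → V →L[ℝ] V} (hT : Sm I T)
    (hc : HasCompactSupport T) : ∃ m : H →L[ℝ] H, ∀ u, m (r.j u) = r.j (tstMul hT u) :=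
  let ⟨_, hC⟩ := hT.continuous.bounded_above_of_compact_support hc
  r.exists_mul hT hC

variable {r}

/-- multiplication operators of transposed fields are adjoint -/
lemma mul_adj {T T' : M → V →L[ℝ] V} {hT : Sm I T} {hT' : Sm I T'}
    (ht : ∀ x v w, ⟪T x v, w⟫_ℝ = ⟪v, T' x w⟫_ℝ) {m m' : H →L[ℝ] H}
    (hm : ∀ u, m (r.j u) = r.j (tstMul hT u)) (hm' : ∀ u, m' (r.j u) = r.j (tstMul hT' u))
    (x y : H) : ⟪m x, y⟫_ℝ = ⟪x, m' y⟫_ℝ := by
  refine r.dense.induction_on₂ (p := fun x y => ⟪m x, y⟫_ℝ = ⟪x, m' y⟫_ℝ)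
    (isClosed_eq (by fun_prop) (by fun_prop)) (fun u v => ?_) x y
  rw [hm, hm', r.inner_j, r.inner_j]
  exact integral_congr_ae (Eventually.of_forall fun z => ht z _ _)

/-- multiplication operators act on representatives -/
lemma Rp.mul {T T' : M → V →L[ℝ] V} {hT : Sm I T} {hT' : Sm I T'}
    (ht : ∀ x v w, ⟪T x v, w⟫_ℝ = ⟪v, T' x w⟫_ℝ) {m m' : H →L[ℝ] H}
    (hm : ∀ u, m (r.j u) = r.j (tstMul hT u)) (hm' : ∀ u, m' (r.j u) = r.j (tstMul hT' u))
    {x : H} {u : M → V} (hx : r.Rp x u) : r.Rp (m x) fun y => T y (u y) := fun φ => by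
  rw [real_inner_comm, mul_adj ht hm hm', hm', real_inner_comm, hx]
  refine integral_congr_ae (Eventually.of_forall fun z => ?_)
  change ⟪T' z (φ.1 z), u z⟫_ℝ = ⟪φ.1 z, T z (u z)⟫_ℝ
  rw [real_inner_comm, ← ht, real_inner_comm]

end L2D

end Crest.Agent.X212.Wrd81
end
end

-- ▼ part X212/Wrd81/Dens
section

/-!
# X212 / WORDS, part 6 (helper81): the closed span of a family of words which is stable under the
resolvent is the space of sections of a smooth parallel subbundle.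
-/

set_option autoImplicit false
set_option linter.unusedSectionVars false
noncomputable section
open scoped Manifold ContDiff Topology InnerProductSpace
open MeasureTheory Set Function Filter

namespace Crest.Agent.X212.Wrd81
open Crest.Agent.X212.An

variable {E : Type} [NormedAddCommGroup E] [NormedSpace ℝ E] [FiniteDimensional ℝ E]
  [MeasurableSpace E] [BorelSpace E]
  {HM : Type} [TopologicalSpace HM] {I : ModelWithCorners ℝ E HM}
  {M : Type} [TopologicalSpace M] [ChartedSpace HM M] [IsManifold I ∞ M]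
  [MeasurableSpace M] [T2Space M] [BorelSpace M] [SecondCountableTopology M]
  {ι : Type} [Fintype ι]
  {V : Type} [NormedAddCommGroup V] [InnerProductSpace ℝ V] [FiniteDimensional ℝ V]
  {H : Type} [NormedAddCommGroup H] [InnerProductSpace ℝ H] [CompleteSpace H]

variable (I) in
/-- test functions supported in `Ω` -/
structure Tf (Ω : Set M) (f : M → ℝ) : Prop where
  sm : Sm I f
  hcs : HasCompactSupport f
  sub : tsupport f ⊆ Ω

lemma Tf.mul {Ω : Set M} {f g : M → ℝ} (hf : Tf I Ω f) (hg : Sm I g) :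
    Tf I Ω fun x => g x * f x :=
  ⟨hg.mul hf.sm, hf.hcs.mul_left, tsupport_mul_subset_right.trans hf.sub⟩

lemma Tf.mono {Ω Ω' : Set M} {f : M → ℝ} (hf : Tf I Ω f) (h : Ω ⊆ Ω') : Tf I Ω' f :=
  ⟨hf.sm, hf.hcs, hf.sub.trans h⟩

lemma exists_tf {O : Set M} {x : M} (hO : O ∈ 𝓝 x) : ∃ f : M → ℝ, Tf I O f ∧ f x = 1 :=
  let ⟨f, h1, h2, h3, h4⟩ := exists_bump (I := I) hO
  ⟨f, ⟨h1, h2, h3⟩, h4.eq_of_nhds⟩

/-- fields which agree on test sections agree -/
lemma field_ext {N : Type} [NormedAddCommGroup N] [NormedSpace ℝ N] {S T : V →L[ℝ] N} {x : M}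
    {O : Set M} (hO : O ∈ 𝓝 x)
    (h : ∀ u ∈ Tst I M V, tsupport u ⊆ O → S (u x) = T (u x)) : S = T := by
  obtain ⟨f, hf, h1⟩ := exists_tf (I := I) hO
  ext v
  simpa [h1] using h _ (smul_mem_tst hf.sm hf.hcs (contMDiff_const (c := v)))
    ((tsupport_smul_subset_left _ _).trans hf.sub)

/-- the rank of a continuous field of idempotents is locally constant -/
lemma rank_const {X : Type*} [TopologicalSpace X] {π : X → V →L[ℝ] V} (hc : Continuous π)
    (hπ : ∀ x v, π x (π x v) = π x v) {K : Set X} (hK : IsPreconnected K) {x y : X} (hx : x ∈ K)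
    (hy : y ∈ K) : Module.finrank ℝ (π x).range = Module.finrank ℝ (π y).range := by
  have ht : ∀ x, LinearMap.trace ℝ V (π x) = Module.finrank ℝ (π x).range := fun x =>
    LinearMap.IsProj.trace ⟨fun v => ⟨v, rfl⟩, by rintro _ ⟨v, rfl⟩; exact hπ x v⟩
  let t : (V →L[ℝ] V) →L[ℝ] ℝ :=
    LinearMap.toContinuousLinearMap (LinearMap.trace ℝ V ∘ₗ ContinuousLinearMap.coeLM ℝ)
  have hd : IsDiscrete (range ((↑) : ℕ → ℝ)) :=
    Nat.isClosedEmbedding_coe_real.isEmbedding.isInducing.isDiscrete_range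
  have := hK.constant_of_mapsTo hd (f := fun x => t (π x)) (t.continuous.comp hc).continuousOn
    (fun x _ => ⟨_, (ht x).symm⟩) hx hy
  exact_mod_cast (ht x).symm.trans (this.trans (ht y))

lemma zero_const {X : Type*} [TopologicalSpace X] {π : X → V →L[ℝ] V} (hc : Continuous π)
    (hπ : ∀ x v, π x (π x v) = π x v) {K : Set X} (hK : IsPreconnected K) {x y : X} (hx : x ∈ K)
    (hy : y ∈ K) (h : π x = 0) : π y = 0 := by
  have := rank_const hc hπ hK hx hy
  rw [h, ContinuousLinearMap.toLinearMap_zero, LinearMap.range_zero, finrank_bot, eq_comm,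
    Submodule.finrank_eq_zero, LinearMap.range_eq_bot] at this
  exact ContinuousLinearMap.coe_injective this

/-- transposition as a continuous linear map -/
def trL : (V →L[ℝ] V) →L[ℝ] V →L[ℝ] V := LinearMap.toContinuousLinearMap
  { toFun := Op.tr
    map_add' := fun S T => by ext; simp [Op.tr]
    map_smul' := fun c T => by ext; simp [Op.tr] }

lemma inner_trL (T : V →L[ℝ] V) (v w : V) : ⟪T v, w⟫_ℝ = ⟪v, trL T w⟫_ℝ :=
  (LinearMap.adjoint_inner_right (T : V →ₗ[ℝ] V) v w).symm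

lemma sm_trL {T : M → V →L[ℝ] V} (hT : Sm I T) : Sm I fun x => trL (T x) :=
  trL.contMDiff.comp hT

namespace L2D
variable {μ : Measure M} [IsFiniteMeasureOnCompacts μ] (r : L2D I μ V H)

/-- multiplication by `g • T`, `g` a test function -/
def mg {g : M → ℝ} (hg : Tf I univ g) {T : M → V →L[ℝ] V} (hT : Sm I T) : H →L[ℝ] H :=
  (r.exists_mul_of_hcs (sm_smul hg.sm hT) hg.hcs.smul_right).choose

variable {g : M → ℝ} (hg : Tf I univ g) {T : M → V →L[ℝ] V} (hT : Sm I T)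

lemma mg_j (u : Tst I M V) : r.mg hg hT (r.j u) = r.j (tstMul (sm_smul hg.sm hT) u) :=
  (r.exists_mul_of_hcs (sm_smul hg.sm hT) hg.hcs.smul_right).choose_spec u

lemma mg_adj {T' : M → V →L[ℝ] V} (hT' : Sm I T') (ht : ∀ x v w, ⟪T x v, w⟫_ℝ = ⟪v, T' x w⟫_ℝ)
    (x y : H) : ⟪r.mg hg hT x, y⟫_ℝ = ⟪x, r.mg hg hT' y⟫_ℝ :=
  mul_adj (fun x v w => by simp [real_inner_smul_left, real_inner_smul_right, ht])
    (r.mg_j hg hT) (r.mg_j hg hT') x y

variable {r} in
lemma Rp.mg {x : H} {u : M → V} (hx : r.Rp x u) :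
    r.Rp (r.mg hg hT x) fun y => g y • T y (u y) :=
  hx.mul (hT' := sm_smul hg.sm (sm_trL hT))
    (fun x v w => by simp [real_inner_smul_left, real_inner_smul_right, inner_trL])
    (r.mg_j hg hT) (r.mg_j hg (sm_trL hT))

lemma j_inj [μ.IsOpenPosMeasure] : Injective r.j := fun u v h =>
  Subtype.ext ((r.rp_j u).eq (h ▸ r.rp_j v) u.2.1 v.2.1)

end L2D

lemma sm_one : Sm I fun _ : M => (1 : V →L[ℝ] V) := contMDiff_const

variable (V H) in
/-- resolvent data on `L²` -/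
structure RsD (F : Fr I M ι) (A : ι → M → V →L[ℝ] V) extends L2D I F.μ V H where
  G : H →L[ℝ] H
  symm : ∀ x y, ⟪G x, y⟫_ℝ = ⟪x, G y⟫_ℝ
  hG : ∀ u v : Tst I M V, v.1 = lap1 F A u.1 → G (j v) = j u
  reg : ∀ x, (∀ k : ℕ, ∃ w, x = (G ^ k) w) → ∃ u, Sm I u ∧ toL2D.Rp x u

namespace RsD
variable {F : Fr I M ι} {A : ι → M → V →L[ℝ] V} (r : RsD V H F A) (hA : ∀ a, Sm I (A a))

/-- `1 + ∇^*∇` on test functions -/
def lapT (F : Fr I M ι) (hA : ∀ a, Sm I (A a)) (u : Tst I M V) : Tst I M V :=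
  ⟨lap1 F A u.1, mem_tst (sm_lap1 F hA u.2.1) (hcs_lap1 F A u.2.2.1)⟩

lemma G_lap (u : Tst I M V) : r.G (r.j (lapT F hA u)) = r.j u := r.hG _ _ rfl

include hA in
lemma G_inj : Injective r.G := (injective_iff_map_eq_zero _).2 fun x hx =>
  r.ext fun φ => by rw [← r.G_lap hA, r.symm, hx, inner_zero_right, inner_zero_right]

/-- `H^∞` -/
def Inf (x : H) : Prop := ∀ k : ℕ, ∃ w, x = (r.G ^ k) w

include hA in
lemma inf_j (u : Tst I M V) : r.Inf (r.j u) := by
  intro k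
  suffices ∃ v, r.j u = (r.G ^ k) (r.j v) from let ⟨v, hv⟩ := this; ⟨_, hv⟩
  induction k with
  | zero => exact ⟨u, rfl⟩
  | succ k ih =>
    obtain ⟨v, hv⟩ := ih
    exact ⟨lapT F hA v, by rw [pow_succ, mul_apply_eq_comp, r.G_lap, hv]⟩

variable {r} in
lemma Inf.map {x : H} (hx : r.Inf x) {P : H →L[ℝ] H} (hP : ∀ x, P (r.G x) = r.G (P x)) :
    r.Inf (P x) := fun k => by
  obtain ⟨w, rfl⟩ := hx k
  refine ⟨P w, ?_⟩
  clear hx
  induction k with
  | zero => rfl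
  | succ k ih => rw [pow_succ', mul_apply_eq_comp, mul_apply_eq_comp, hP, ih]

variable {r} in
lemma Inf.G {x : H} (hx : r.Inf x) : r.Inf (r.G x) := hx.map fun _ => rfl

variable [F.μ.IsOpenPosMeasure]

include hA in
/-- a bounded operator which commutes with the resolvent and with the test functions supported in
a dense open set is a smooth parallel field of endomorphisms -/
theorem exists_field (hPA : ∀ a x, ∑ b, F.P a b x • A b x = A a x) {Ω : Set M} (hΩ : IsOpen Ω)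
    (hd : Dense Ω) {P : H →L[ℝ] H} (hP : ∀ x, P (r.G x) = r.G (P x))
    (hm : ∀ g (hg : Tf I univ g), tsupport g ⊆ Ω →
      ∀ x, P (r.mg hg sm_one x) = r.mg hg sm_one (P x)) :
    ∃ (π : M → V →L[ℝ] V) (hπ : Sm I π), (∀ u, P (r.j u) = r.j (L2D.tstMul hπ u)) ∧
      ∀ a x, F.D a π x = π x * A a x - A a x * π x := by
  choose Q hQ hR using fun u : Tst I M V => r.reg _ ((r.inf_j hA u).map hP)
  have hf : ∀ g, Tf I Ω g → ∀ u v : Tst I M V, (v.1 = fun x => g x • u.1 x) →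
      Q v = fun x => g x • Q u x := by
    intro g hg u v hv
    have h1 := (hR u).mg (hg.mono (subset_univ _)) sm_one
    rw [← hm _ _ hg.sub, L2D.mg_j] at h1
    have e : L2D.tstMul (sm_smul hg.sm sm_one) u = v := Subtype.ext hv.symm
    rw [e] at h1
    exact (hR v).eq h1 (hQ v) (sm_smul hg.sm (hQ u))
  have hQ0 : Q 0 = 0 := (hR 0).eq (by simpa using r.rp_j 0) (hQ 0) contMDiff_const
  have hc : ∀ u : Tst I M V, HasCompactSupport (Q u) := by
    intro u
    refine HasCompactSupport.intro u.2.2.1 fun x hx => ?_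
    have hO : IsOpen (tsupport u.1)ᶜ := (isClosed_tsupport _).isOpen_compl
    refine (show EqOn (Q u) (fun _ => 0) (closure ((tsupport u.1)ᶜ ∩ Ω)) from
      EqOn.closure (fun y hy => ?_) (hQ u).continuous continuous_const)
      (hd.open_subset_closure_inter hO hx)
    obtain ⟨g, hg, h1⟩ := exists_tf (I := I) ((hO.inter hΩ).mem_nhds hy)
    have h2 := congrFun (hf g (hg.mono inter_subset_right) u 0 (funext fun z => by
      by_cases hz : z ∈ tsupport u.1
      · have : g z = 0 := image_eq_zero_of_notMem_tsupport fun h => (hg.sub h).1 hz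
        simp [this]
      · simp [image_eq_zero_of_notMem_tsupport hz])) y
    rw [hQ0, h1, one_smul] at h2
    exact h2.symm
  have hj : ∀ u, r.j ⟨Q u, mem_tst (hQ u) (hc u)⟩ = P (r.j u) := fun u =>
    (r.rp_j _).unique (hR u)
  let Q' : Tst I M V →ₗ[ℝ] Tst I M V :=
    { toFun := fun u => ⟨Q u, mem_tst (hQ u) (hc u)⟩
      map_add' := fun u v => r.j_inj (by rw [map_add, hj, hj, hj, map_add, map_add])
      map_smul' := fun c u => r.j_inj (by
        rw [map_smul, hj, hj, map_smul, map_smul, RingHom.id_apply]) }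
  have hj' : ∀ u, r.j (Q' u) = P (r.j u) := hj
  obtain ⟨π, hπ, h1, -, -⟩ := exists_tensor (adm_sec (triv M V)) contMDiff_const (fun _ _ => rfl)
    (Q := Q') fun f hf' => commF_all (adm_sec _) hΩ hd
      (fun g h1 h2 h3 u v hv => hf g ⟨h1, h2, h3⟩ u v hv) hf'
  have h2 : ∀ u, Q' u = L2D.tstMul hπ u := fun u => Subtype.ext (funext (h1 u))
  refine ⟨π, hπ, fun u => by rw [← hj', h2], parallel_of_comm F hA hPA (p := triv M V)
    contMDiff_const (fun _ _ => rfl) (fun a x => ?_) hπ (fun _ _ => rfl) fun u hu x => ?_⟩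
  · rw [Pre.D, Sob92.dv_const]
    exact (sub_self _).symm
  · have h3 : Q' (lapT F hA ⟨u, hu⟩) = lapT F hA (Q' ⟨u, hu⟩) :=
      r.j_inj (r.G_inj hA (by rw [r.G_lap, hj', hj', ← hP, r.G_lap]))
    rw [h2, h2] at h3
    exact congrFun (congrArg Subtype.val h3) x

/-- a family of words supported in `Ω` -/
structure Wds (Ω : Set M) (𝒲 : Set (M → V)) : Prop where
  op : IsOpen Ω
  null : F.μ Ωᶜ = 0
  sm : ∀ w ∈ 𝒲, Sm I w
  G : ∀ f, Tf I Ω f → ∀ w ∈ 𝒲, ∀ x, r.Rp x (fun y => f y • w y) →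
    ∃ w' ∈ Submodule.span ℝ 𝒲, r.Rp (r.G x) w'

/-- the closed span of the words -/
def Sp (Ω : Set M) (𝒲 : Set (M → V)) : Submodule ℝ H :=
  cl {x | ∃ f, Tf I Ω f ∧ ∃ w ∈ 𝒲, r.Rp x fun y => f y • w y}

instance (Ω : Set M) (𝒲 : Set (M → V)) : (r.Sp Ω 𝒲).HasOrthogonalProjection :=
  inferInstanceAs (cl _).HasOrthogonalProjection

variable {r} {Ω : Set M} {𝒲 : Set (M → V)} (h : r.Wds Ω 𝒲)
include h

lemma Wds.dense : Dense Ω := F.μ.dense_of_ae h.null

lemma Wds.sm_span {w : M → V} (hw : w ∈ Submodule.span ℝ 𝒲) : Sm I w := by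
  induction hw using Submodule.span_induction with
  | mem w hw => exact h.sm w hw
  | zero => exact contMDiff_const
  | add u v _ _ hu hv => exact hu.add hv
  | smul c u _ hu => exact sm_smul (f := fun _ => c) contMDiff_const hu

lemma Wds.mem_span {w : M → V} (hw : w ∈ Submodule.span ℝ 𝒲) {f : M → ℝ} (hf : Tf I Ω f)
    {x : H} (hx : r.Rp x fun y => f y • w y) : x ∈ r.Sp Ω 𝒲 := by
  induction hw using Submodule.span_induction generalizing x with
  | mem w hw => exact mem_cl ⟨f, hf, w, hw, hx⟩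
  | zero =>
    rw [hx.unique (y := 0) (fun φ => by simp)]
    exact zero_mem _
  | add u v hu hv iu iv =>
    have h1 := r.rp_j ⟨_, smul_mem_tst hf.sm hf.hcs (h.sm_span hu)⟩
    have h2 := r.rp_j ⟨_, smul_mem_tst hf.sm hf.hcs (h.sm_span hv)⟩
    have h3 := h1.add h2 (sm_smul hf.sm (h.sm_span hu)) (sm_smul hf.sm (h.sm_span hv))
    rw [hx.unique (y := _ + _) (by convert h3 using 1; funext y; simp)]
    exact add_mem (iu h1) (iv h2)
  | smul c u hu iu =>
    have h1 := r.rp_j ⟨_, smul_mem_tst hf.sm hf.hcs (h.sm_span hu)⟩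
    rw [hx.unique (y := c • _) (by convert h1.smul c using 1; funext y; simp [smul_comm c])]
    exact Submodule.smul_mem _ c (iu h1)

lemma Wds.mg_mem {g : M → ℝ} (hg : Tf I univ g) {T : M → V →L[ℝ] V} (hT : Sm I T)
    (hw : ∀ w ∈ 𝒲, (fun y => T y (w y)) ∈ Submodule.span ℝ 𝒲) {x : H} (hx : x ∈ r.Sp Ω 𝒲) :
    r.mg hg hT x ∈ r.Sp Ω 𝒲 := by
  refine map_cl (isClosed_cl _) _ ?_ hx
  rintro x ⟨f, hf, w, hw', hx⟩
  refine h.mem_span (hw w hw') (hf.mul hg.sm) ?_
  simpa [mul_smul] using hx.mg hg hT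

lemma Wds.mg_comm {g : M → ℝ} (hg : Tf I univ g) (x : H) :
    (r.Sp Ω 𝒲).starProjection (r.mg hg sm_one x) =
      r.mg hg sm_one ((r.Sp Ω 𝒲).starProjection x) :=
  proj_comm _ _ _ (r.mg_adj hg sm_one sm_one fun _ _ _ => rfl)
    (fun _ => h.mg_mem hg sm_one fun _ hw => Submodule.subset_span hw)
    (fun _ => h.mg_mem hg sm_one fun _ hw => Submodule.subset_span hw) x

/-- an element all of whose localisations to `Ω` lie in the span lies in the span -/
lemma Wds.mem_of_loc {y : H}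
    (hy : ∀ g (hg : Tf I univ g), tsupport g ⊆ Ω → r.mg hg sm_one y ∈ r.Sp Ω 𝒲) :
    y ∈ r.Sp Ω 𝒲 := by
  rw [← Submodule.starProjection_eq_self_iff, eq_comm, ← sub_eq_zero]
  refine r.eq_zero_of_orth h.op h.null fun φ hφ => ?_
  obtain ⟨g, h1, h2, h3, h4⟩ := exists_cut (I := I) φ.2.2.1 h.op hφ
  have hg : Tf I univ g := ⟨h1, h2, subset_univ _⟩
  have e : r.mg hg sm_one (r.j φ) = r.j φ := by
    rw [L2D.mg_j]
    congr 1
    refine Subtype.ext (funext fun z => ?_)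
    change g z • φ.1 z = φ.1 z
    by_cases hz : z ∈ tsupport φ.1
    · rw [h4 z hz, one_smul]
    · simp [image_eq_zero_of_notMem_tsupport hz]
  rw [← e, r.mg_adj hg sm_one sm_one fun _ _ _ => rfl, map_sub, ← h.mg_comm,
    Submodule.starProjection_eq_self_iff.2 (hy g hg h3), sub_self, inner_zero_right]

lemma Wds.mem_of_rp {w : M → V} (hw : w ∈ Submodule.span ℝ 𝒲) {y : H} (hy : r.Rp y w) :
    y ∈ r.Sp Ω 𝒲 :=
  h.mem_of_loc fun _ hg hs => h.mem_span hw ⟨hg.sm, hg.hcs, hs⟩ (hy.mg hg sm_one)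

lemma Wds.G_mem {x : H} (hx : x ∈ r.Sp Ω 𝒲) : r.G x ∈ r.Sp Ω 𝒲 := by
  refine map_cl (isClosed_cl _) _ ?_ hx
  rintro x ⟨f, hf, w, hw, hx⟩
  obtain ⟨w', h1, h2⟩ := h.G f hf w hw x hx
  exact h.mem_of_rp h1 h2

end RsD

/-- the parallel projector of a family of words -/
structure IsPrj (F : Fr I M ι) (A : ι → M → V →L[ℝ] V) (Ω : Set M) (𝒲 : Set (M → V))
    (π : M → V →L[ℝ] V) : Prop where
  sm : Sm I π
  symm : ∀ x v w, ⟪π x v, w⟫_ℝ = ⟪v, π x w⟫_ℝ
  idem : ∀ x v, π x (π x v) = π x v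
  par : ∀ a x, F.D a π x = π x * A a x - A a x * π x
  fix : ∀ w ∈ 𝒲, ∀ x, π x (w x) = w x
  comm : ∀ T T' : M → V →L[ℝ] V, Sm I T → Sm I T' → (∀ x v w, ⟪T x v, w⟫_ℝ = ⟪v, T' x w⟫_ℝ) →
    (∀ w ∈ 𝒲, (fun y => T y (w y)) ∈ Submodule.span ℝ 𝒲) →
    (∀ w ∈ 𝒲, (fun y => T' y (w y)) ∈ Submodule.span ℝ 𝒲) → ∀ x, π x * T x = T x * π x
  orth : ∀ η : M → V, Sm I η → ∀ O : Set M, IsOpen O →
    (∀ w ∈ 𝒲, ∀ x ∈ O ∩ Ω, ⟪η x, w x⟫_ℝ = 0) → ∀ x ∈ O, π x (η x) = 0

/-- **Density of words.** -/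
theorem RsD.Wds.exists_prj {F : Fr I M ι} {A : ι → M → V →L[ℝ] V} {r : RsD V H F A}
    [F.μ.IsOpenPosMeasure] {Ω : Set M} {𝒲 : Set (M → V)} (h : r.Wds Ω 𝒲) (hA : ∀ a, Sm I (A a))
    (hPA : ∀ a x, ∑ b, F.P a b x • A b x = A a x) :
    ∃ (π : M → V →L[ℝ] V) (hπ : IsPrj F A Ω 𝒲 π),
      ∀ u, (r.Sp Ω 𝒲).starProjection (r.j u) = r.j (L2D.tstMul hπ.sm u) := by
  set P := (r.Sp Ω 𝒲).starProjection with hP
  obtain ⟨π, hπ, h1, h2⟩ := r.exists_field hA hPA h.op h.dense (P := P)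
    (proj_comm _ _ _ r.symm (fun _ => h.G_mem) fun _ => h.G_mem) fun g hg _ => h.mg_comm hg
  have ev : ∀ {u v : Tst I M V}, r.j u = r.j v → ∀ x, u.1 x = v.1 x := fun e x =>
    congrFun (congrArg Subtype.val (r.j_inj e)) x
  have dn : ∀ {N : Type} [NormedAddCommGroup N] {a b : M → N}, Continuous a → Continuous b →
      ∀ {O : Set M}, IsOpen O → (∀ x ∈ O ∩ Ω, a x = b x) → ∀ x ∈ O, a x = b x :=
    fun ha hb O hO e x hx => EqOn.closure e ha hb (h.dense.open_subset_closure_inter hO hx)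
  refine ⟨π, ⟨hπ, fun x v w => ?_, fun x v => ?_, h2, fun w hw x => ?_,
    fun T T' hT hT' ht a1 a2 x => ?_, fun η hη O hO ho => ?_⟩, h1⟩
  · have : π x = trL (π x) := field_ext (I := I) univ_mem fun u hu _ => by
      refine ev (u := L2D.tstMul hπ ⟨u, hu⟩) (v := L2D.tstMul (sm_trL hπ) ⟨u, hu⟩)
        (r.ext fun φ => ?_) x
      rw [← h1, ← Submodule.inner_starProjection_left_eq_right, h1, r.inner_j, r.inner_j]
      exact integral_congr_ae (Eventually.of_forall fun y => inner_trL _ _ _)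
    rw [inner_trL, ← this]
  · have : π x ∘L π x = π x := field_ext (I := I) univ_mem fun u hu _ =>
      ev (u := L2D.tstMul hπ (L2D.tstMul hπ ⟨u, hu⟩)) (v := L2D.tstMul hπ ⟨u, hu⟩) (by
        rw [← h1, ← h1]
        exact Submodule.starProjection_eq_self_iff.2 (Submodule.starProjection_apply_mem _ _)) x
    exact congrArg (· v) this
  · refine dn (hπ.clm_apply (h.sm w hw)).continuous (h.sm w hw).continuous isOpen_univ
      (fun y hy => ?_) x (mem_univ x)
    obtain ⟨f, hf, f1⟩ := exists_tf (I := I) (h.op.mem_nhds hy.2)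
    let u : Tst I M V := ⟨_, smul_mem_tst hf.sm hf.hcs (h.sm w hw)⟩
    have := ev (u := L2D.tstMul hπ u) (v := u) (by
      rw [← h1]
      exact Submodule.starProjection_eq_self_iff.2 (mem_cl ⟨f, hf, w, hw, r.rp_j u⟩)) y
    simpa [u, L2D.tstMul, f1] using this
  · obtain ⟨g, hg, g1⟩ := exists_tf (I := I) (univ_mem : univ ∈ 𝓝 x)
    refine field_ext (I := I) (x := x) univ_mem fun u hu _ => ?_
    have := proj_comm _ _ _ (r.mg_adj hg hT hT' ht) (fun _ => h.mg_mem hg hT a1)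
      (fun _ => h.mg_mem hg hT' a2) (r.j ⟨u, hu⟩)
    rw [← hP, h1, L2D.mg_j, L2D.mg_j, h1] at this
    simpa [L2D.tstMul, g1] using ev this x
  · refine dn (hπ.clm_apply hη).continuous continuous_const hO fun y hy => ?_
    obtain ⟨g, hg, g1⟩ := exists_tf (I := I) ((hO.inter h.op).mem_nhds hy)
    let u : Tst I M V := ⟨_, smul_mem_tst hg.sm hg.hcs hη⟩
    have h3 : r.Sp Ω 𝒲 ≤ (ℝ ∙ r.j u)ᗮ := by
      refine cl_le (Submodule.isClosed_orthogonal _) ?_
      rintro z ⟨f, hf, w, hw, hz⟩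
      rw [SetLike.mem_coe, Submodule.mem_orthogonal_singleton_iff_inner_right, hz]
      refine integral_eq_zero_of_ae (Eventually.of_forall fun t => ?_)
      change ⟪g t • η t, f t • w t⟫_ℝ = 0
      by_cases ht : t ∈ tsupport g
      · simp [real_inner_smul_left, real_inner_smul_right, ho w hw t (hg.sub ht)]
      · simp [image_eq_zero_of_notMem_tsupport ht]
    have h4 : P (r.j u) = r.j 0 := by
      rw [map_zero, hP, Submodule.starProjection_apply_eq_zero_iff, Submodule.mem_orthogonal']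
      exact fun z hz => Submodule.mem_orthogonal_singleton_iff_inner_right.1 (h3 hz)
    rw [h1] at h4
    simpa [u, L2D.tstMul, g1] using ev h4 y

namespace IsPrj
variable {F : Fr I M ι} {A : ι → M → V →L[ℝ] V} {Ω : Set M} {𝒲 : Set (M → V)}
  {π : M → V →L[ℝ] V} (h : IsPrj F A Ω 𝒲 π)
include h

/-- minimality -/
lemma le {q : M → V →L[ℝ] V} (hq : Sm I q) (hs : ∀ x v w, ⟪q x v, w⟫_ℝ = ⟪v, q x w⟫_ℝ)
    (hw : ∀ w ∈ 𝒲, ∀ x, q x (w x) = w x) (x : M) (v : V) :
    π x (q x v) = π x v ∧ q x (π x v) = π x v := by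
  have h1 : ∀ v, π x (q x v) = π x v := fun v => by
    have := h.orth (fun y => q y v - v) ((hq.clm_apply contMDiff_const).sub contMDiff_const) univ
      isOpen_univ (fun w hw' y _ => by rw [inner_sub_left, hs, hw w hw', sub_self]) x (mem_univ x)
    rwa [map_sub, sub_eq_zero] at this
  exact ⟨h1 v, ext_inner_right ℝ fun w => by rw [hs, h.symm, h1, h.symm]⟩

/-- bilinear form of the density -/
lemma orth₂ (hsm : ∀ w ∈ 𝒲, Sm I w) {ζ : M → V →L[ℝ] V} (hζ : Sm I ζ) {O : Set M} (hO : IsOpen O)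
    (ho : ∀ u ∈ 𝒲, ∀ v ∈ 𝒲, ∀ x ∈ O ∩ Ω, ⟪ζ x (u x), v x⟫_ℝ = 0) {x : M} (hx : x ∈ O) (b : V) :
    π x (ζ x (π x b)) = 0 := by
  refine ext_inner_right ℝ fun c => ?_
  have := h.orth (fun y => trL (ζ y) (π y c)) ((sm_trL hζ).clm_apply
    (h.sm.clm_apply contMDiff_const)) O hO (fun u hu y hy => by
      rw [real_inner_comm, ← inner_trL, ← h.symm,
        h.orth _ (hζ.clm_apply (hsm u hu)) O hO (ho u hu) y hy.1, inner_zero_left]) x hx
  rw [h.symm, inner_trL, h.symm, this, inner_zero_right, inner_zero_left]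

/-- if the projector vanishes at a point, the words vanish on its component -/
lemma zero_of {K : Set M} (hK : IsPreconnected K) {x y : M} (hx : x ∈ K) (hy : y ∈ K)
    (h0 : π x = 0) {w : M → V} (hw : w ∈ 𝒲) : w y = 0 := by
  rw [← h.fix w hw, zero_const h.sm.continuous h.idem hK hx hy h0, zero_apply]

end IsPrj

end Crest.Agent.X212.Wrd81
end
end

-- ▼ part X212/Wrd81/Ell
section

/-!
# X212 / WORDS, part 7 (helper81): the resolvent on the Sobolev scale, its identification with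
`Fr.res`, and the density of words in every `H k`.
-/

set_option autoImplicit false
set_option linter.unusedSectionVars false
noncomputable section
open scoped Manifold ContDiff Topology InnerProductSpace
open MeasureTheory Set Function Filter

namespace Crest.Agent.X212.Wrd81
open An Sob92

variable {E : Type} [NormedAddCommGroup E] [NormedSpace ℝ E] [FiniteDimensional ℝ E]
  [MeasurableSpace E] [BorelSpace E]
  {HM : Type} [TopologicalSpace HM] {I : ModelWithCorners ℝ E HM} [I.Boundaryless]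
  {M : Type} [TopologicalSpace M] [ChartedSpace HM M] [IsManifold I ∞ M]
  [MeasurableSpace M] [T2Space M] [BorelSpace M] [SecondCountableTopology M]
  {ι : Type} [Fintype ι]
  {V : Type} [NormedAddCommGroup V] [InnerProductSpace ℝ V] [FiniteDimensional ℝ V]

instance (F : Pre I M ι) : F.μ.IsOpenPosMeasure := Cht98.openPos F

lemma lap1_eq (F : Fr I M ι) (A : ι → M → V →L[ℝ] V) (u : M → V) :
    lap1 F A u = fun x => u x + Wz78.lap I F.e F.dv A u x := funext fun _ => sub_eq_add_neg _ _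

/-- `1 + ∇^*∇ : H (j + 2) → H j` is bijective for all `j` -/
def Ell (F : Fr I M ι) (A : ι → M → V →L[ℝ] V) : Prop :=
  ∀ j, ∃ Q : F.H (j + 2) (triv M V) →L[ℝ] F.H j (triv M V),
    F.Rep Q (fun u x => u x + Wz78.lap I F.e F.dv A u x) ∧ Bijective Q

/-- the hypotheses of the theory of the resolvent -/
structure RH (F : Fr I M ι) (A : ι → M → V →L[ℝ] V) : Prop where
  sup : ∃ S, Sup F.toPre S
  bmp : Mp86.Bumps I F.e F.dv
  mc : Mp86.Mc I A
  proj : ∀ a x, ∑ b, F.P a b x • A b x = A a x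
  ell : Ell F A

section scale
variable (F : Fr I M ι) (A : ι → M → V →L[ℝ] V)

/-- `1 + ∇^*∇` on the scale -/
def QH (j : ℕ) : F.H (j + 2) (triv M V) →L[ℝ] F.H j (triv M V) :=
  F.lift (j + 2) j _ _ (lap1 F A)

/-- the resolvent on the scale -/
def GH (j : ℕ) : F.H j (triv M V) →L[ℝ] F.H (j + 2) (triv M V) := (QH F A j).inverse

variable {F A} (h : Ell F A)
include h

lemma Ell.spec (j : ℕ) : F.Rep (QH F A j) (lap1 F A) ∧ Bijective (QH F A j) := by
  obtain ⟨Q, h1, h2⟩ := h j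
  have h3 : F.Rep Q (lap1 F A) := RepT_congr h1 fun u => (lap1_eq F A u.1).symm
  rw [QH, Pre.lift, h3.liftT_eq]
  exact ⟨h3, h2⟩

lemma Ell.Q_G (j : ℕ) (y : F.H j (triv M V)) : QH F A j (GH F A j y) = y :=
  Mon62.apply_inverse (Mon62.isInvertible_of_bij (h.spec j).2) y

lemma Ell.G_Q (j : ℕ) (y : F.H (j + 2) (triv M V)) : GH F A j (QH F A j y) = y :=
  Mon62.inverse_apply (Mon62.isInvertible_of_bij (h.spec j).2) y

lemma Ell.incl_G {j k : ℕ} (hj : j ≤ k) (y : F.H k (triv M V)) :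
    F.incl (k + 2) (j + 2) _ (GH F A k y) = GH F A j (F.incl k j _ y) :=
  (h.spec j).2.1 (by rw [← Rep_incl (h.spec k).1 (h.spec j).1 (by omega) hj, h.Q_G, h.Q_G])

end scale

variable {F : Fr I M ι} {A : ι → M → V →L[ℝ] V}

variable (V) in
/-- `H 0` as an `L²` space -/
def l2d (F : Pre I M ι) : L2D I F.μ V (F.H 0 (triv M V)) :=
  ⟨F.toH 0 _, F.inner_toH 0 _, F.dense_toH 0 _⟩

lemma rp_val {F : Pre I M ι} {S : ℝ} (hS : Sup F S) {k : ℕ} (hk : 4 ≤ k) (y : F.H k (triv M V)) :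
    (l2d V F).Rp (F.incl k 0 _ y) (F.val k _ y) := fun φ => by
  have := FiniteDimensional.complete ℝ V
  change ⟪F.toH 0 _ φ, _⟫_ℝ = _
  rw [← inner_toL2, toL2_incl (Nat.zero_le k), L2.inner_def]
  refine integral_congr_ae ?_
  filter_upwards [toL2_toH (F := F) (k := 0) φ, val_ae hS hk y] with x h1 h2
  rw [h1, h2]

namespace RH
variable (h : RH F A)
include h

lemma inner_Q (u v : F.H 2 (triv M V)) :
    ⟪F.incl 2 0 _ u, QH F A 0 v⟫_ℝ = ⟪QH F A 0 u, F.incl 2 0 _ v⟫_ℝ := by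
  refine H_eq₂ (f := fun u v => ⟪F.incl 2 0 _ u, QH F A 0 v⟫_ℝ)
    (g := fun u v => ⟪QH F A 0 u, F.incl 2 0 _ v⟫_ℝ) (by fun_prop) (by fun_prop) (fun u v => ?_) u v
  simp only [incl_toH (Nat.zero_le 2), RepT_toH (h.ell.spec 0).1, Pre.inner_toH]
  exact (ibp_lap1 F h.mc.sm h.mc.sk u.2.1 u.2.2.1 v.2.1).symm

lemma G0_incl (k : ℕ) (y : F.H k (triv M V)) :
    F.incl 2 0 _ (GH F A 0 (F.incl k 0 _ y)) = F.incl (k + 2) 0 _ (GH F A k y) := by
  rw [← h.ell.incl_G (Nat.zero_le k), incl_incl (by omega) (Nat.zero_le _)]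

lemma lev {x : F.H 0 (triv M V)}
    (hx : ∀ k : ℕ, ∃ w, x = ((F.incl 2 0 _ ∘L GH F A 0) ^ k) w) (k : ℕ) :
    ∃ y, F.incl k 0 _ y = x := by
  obtain ⟨w, rfl⟩ := hx k
  have : ∀ k : ℕ, ∃ y, F.incl (2 * k) 0 _ y = ((F.incl 2 0 _ ∘L GH F A 0) ^ k) w := by
    intro k
    induction k with
    | zero => exact ⟨w, incl_self w⟩
    | succ k ih =>
      obtain ⟨y, hy⟩ := ih
      exact ⟨GH F A (2 * k) y, by
        rw [pow_succ', mul_apply_eq_comp, ← hy, ContinuousLinearMap.comp_apply, h.G0_incl]; rfl⟩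
  obtain ⟨y, hy⟩ := this k
  exact ⟨F.incl (2 * k) k _ y, by rw [incl_incl (by omega) (Nat.zero_le _), hy]⟩

lemma cb_of_lev {x : F.H 0 (triv M V)} (hx : ∀ k, ∃ y, F.incl k 0 _ y = x) :
    ∃ u, F.Cb u ∧ (l2d V F.toPre).Rp x u := by
  have := FiniteDimensional.complete ℝ V
  obtain ⟨S, hS⟩ := h.sup
  obtain ⟨y, rfl⟩ := hx 4
  refine ⟨_, Cb_val hS le_rfl fun j hj => ?_, rp_val hS le_rfl y⟩
  obtain ⟨g, hg⟩ := hx j
  exact ⟨g, incl_injective (Nat.zero_le 4) (by rw [incl_incl hj (Nat.zero_le _), hg])⟩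

/-- the resolvent data -/
def rsd : RsD V (F.H 0 (triv M V)) F A where
  toL2D := l2d V F.toPre
  G := F.incl 2 0 _ ∘L GH F A 0
  symm x y := by
    have := h.inner_Q (GH F A 0 x) (GH F A 0 y)
    rwa [h.ell.Q_G, h.ell.Q_G] at this
  hG u v hv := by
    change F.incl 2 0 _ (GH F A 0 (F.toH 0 _ v)) = F.toH 0 _ u
    rw [← RepT_toH' (h.ell.spec 0).1 u v hv.symm, h.ell.G_Q, incl_toH (Nat.zero_le _)]
  reg x hx := let ⟨u, ⟨_, h1⟩, h2⟩ := h.cb_of_lev (h.lev hx); ⟨u, h1.1, h2⟩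

/-- on `H^∞` the resolvent is `Fr.res` -/
theorem res_rp {x : F.H 0 (triv M V)} (hx : h.rsd.Inf x) {w : M → V} (hw : Sm I w)
    (hr : h.rsd.Rp x w) :
    F.IsRes A w (F.res A w) ∧ F.Cb (F.res A w) ∧ h.rsd.Rp (h.rsd.G x) (F.res A w) := by
  obtain ⟨u, ⟨C, h1⟩, h2⟩ := h.cb_of_lev (h.lev hx.G)
  have h3 : h.rsd.Rp x (lap1 F A u) := fun φ => by
    rw [← ibp_lap1 F h.mc.sm h.mc.sk φ.2.1 φ.2.2.1 h1.1]
    have := h2 (RsD.lapT F h.mc.sm φ)
    rw [← h.rsd.G_lap h.mc.sm, h.rsd.symm]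
    exact this
  have h4 : F.IsRes A w u := ⟨h1.1, ⟨C 0, CB_zero.1 (h1.2 0)⟩, fun x => by
    rw [hr.eq h3 hw (sm_lap1 F h.mc.sm h1.1), lap1_eq]⟩
  rw [Mp86.res_eq h.bmp h.mc h4]
  exact ⟨h4, ⟨C, h1⟩, h2⟩

theorem isRes_tst {w : M → V} (hw : Sm I w) (hc : HasCompactSupport w) :
    F.IsRes A w (F.res A w) ∧ F.Cb (F.res A w) ∧ F.IsRes A (F.res A w) (F.res A (F.res A w)) := by
  have h0 := h.rsd.inf_j h.mc.sm ⟨w, mem_tst hw hc⟩
  obtain ⟨h1, h2, h3⟩ := h.res_rp h0 hw (h.rsd.rp_j ⟨w, mem_tst hw hc⟩)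
  exact ⟨h1, h2, (h.res_rp h0.G h1.1 h3).1⟩

end RH

/-- a family of words closed under test functions and the resolvent -/
structure Cls (F : Fr I M ι) (A : ι → M → V →L[ℝ] V) (Ω : Set M) (𝒲 : Set (M → V)) : Prop where
  op : IsOpen Ω
  null : F.μ Ωᶜ = 0
  sm : ∀ w ∈ 𝒲, Sm I w
  mul : ∀ f, Tf I Ω f → ∀ w ∈ 𝒲, (fun x => f x • w x) ∈ 𝒲
  res : ∀ w ∈ 𝒲, F.res A w ∈ 𝒲

/-- the closed span in `H k` of the sections of `q` which belong to `𝒯` -/
def SpH (F : Pre I M ι) (k : ℕ) (q : M → V →L[ℝ] V) (𝒯 : Set (M → V)) : Submodule ℝ (F.H k q) :=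
  cl {y | ∃ v : Sec I q, v.1 ∈ 𝒯 ∧ F.toH k q v = y}

/-- the words multiplied by test functions -/
def Loc (I : ModelWithCorners ℝ E HM) (Ω : Set M) (𝒲 : Set (M → V)) : Set (M → V) :=
  {v | ∃ f, Tf I Ω f ∧ ∃ w ∈ 𝒲, v = fun x => f x • w x}

lemma smulH_zero {F : Pre I M ι} {g : M → ℝ} (hg : Tf I univ g) :
    smulH F 0 (triv M V) g = (l2d V F).mg hg sm_one :=
  Pre.clm_ext fun u => by
    rw [RepT_toH (rep_smulH (Cb_of_hcs hg.sm hg.hcs))]
    exact ((l2d V F).mg_j hg sm_one u).symm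

/-- **Density of words in every Sobolev space.** -/
theorem Cls.exists_prj {Ω : Set M} {𝒲 : Set (M → V)} (c : Cls F A Ω 𝒲) (h : RH F A) :
    ∃ π, IsPrj F A Ω 𝒲 π ∧ ∀ (k : ℕ) (u : Tst I M V), tsupport u.1 ⊆ Ω →
      (∀ x, π x (u.1 x) = u.1 x) → F.toH k _ u ∈ SpH F.toPre k _ (Loc I Ω 𝒲) := by
  set r := h.rsd
  have hi : ∀ {f w x}, Tf I Ω f → w ∈ 𝒲 → r.Rp x (fun y => f y • w y) → r.Inf x := by
    intro f w x hf hw hx
    rw [hx.unique (r.rp_j ⟨_, smul_mem_tst hf.sm hf.hcs (c.sm w hw)⟩)]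
    exact r.inf_j h.mc.sm _
  have hW : r.Wds Ω 𝒲 := ⟨c.op, c.null, c.sm, fun f hf w hw x hx =>
    ⟨_, Submodule.subset_span (c.res _ (c.mul f hf w hw)),
      (h.res_rp (hi hf hw hx) (sm_smul hf.sm (c.sm w hw)) hx).2.2⟩⟩
  obtain ⟨π, hπ, hP⟩ := hW.exists_prj h.mc.sm h.proj
  refine ⟨π, hπ, fun k u hu hπu => ?_⟩
  let D : ∀ j, Set (F.H j (triv M V)) := fun j =>
    {y | r.Inf (F.incl j 0 _ y) ∧ ∃ w ∈ 𝒲, r.Rp (F.incl j 0 _ y) w}
  have step : ∀ j, (∀ y, F.incl j 0 _ y ∈ r.Sp Ω 𝒲 → y ∈ cl (D j)) →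
      ∀ y, F.incl (j + 2) 0 _ y ∈ r.Sp Ω 𝒲 → y ∈ cl (D (j + 2)) := by
    intro j ih y hy
    have e : ∀ z, r.G (F.incl j 0 _ z) = F.incl (j + 2) 0 _ (GH F A j z) := h.G0_incl j
    rw [← h.ell.G_Q j y] at hy ⊢
    refine map_cl (isClosed_cl _) (GH F A j) ?_ (ih _ ?_)
    · rintro z ⟨h1, w, hw, h2⟩
      refine mem_cl ⟨e z ▸ h1.G, _, c.res w hw, e z ▸ (h.res_rp h1 (c.sm w hw) h2).2.2⟩
    · rw [← Submodule.starProjection_eq_self_iff] at hy ⊢
      refine r.G_inj h.mc.sm ?_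
      rw [← proj_comm _ _ _ r.symm (fun _ => hW.G_mem) fun _ => hW.G_mem, e, hy]
  have lev : ∀ j, ∀ y, F.incl (2 * j) 0 _ y ∈ r.Sp Ω 𝒲 → y ∈ cl (D (2 * j)) := by
    intro j
    induction j with
    | zero =>
      intro y hy
      rw [incl_self] at hy
      refine cl_le (isClosed_cl _) ?_ hy
      rintro x ⟨f, hf, w, hw, hx⟩
      refine mem_cl ?_
      change r.Inf (F.incl 0 0 _ x) ∧ ∃ w ∈ 𝒲, r.Rp (F.incl 0 0 _ x) w
      rw [incl_self]
      exact ⟨hi hf hw hx, _, c.mul f hf w hw, hx⟩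
    | succ j ih => exact step _ ih
  obtain ⟨g, g1, g2, g3, g4⟩ := exists_cut (I := I) u.2.2.1 c.op hu
  have hg : Tf I univ g := ⟨g1, g2, subset_univ _⟩
  have hs := fun j => rep_smulH (F := F.toPre) (k := j) (p := triv M V) (Cb_of_hcs g1 g2)
  have h3 := lev k (F.toH _ _ u) (by
    rw [incl_toH (Nat.zero_le _), ← Submodule.starProjection_eq_self_iff]
    exact (hP u).trans (congrArg _ (Subtype.ext (funext hπu))))
  have h4 := map_cl (U := SpH F.toPre k _ (Loc I Ω 𝒲)) (isClosed_cl _)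
    (smulH F.toPre k _ g ∘L F.incl (2 * k) k _) (fun y hy => ?_) h3
  · rwa [ContinuousLinearMap.comp_apply, incl_toH (by omega), RepT_toH' (hs k) u u] at h4
    funext z
    by_cases hz : z ∈ tsupport u.1
    · rw [g4 z hz, one_smul]
    · simp [image_eq_zero_of_notMem_tsupport hz]
  · obtain ⟨-, w, hw, h2⟩ := hy
    refine mem_cl ⟨⟨_, smul_mem_tst g1 g2 (c.sm w hw)⟩, ⟨g, ⟨g1, g2, g3⟩, w, hw, rfl⟩,
      incl_injective (Nat.zero_le k) ?_⟩
    rw [incl_toH (Nat.zero_le _), ContinuousLinearMap.comp_apply,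
      Rep_incl (hs k) (hs 0) (Nat.zero_le k) (Nat.zero_le k), incl_incl (by omega) (Nat.zero_le _),
      smulH_zero hg]
    exact (r.rp_j _).unique (h2.mg hg sm_one)

end Crest.Agent.X212.Wrd81
end
end

-- ▼ part X212/Wrd81/Gen
section

/-!
# X212 / WORDS, part 8 (helper81): a module of sections which spans every fibre contains all test
sections.
-/

set_option autoImplicit false
set_option linter.unusedSectionVars false
noncomputable section
open scoped Manifold ContDiff Topology InnerProductSpace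
open MeasureTheory Set Function Filter

namespace Crest.Agent.X212.Wrd81
open Crest.Agent.X212.An

variable {E : Type} [NormedAddCommGroup E] [NormedSpace ℝ E] [FiniteDimensional ℝ E]
  [MeasurableSpace E] [BorelSpace E]
  {HM : Type} [TopologicalSpace HM] {I : ModelWithCorners ℝ E HM}
  {M : Type} [TopologicalSpace M] [ChartedSpace HM M] [IsManifold I ∞ M]
  [MeasurableSpace M] [T2Space M] [BorelSpace M] [SecondCountableTopology M]
  {V : Type} [NormedAddCommGroup V] [InnerProductSpace ℝ V] [FiniteDimensional ℝ V]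

/-- the frame operator of a finite family, completed on the complement of `q` -/
def frm (q : M → V →L[ℝ] V) (s : Finset (M → V)) (x : M) : V →L[ℝ] V :=
  ∑ n ∈ s, ContinuousLinearMap.smulRightL ℝ V V (innerSL ℝ (n x)) (n x) + (1 - q x)

lemma frm_apply (q : M → V →L[ℝ] V) (s : Finset (M → V)) (x : M) (v : V) :
    frm q s x v = ∑ n ∈ s, ⟪n x, v⟫_ℝ • n x + (v - q x v) := by simp [frm]

lemma isUnit_frm {q : M → V →L[ℝ] V} {s : Finset (M → V)} {x : M}
    (hs : ∀ v w, ⟪q x v, w⟫_ℝ = ⟪v, q x w⟫_ℝ) (hi : ∀ v, q x (q x v) = q x v) :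
    IsUnit (frm q s x) ↔ ∀ v, q x v = v → (∀ n ∈ s, ⟪n x, v⟫_ℝ = 0) → v = 0 := by
  rw [ContinuousLinearMap.isUnit_iff_isUnit_toLinearMap, LinearMap.isUnit_iff_ker_eq_bot,
    LinearMap.ker_eq_bot']
  refine ⟨fun h v h1 h2 => h v ?_, fun h v hv => ?_⟩
  · change frm q s x v = 0
    rw [frm_apply, h1, sub_self, add_zero]
    exact Finset.sum_eq_zero fun n hn => by rw [h2 n hn, zero_smul]
  · have h1 : ⟪frm q s x v, v⟫_ℝ = ∑ n ∈ s, ⟪n x, v⟫_ℝ ^ 2 + ‖v - q x v‖ ^ 2 := by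
      rw [frm_apply, inner_add_left, sum_inner, ← real_inner_self_eq_norm_sq]
      simp only [real_inner_smul_left, sq, inner_sub_left, inner_sub_right, hs, hi]
      ring
    rw [show frm q s x v = 0 from hv, inner_zero_left] at h1
    have h2 : 0 ≤ ∑ n ∈ s, ⟪n x, v⟫_ℝ ^ 2 := Finset.sum_nonneg fun _ _ => sq_nonneg _
    have h3 := sq_nonneg ‖v - q x v‖
    have h4 : ∑ n ∈ s, ⟪n x, v⟫_ℝ ^ 2 = 0 := by linarith
    have h5 : ‖v - q x v‖ ^ 2 = 0 := by linarith
    rw [Finset.sum_eq_zero_iff_of_nonneg fun _ _ => sq_nonneg _] at h4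
    exact h v (sub_eq_zero.1 (by simpa using h5)).symm fun n hn => by simpa using h4 n hn

lemma sm_frm {q : M → V →L[ℝ] V} (hq : Sm I q) {s : Finset (M → V)} (hs : ∀ n ∈ s, Sm I n) :
    Sm I (frm q s) :=
  (contMDiff_finsetSum fun n hn => ((ContinuousLinearMap.smulRightL ℝ V V).contMDiff.comp
    ((innerSL ℝ : V →L[ℝ] V →L[ℝ] ℝ).contMDiff.comp (hs n hn))).clm_apply (hs n hn)).add
    (contMDiff_const.sub hq)

/-- **Generation.** -/
theorem mem_of_span {q : M → V →L[ℝ] V} (hq : Sm I q)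
    (hs : ∀ x v w, ⟪q x v, w⟫_ℝ = ⟪v, q x w⟫_ℝ) (hi : ∀ x v, q x (q x v) = q x v)
    {𝒩 : Set (M → V)} {W : Submodule ℝ (M → V)} (sm : ∀ n ∈ 𝒩, Sm I n)
    (fix : ∀ n ∈ 𝒩, ∀ x, q x (n x) = n x) {O : Set M} (hO : IsOpen O)
    (mul : ∀ f : M → ℝ, Sm I f → HasCompactSupport f → tsupport f ⊆ O → ∀ n ∈ 𝒩,
      (fun x => f x • n x) ∈ W)
    (sp : ∀ x ∈ O, ∀ v, q x v = v → (∀ n ∈ 𝒩, ⟪n x, v⟫_ℝ = 0) → v = 0) {u : M → V} (hu : Sm I u)
    (hc : HasCompactSupport u) (huO : tsupport u ⊆ O) (hqu : ∀ x, q x (u x) = u x) : u ∈ W := by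
  classical
  have := FiniteDimensional.complete ℝ V
  have hop : ∀ s : Finset (M → V), (↑s : Set (M → V)) ⊆ 𝒩 → IsOpen {y | IsUnit (frm q s y)} :=
    fun s h => Units.isOpen.preimage (sm_frm hq fun n hn => sm n (h hn)).continuous
  have h1 : ∀ x ∈ tsupport u, ∃ s : Finset (M → V), ↑s ⊆ 𝒩 ∧ IsUnit (frm q s x) := by
    intro x hx
    obtain ⟨t, ht, e⟩ := (Submodule.fg_span_iff_fg_span_finset_subset ((· x) '' 𝒩)).1
      (IsNoetherian.noetherian (R := ℝ) _)
    obtain ⟨s, h1, rfl⟩ := Finset.subset_set_image_iff.1 ht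
    refine ⟨s, h1, (isUnit_frm (hs x) (hi x)).2 fun v h2 h3 => sp x (huO hx) v h2 fun n hn => ?_⟩
    have : Submodule.span ℝ ((· x) '' 𝒩) ≤ (ℝ ∙ v)ᗮ := by
      rw [e, Submodule.span_le]
      intro w hw
      obtain ⟨n, hn, rfl⟩ := Finset.mem_image.1 hw
      exact Submodule.mem_orthogonal_singleton_iff_inner_left.2 (h3 n hn)
    exact Submodule.mem_orthogonal_singleton_iff_inner_left.1
      (this (Submodule.subset_span ⟨n, hn, rfl⟩))
  choose! s h2 h3 using h1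
  obtain ⟨t, ht, hcov⟩ := hc.isCompact.elim_nhds_subcover (fun x => {y | IsUnit (frm q (s x) y)})
    fun x hx => (hop _ (h2 x hx)).mem_nhds (h3 x hx)
  set S := t.biUnion s
  have hS : (↑S : Set (M → V)) ⊆ 𝒩 := fun n hn =>
    let ⟨x, hx, h⟩ := Finset.mem_biUnion.1 hn; h2 x (ht x hx) h
  have hU : tsupport u ⊆ {y | IsUnit (frm q S y)} ∩ O := fun y hy => by
    obtain ⟨x, hx, h⟩ := mem_iUnion₂.1 (hcov hy)
    exact ⟨(isUnit_frm (hs y) (hi y)).2 fun v a b => (isUnit_frm (hs y) (hi y)).1 h v a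
      fun n hn => b n (Finset.mem_biUnion.2 ⟨x, hx, hn⟩), huO hy⟩
  obtain ⟨g, g1, g2, g3, g4⟩ := exists_cut (I := I) hc.isCompact ((hop S hS).inter hO) hU
  let z : M → V := fun y => Ring.inverse (frm q S y) (u y)
  have e : u = ∑ n ∈ S, fun y => (g y * ⟪n y, z y⟫_ℝ) • n y := by
    funext y
    rw [Finset.sum_apply]
    by_cases hy : y ∈ tsupport u
    · have a1 : frm q S y (z y) = u y := by
        rw [← mul_apply_eq_comp, Ring.mul_inverse_cancel _ (hU hy).1]; rfl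
      rw [← hqu y, ← a1, frm_apply, map_add, map_sub, hi, sub_self, add_zero, map_sum, g4 y hy]
      exact Finset.sum_congr rfl fun n hn => by rw [map_smul, fix n (hS hn), one_mul]
    · simp [z, image_eq_zero_of_notMem_tsupport hy]
  rw [e]
  refine W.sum_mem fun n hn => mul _ ?_ g2.mul_right
    (tsupport_mul_subset_left.trans (g3.trans inter_subset_right)) n (hS hn)
  refine contMDiff_of_tsupport fun y hy => (g1 y).mul ?_
  obtain ⟨T, hT⟩ := (g3 (tsupport_mul_subset_left hy)).1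
  have a2 : ContMDiffAt I 𝓘(ℝ, V →L[ℝ] V) ∞ (fun y => Ring.inverse (frm q S y)) y :=
    (hT ▸ (contDiffAt_ringInverse ℝ T).contMDiffAt).comp y (sm_frm hq (fun n hn => sm n (hS hn)) y)
  exact (((innerSL ℝ : V →L[ℝ] V →L[ℝ] ℝ).contMDiff.comp (sm n (hS hn))) y).clm_apply
    (a2.clm_apply (hu y))

end Crest.Agent.X212.Wrd81
end
end

-- ▼ part X212/Wrd81/Ap

/-!
# X212 / WORDS, part 9 (helper81): approximable test functions; the projector of the words of one
piece.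
-/

set_option autoImplicit false
set_option linter.unusedSectionVars false
noncomputable section
open scoped Manifold ContDiff Topology InnerProductSpace
open MeasureTheory Set Function Filter

namespace Crest.Agent.X212.Wrd81
open An Sob92

variable {E : Type} [NormedAddCommGroup E] [NormedSpace ℝ E] [FiniteDimensional ℝ E]
  [MeasurableSpace E] [BorelSpace E]
  {HM : Type} [TopologicalSpace HM] {I : ModelWithCorners ℝ E HM} [I.Boundaryless]
  {M : Type} [TopologicalSpace M] [ChartedSpace HM M] [IsManifold I ∞ M]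
  [MeasurableSpace M] [T2Space M] [BorelSpace M] [SecondCountableTopology M]
  {ι : Type} [Fintype ι] {ι' : Type} [Fintype ι']
  {V : Type} [NormedAddCommGroup V] [InnerProductSpace ℝ V] [FiniteDimensional ℝ V]
  {W : Type} [NormedAddCommGroup W] [InnerProductSpace ℝ W] [FiniteDimensional ℝ W]

theorem reg (F : Fr I M ι) : Ell97.Reg V F := by
  intro u ua σ B f hu hua hσ hB hf h1 h2
  have hl : ∀ {v : M → V}, MemLp v 2 F.μ → ∀ {φ : M → V}, Sm I φ → HasCompactSupport φ →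
      Integrable (fun x => ⟪v x, φ x⟫_ℝ) F.μ := fun hv φ a b => by
    have := FiniteDimensional.complete ℝ V
    have h3 := L2.integrable_inner (𝕜 := ℝ) (hv.toLp _)
      ((memLp_sec (F := F.toPre) (p := triv M V) ⟨φ, mem_tst a b⟩).toLp _)
    refine h3.congr ?_
    filter_upwards [hv.coeFn_toLp,
      (memLp_sec (F := F.toPre) (p := triv M V) ⟨φ, mem_tst a b⟩).coeFn_toLp] with x e1 e2
    rw [e1, e2]
  refine Cht98.reg F hu hua (fun a => sm_trL (hσ a)) (sm_trL hB) hf (fun a φ a1 a2 => ?_)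
    fun φ a1 a2 => ?_
  · rw [h1 a φ a1 a2, ← integral_neg]
    simp only [← inner_neg_right, neg_add', sub_eq_add_neg]
  · have e : ∀ (T : V →L[ℝ] V) v w, ⟪trL T v, w⟫_ℝ = ⟪v, T w⟫_ℝ := fun T v w => by
      rw [real_inner_comm, ← inner_trL, real_inner_comm]
    have c : ∀ {T : M → V →L[ℝ] V}, HasCompactSupport fun x => T x (φ x) :=
      fun {T} => a2.mono fun x hx h => hx (by simp [h])
    have i1 : Integrable (fun x => ∑ a, ⟪ua a x, σ a x (φ x)⟫_ℝ) F.μ :=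
      integrable_finsetSum _ fun a _ => hl (hua a) ((hσ a).clm_apply a1) c
    have i2 := hl hu (hB.clm_apply a1) c
    have i3 : Integrable (fun x => ⟪f x, φ x⟫_ℝ) F.μ := by
      simpa only [real_inner_comm] using F.integrable_inner a1.continuous a2 hf.continuous
    have i4 : Integrable (fun x => ∑ a, ⟪ua a x, σ a x (φ x)⟫_ℝ + ⟪u x, B x (φ x)⟫_ℝ) F.μ :=
      i1.add i2
    simp only [inner_add_left, sum_inner, e]
    rw [h2 φ a1 a2, integral_add i4 i3, integral_add i1 i2,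
      integral_finsetSum _ fun a _ => hl (hua a) ((hσ a).clm_apply a1) c]
    ring

/-- bounded geometry and a bounded metric connection give the resolvent -/
theorem rh_of_tame {F : Fr I M ι} {A : ι → M → V →L[ℝ] V} {C : ℕ → ℝ} (hF : F.Tame C)
    (hA : ∀ a, F.Cb (A a)) (hs : ∀ a x, Wz78.Skew (A a x))
    (hP : ∀ a x, ∑ b, F.P a b x • A b x = A a x) : RH F A :=
  ⟨⟨_, Sup.of_tame hF⟩, Mp86.bumps_of_tame F hF, ⟨fun a => (hA a).choose_spec.1, hs⟩, hP,
    fun j => ⟨_, Ell97.rep_lapH hF hA hs j, Ell97.lapH_bij (reg F) hF hA hs j⟩⟩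

/-- test functions which are `H k`-limits of combinations of test functions in `𝒯` -/
def Ap (F : Pre I M ι) (k : ℕ) (𝒯 : Set (M → V)) : Submodule ℝ (M → V) :=
  ((SpH F k (triv M V) 𝒯).comap (F.toH k _)).map (Tst I M V).subtype

section ap
variable {F : Pre I M ι} {F' : Pre I M ι'} {k : ℕ} {𝒯 : Set (M → V)} {𝒯' : Set (M → W)}
  {u : M → V}

lemma mem_Ap : u ∈ Ap F k 𝒯 ↔ ∃ hu : u ∈ Tst I M V, F.toH k _ ⟨u, hu⟩ ∈ SpH F k _ 𝒯 :=
  ⟨by rintro ⟨v, hv, rfl⟩; exact ⟨v.2, hv⟩, fun ⟨hu, h⟩ => ⟨⟨u, hu⟩, h, rfl⟩⟩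

lemma Ap.of_mem (hu : u ∈ Tst I M V) (h : u ∈ 𝒯) : u ∈ Ap F k 𝒯 :=
  mem_Ap.2 ⟨hu, mem_cl ⟨⟨u, hu⟩, h, rfl⟩⟩

lemma Ap.map_H {q : M → W →L[ℝ] W} {L : F.H k (triv M V) →L[ℝ] F'.H k q}
    {T : (M → V) → M → W} (hL : F.RepT F' L T) {U : Submodule ℝ (F'.H k q)}
    (hU : IsClosed (U : Set (F'.H k q)))
    (h : ∀ v ∈ 𝒯, v ∈ Tst I M V → ∀ w : Sec I q, w.1 = T v → F'.toH k q w ∈ U)
    (hu : u ∈ Ap F k 𝒯) (w : Sec I q) (hw : w.1 = T u) : F'.toH k q w ∈ U := by
  obtain ⟨h1, h2⟩ := mem_Ap.1 hu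
  rw [← RepT_toH' hL ⟨u, h1⟩ w hw.symm]
  refine map_cl hU L ?_ h2
  rintro _ ⟨v, hv, rfl⟩
  rw [RepT_toH hL]
  exact h _ hv v.2 _ rfl

lemma Ap.map {T : M → V →L[ℝ] W} (hT : F.Cb T)
    (h : ∀ v ∈ 𝒯, v ∈ Tst I M V → (fun x => T x (v x)) ∈ Ap F k 𝒯') (hu : u ∈ Ap F k 𝒯) :
    (fun x => T x (u x)) ∈ Ap F k 𝒯' := by
  have hL := rep_mulH (k := k) hT (Maps.of_left (p := triv M V) (q := triv M W) fun _ _ => rfl)
  refine mem_Ap.2 ⟨RepT_mem hL ⟨u, (mem_Ap.1 hu).1⟩, Ap.map_H hL (isClosed_cl _)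
    (fun v h1 h2 w hw => ?_) hu _ rfl⟩
  obtain ⟨h3, h4⟩ := mem_Ap.1 (h v h1 h2)
  rwa [Subtype.ext hw (a2 := ⟨_, h3⟩)]

lemma Ap.chg (h : Prm93.Dom F F') (hu : u ∈ Ap F k 𝒯) : u ∈ Ap F' k 𝒯 :=
  mem_Ap.2 ⟨(mem_Ap.1 hu).1, Ap.map_H h.rep (isClosed_cl _)
    (fun _ h1 _ w hw => mem_cl (by exact ⟨w, hw ▸ h1, rfl⟩)) hu _ rfl⟩

/-- **Export to a bundle**: `f • y` lies in the closed span of the terms. -/
theorem Ap.smulH_mem {q : M → V →L[ℝ] V} (hq : F.Cb q) (hi : ∀ x v, q x (q x v) = q x v)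
    {O : Set M} (h : ∀ u ∈ Sec I q, tsupport u ⊆ O → u ∈ Ap F k 𝒯) {f : M → ℝ} (hf : Tf I O f)
    (y : F.H k q) : smulH F k q f y ∈ SpH F k q ((fun v x => q x (v x)) '' 𝒯) := by
  have hs := rep_smulH (F := F) (k := k) (p := q) (Cb_of_hcs hf.sm hf.hcs)
  induction y using H_ind with
  | hP => exact (isClosed_cl _).preimage (smulH F k q f).continuous
  | h u =>
    rw [RepT_toH hs]
    exact Ap.map_H (rep_mulH (k := k) hq (Maps.of_left (p := triv M V) hi)) (isClosed_cl _)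
      (fun v h1 _ w hw => mem_cl (by exact ⟨w, ⟨v, h1, hw.symm⟩, rfl⟩))
      (h _ (RepT_mem hs u) ((tsupport_smul_subset_left _ _).trans hf.sub)) _
      (funext fun x => ((RepT_mem hs u).2.2 x).symm)

end ap

section piece
variable {K Ω : Set M}

lemma ind_ev (hK : IsClopen K) (x : M) :
    K.indicator (1 : M → ℝ) =ᶠ[𝓝 x] fun _ => K.indicator 1 x := by
  by_cases hx : x ∈ K
  · filter_upwards [hK.2.mem_nhds hx] with y hy
    simp [hx, hy]
  · filter_upwards [hK.1.isOpen_compl.mem_nhds hx] with y hy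
    simp [hx, show y ∉ K from hy]

lemma sm_ind (hK : IsClopen K) : Sm I (K.indicator (1 : M → ℝ)) := fun x =>
  contMDiffAt_const.congr_of_eventuallyEq (ind_ev hK x)

lemma Tf.ind (hK : IsClopen K) {f : M → ℝ} (hf : Tf I (Ω ∪ Kᶜ) f) :
    Tf I Ω fun x => K.indicator 1 x * f x :=
  ⟨(sm_ind hK).mul hf.sm, hf.hcs.mul_left, fun x hx =>
    (hf.sub (tsupport_mul_subset_right hx)).resolve_right fun h => h
      (closure_minimal (fun y hy => by by_contra h; simp [h] at hy) hK.1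
        (tsupport_mul_subset_left hx))⟩

variable {F : Fr I M ι} {A : ι → M → V →L[ℝ] V}

lemma RH.res_off (h : RH F A) (hK : IsClopen K) {w : M → V} (hw : ∀ x ∉ K, w x = 0) :
    ∀ x ∉ K, F.res A w x = 0 := fun x hx => by
  rw [← Mp86.res_fix h.bmp h.mc (T := fun y => K.indicator (1 : M → ℝ) y • (1 : V →L[ℝ] V))
    (sm_smul (sm_ind hK) sm_one) ⟨1, fun y => ?_⟩ (fun y a => ?_) (fun y => ?_) x]
  · simp [hx]
  · by_cases hy : y ∈ K <;> simp [hy, ContinuousLinearMap.one_def, ContinuousLinearMap.norm_id_le]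
  · rw [dv_congr (v := fun _ => K.indicator (1 : M → ℝ) y • (1 : V →L[ℝ] V))
      ((ind_ev hK y).mono fun z hz => by rw [hz]), dv_const]
    ext v; simp
  · by_cases hy : y ∈ K <;> simp [hy, hw y]

variable (F A K Ω) in
/-- a family of words with data in `Ω`, an open set of full measure in the piece `K` -/
structure Fam (𝒲 : Set (M → V)) : Prop where
  cl : IsClopen K
  op : IsOpen Ω
  sub : Ω ⊆ K
  null : F.μ (K \ Ω) = 0
  sm : ∀ w ∈ 𝒲, Sm I w
  mul : ∀ f, Tf I Ω f → ∀ w ∈ 𝒲, (fun x => f x • w x) ∈ 𝒲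
  res : ∀ w ∈ 𝒲, F.res A w ∈ 𝒲

variable (F A K Ω) in
/-- the projector of the words of a piece -/
structure Prj (𝒲 : Set (M → V)) (π : M → V →L[ℝ] V) : Prop where
  sm : Sm I π
  symm : ∀ x v w, ⟪π x v, w⟫_ℝ = ⟪v, π x w⟫_ℝ
  idem : ∀ x v, π x (π x v) = π x v
  par : ∀ a x, F.D a π x = π x * A a x - A a x * π x
  off : ∀ x ∉ K, π x = 0
  fix : ∀ w ∈ 𝒲, ∀ x ∈ K, π x (w x) = w x
  comm : ∀ T T' : M → V →L[ℝ] V, Sm I T → Sm I T' → (∀ x v w, ⟪T x v, w⟫_ℝ = ⟪v, T' x w⟫_ℝ) →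
    (∀ w ∈ 𝒲, (fun y => T y (w y)) ∈ Submodule.span ℝ 𝒲) →
    (∀ w ∈ 𝒲, (fun y => T' y (w y)) ∈ Submodule.span ℝ 𝒲) → ∀ x ∈ K, π x * T x = T x * π x
  orth : ∀ η : M → V, Sm I η → ∀ O : Set M, IsOpen O → O ⊆ K →
    (∀ w ∈ 𝒲, ∀ x ∈ O ∩ Ω, ⟪η x, w x⟫_ℝ = 0) → ∀ x ∈ O, π x (η x) = 0
  ap : ∀ (k : ℕ), ∀ u ∈ Tst I M V, tsupport u ⊆ Ω → (∀ x, π x (u x) = u x) →
    u ∈ Ap F.toPre k (Loc I Ω 𝒲)

variable {𝒲 : Set (M → V)}

/-- closed conditions extend from `Ω` to `K` -/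
lemma Fam.ext {𝒲 : Set (M → V)} (c : Fam K Ω F A 𝒲) {N : Type*} [TopologicalSpace N] [T2Space N]
    {a b : M → N} (ha : Continuous a) (hb : Continuous b) {O : Set M} (hO : IsOpen O) (hK : O ⊆ K)
    (e : ∀ x ∈ O ∩ Ω, a x = b x) : ∀ x ∈ O, a x = b x := fun x hx => by
  have hd : Dense (Ω ∪ Kᶜ) := F.μ.dense_of_ae (p := fun x => x ∈ Ω ∪ Kᶜ)
    (measure_mono_null (fun y hy => by simpa [and_comm] using hy) c.null)
  exact EqOn.closure (fun y hy => e y ⟨hy.1, hy.2.resolve_right fun h => h (hK hy.1)⟩) ha hb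
    (hd.open_subset_closure_inter hO hx)

/-- **Density of the words of a piece.** -/
theorem Fam.exists_prj (c : Fam K Ω F A 𝒲) (h : RH F A) : ∃ π, Prj K Ω F A 𝒲 π := by
  let 𝒲' : Set (M → V) := {w ∈ 𝒲 | ∀ x ∉ K, w x = 0}
  have hi : ∀ (f : M → ℝ), ∀ w ∈ 𝒲', (fun x => f x • w x) = fun x => (K.indicator 1 x * f x) • w x :=
    fun f w hw => funext fun x => by by_cases hx : x ∈ K <;> simp [hx, hw.2 x]
  have hm : ∀ f, Tf I Ω f → ∀ w ∈ 𝒲, (fun x => f x • w x) ∈ 𝒲' := fun f hf w hw =>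
    ⟨c.mul f hf w hw, fun x hx => by
      simp [image_eq_zero_of_notMem_tsupport fun h => hx (c.sub (hf.sub h))]⟩
  have hs : ∀ f, Tf I Ω f → ∀ w ∈ Submodule.span ℝ 𝒲,
      (fun x => f x • w x) ∈ Submodule.span ℝ 𝒲' := by
    intro f hf w hw
    induction hw using Submodule.span_induction with
    | mem w hw => exact Submodule.subset_span (hm f hf w hw)
    | zero => convert zero_mem (Submodule.span ℝ 𝒲') using 1; funext x; simp
    | add u v _ _ hu hv => convert add_mem hu hv using 1; funext x; simp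
    | smul r u _ hu => convert Submodule.smul_mem _ r hu using 1; funext x; simp [smul_comm r]
  have c' : Cls F A (Ω ∪ Kᶜ) 𝒲' := ⟨c.op.union c.cl.1.isOpen_compl,
    measure_mono_null (fun y hy => by simpa [and_comm] using hy) c.null, fun w hw => c.sm w hw.1,
    fun f hf w hw => hi f w hw ▸ hm _ (hf.ind c.cl) w hw.1,
    fun w hw => ⟨c.res w hw.1, h.res_off c.cl hw.2⟩⟩
  obtain ⟨π, p, hap⟩ := c'.exists_prj h
  refine ⟨π, p.sm, p.symm, p.idem, p.par, fun x hx => ?_, fun w hw => ?_,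
    fun T T' hT hT' ht a1 a2 => ?_, fun η hη O hO hK ho => ?_, fun k u hu hΩ hπ => ?_⟩
  · ext v
    exact p.orth _ contMDiff_const _ c.cl.1.isOpen_compl
      (fun w hw y hy => by rw [hw.2 y hy.1, inner_zero_right]) x hx
  · refine c.ext (p.sm.clm_apply (c.sm w hw)).continuous (c.sm w hw).continuous c.cl.2 Subset.rfl
      fun x hx => ?_
    obtain ⟨f, hf, f1⟩ := exists_tf (I := I) (c.op.mem_nhds hx.2)
    simpa [f1] using p.fix _ (hm f hf w hw) x
  · refine c.ext (p.sm.continuous.mul hT.continuous) (hT.continuous.mul p.sm.continuous) c.cl.2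
      Subset.rfl fun x hx => ?_
    obtain ⟨f, hf, f1⟩ := exists_tf (I := I) (c.op.mem_nhds hx.2)
    simpa [f1] using p.comm _ _ (sm_smul hf.sm hT) (sm_smul hf.sm hT')
      (fun y v w => by simp [real_inner_smul_left, real_inner_smul_right, ht])
      (fun w hw => hs f hf _ (a1 w hw.1)) (fun w hw => hs f hf _ (a2 w hw.1)) x
  · exact p.orth η hη O hO fun w hw x hx =>
      ho w hw.1 x ⟨hx.1, hx.2.resolve_right fun h => h (hK hx.1)⟩
  · refine mem_Ap.2 ⟨hu, cl_le (isClosed_cl _) ?_ (hap k ⟨u, hu⟩ (hΩ.trans subset_union_left) hπ)⟩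
    rintro _ ⟨v, ⟨f, hf, w, hw, e⟩, rfl⟩
    exact mem_cl ⟨v, ⟨_, hf.ind c.cl, w, hw.1, e.trans (hi f w hw)⟩, rfl⟩

namespace Prj
variable {π : M → V →L[ℝ] V} (h : Prj K Ω F A 𝒲 π)
include h

/-- minimality -/
lemma le (hK : IsOpen K) {q : M → V →L[ℝ] V} (hq : Sm I q)
    (hs : ∀ x v w, ⟪q x v, w⟫_ℝ = ⟪v, q x w⟫_ℝ) (hw : ∀ w ∈ 𝒲, ∀ x, q x (w x) = w x) (x : M)
    (v : V) : π x (q x v) = π x v ∧ q x (π x v) = π x v := by
  by_cases hx : x ∈ K
  swap
  · simp [h.off x hx]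
  have h1 : ∀ v, π x (q x v) = π x v := fun v => by
    have := h.orth (fun y => q y v - v) ((hq.clm_apply contMDiff_const).sub contMDiff_const) K
      hK Subset.rfl (fun w hw' y _ => by rw [inner_sub_left, hs, hw w hw', sub_self]) x hx
    rwa [map_sub, sub_eq_zero] at this
  exact ⟨h1 v, ext_inner_right ℝ fun w => by rw [hs, h.symm, h1, h.symm]⟩

/-- bilinear form of the density -/
lemma orth₂ (hsm : ∀ w ∈ 𝒲, Sm I w) {ζ : M → V →L[ℝ] V} (hζ : Sm I ζ) {O : Set M} (hO : IsOpen O)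
    (hK : O ⊆ K) (ho : ∀ u ∈ 𝒲, ∀ v ∈ 𝒲, ∀ x ∈ O ∩ Ω, ⟪ζ x (u x), v x⟫_ℝ = 0) {x : M}
    (hx : x ∈ O) (b : V) : π x (ζ x (π x b)) = 0 := by
  refine ext_inner_right ℝ fun c => ?_
  have := h.orth (fun y => trL (ζ y) (π y c)) ((sm_trL hζ).clm_apply
    (h.sm.clm_apply contMDiff_const)) O hO hK (fun u hu y hy => by
      rw [real_inner_comm, ← inner_trL, ← h.symm,
        h.orth _ (hζ.clm_apply (hsm u hu)) O hO hK (ho u hu) y hy.1, inner_zero_left]) x hx
  rw [h.symm, inner_trL, h.symm, this, inner_zero_right, inner_zero_left]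

/-- on a connected piece with a non-zero word the projector vanishes nowhere -/
lemma ne_zero (hK : IsPreconnected K) {w : M → V} (hw : w ∈ 𝒲) {y : M} (hy : y ∈ K) (h0 : w y ≠ 0)
    {x : M} (hx : x ∈ K) : π x ≠ 0 := fun e => h0 (by
  rw [← h.fix w hw y hy, zero_const h.sm.continuous h.idem hK hx hy e, zero_apply])

end Prj

end piece

end Crest.Agent.X212.Wrd81
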