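import Crest.Agent.X212.Wrd81.Adj
import Mathlib.Topology.ContinuousMap.StoneWeierstrass
import Crest.Agent.X212.Nd18.Defs
import Crest.Agent.X212.Dgr80.Pw
import Crest.Agent.X212.Std94.Gau
import Crest.Agent.X212.Wrd81.Onto
import Crest.Agent.X212.Mod61.Fmt

-- ▼ part X212/Wrd81/Alg
section

/-!
# X212 / WORDS, part 18 (helper81): words over an algebra of functions which separates points.
-/

set_option autoImplicit false
set_option linter.unusedSectionVars false
noncomputable section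
open scoped Manifold ContDiff Topology InnerProductSpace
open MeasureTheory Set Function Filter

namespace Crest.Agent.X212.Wrd81
open An Sob92

variable {E : Type} [NormedAddCommGroup E] [NormedSpace ℝ E] [FiniteDimensional ℝ E]
  [MeasurableSpace E] [BorelSpace E]
  {HM : Type} [TopologicalSpace HM] {I : ModelWithCorners ℝ E HM} [I.Boundaryless]
  {M : Type} [TopologicalSpace M] [ChartedSpace HM M] [IsManifold I ∞ M]
  [MeasurableSpace M] [T2Space M] [BorelSpace M] [SecondCountableTopology M]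
  {ι : Type} [Fintype ι] {ι' : Type} [Fintype ι']
  {V : Type} [NormedAddCommGroup V] [InnerProductSpace ℝ V] [FiniteDimensional ℝ V]
  {W : Type} [NormedAddCommGroup W] [InnerProductSpace ℝ W] [FiniteDimensional ℝ W]

variable (I) in
/-- functions `𝒢` which separate points, cut-off functions `𝒞` among them -/
structure Gn (𝒢 𝒞 : Set (M → ℝ)) : Prop where
  sm : ∀ g ∈ 𝒢, Sm I g
  sep : ∀ x y, x ≠ y → ∃ g ∈ 𝒢, g x ≠ g y
  sub : 𝒞 ⊆ 𝒢
  hcs : ∀ a ∈ 𝒞, HasCompactSupport a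
  one : ∀ K, IsCompact K → ∃ a ∈ 𝒞, ∀ x ∈ K, a x = 1

/-- the words multiplied by cut-off functions -/
def LocA (𝒞 : Set (M → ℝ)) (𝒲 : Set (M → V)) : Set (M → V) :=
  {v | ∃ a ∈ 𝒞, ∃ w ∈ 𝒲, v = fun x => a x • w x}

variable {𝒢 𝒞 : Set (M → ℝ)} {𝒲 : Set (M → V)} {F : Fr I M ι} {A : ι → M → V →L[ℝ] V}

lemma Gn.tf (h : Gn I 𝒢 𝒞) {a : M → ℝ} (ha : a ∈ 𝒞) : Tf I univ a :=
  ⟨h.sm a (h.sub ha), h.hcs a ha, subset_univ _⟩

lemma Gn.approx (h : Gn I 𝒢 𝒞) {g : M → ℝ} (hg : Continuous g) {K : Set M} (hK : IsCompact K)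
    {ε : ℝ} (hε : 0 < ε) : ∃ p ∈ Algebra.adjoin ℝ 𝒢, ∀ x ∈ K, ‖p x - g x‖ < ε := by
  obtain ⟨p, h1, h2⟩ :=
    ContinuousMap.exists_mem_subalgebra_near_continuous_of_isCompact_of_separatesPoints
      (A := (Algebra.adjoin ℝ 𝒢).comap (ContinuousMap.coeFnAlgHom ℝ)) (fun x y e =>
        let ⟨f, f1, f2⟩ := h.sep x y e
        ⟨f, ⟨⟨f, (h.sm f f1).continuous⟩, Algebra.subset_adjoin f1, rfl⟩, f2⟩) ⟨g, hg⟩ hK hε
  exact ⟨p, h1, h2⟩

variable (F A 𝒢 𝒲) in
/-- a family of words closed under `𝒢` and the resolvent -/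
structure ClA : Prop where
  sm : ∀ w ∈ 𝒲, Sm I w
  mul : ∀ g ∈ 𝒢, ∀ w ∈ 𝒲, (fun x => g x • w x) ∈ 𝒲
  res : ∀ w ∈ 𝒲, F.res A w ∈ 𝒲

lemma ClA.sm_span (c : ClA 𝒢 𝒲 F A) {w : M → V} (hw : w ∈ Submodule.span ℝ 𝒲) : Sm I w := by
  induction hw using Submodule.span_induction with
  | mem w hw => exact c.sm w hw
  | zero => exact contMDiff_const
  | add u v _ _ hu hv => exact hu.add hv
  | smul c u _ hu => exact sm_smul (f := fun _ => c) contMDiff_const hu

lemma ClA.adj (c : ClA 𝒢 𝒲 F A) {p : M → ℝ} (hp : p ∈ Algebra.adjoin ℝ 𝒢) :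
    ∀ w ∈ Submodule.span ℝ 𝒲, (fun x => p x • w x) ∈ Submodule.span ℝ 𝒲 := by
  induction hp using Algebra.adjoin_induction with
  | mem g hg =>
    exact fun w hw => Submodule.span_le (p := (Submodule.span ℝ 𝒲).comap
      (act fun x => g x • (1 : V →L[ℝ] V))).2 (fun w hw => Submodule.subset_span (c.mul g hg w hw)) hw
  | algebraMap r => exact fun w hw => Submodule.smul_mem _ r hw
  | add p q _ _ hp hq =>
    intro w hw
    simp only [Pi.add_apply, add_smul]
    exact add_mem (hp w hw) (hq w hw)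
  | mul p q _ _ hp hq => exact fun w hw => by simpa [mul_smul] using hp _ (hq w hw)

/-- **Density of words over an algebra.** -/
theorem ClA.exists_prj (c : ClA 𝒢 𝒲 F A) (g : Gn I 𝒢 𝒞) (h : RH F A) :
    ∃ π, IsPrj F A univ 𝒲 π ∧ ∀ (k : ℕ), ∀ u ∈ Tst I M V,
      (∀ x, π x (u x) = u x) → u ∈ Ap F.toPre k (LocA 𝒞 𝒲) := by
  set r := h.rsd
  let S := cl {x | ∃ a ∈ 𝒞, ∃ w ∈ 𝒲, r.Rp x fun y => a y • w y}
  have m1 : ∀ a ∈ 𝒞, ∀ w ∈ Submodule.span ℝ 𝒲, ∀ x, (r.Rp x fun y => a y • w y) → x ∈ S := by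
    intro a ha w hw
    have hf := g.tf ha
    have j := fun {u} (hu : u ∈ Submodule.span ℝ 𝒲) =>
      r.rp_j ⟨_, smul_mem_tst hf.sm hf.hcs (c.sm_span hu)⟩
    induction hw using Submodule.span_induction with
    | mem w hw => exact fun x hx => mem_cl ⟨a, ha, w, hw, hx⟩
    | zero => exact fun x hx => hx.unique (y := 0) (fun φ => by simp) ▸ zero_mem _
    | add u v hu hv iu iv =>
      intro x hx
      rw [hx.unique (y := _ + _) (by
        convert (j hu).add (j hv) (sm_smul hf.sm (c.sm_span hu)) (sm_smul hf.sm (c.sm_span hv))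
          using 1
        funext y; simp)]
      exact add_mem (iu _ (j hu)) (iv _ (j hv))
    | smul t u hu iu =>
      intro x hx
      rw [hx.unique (y := t • _) (by convert (j hu).smul t using 1; funext y; simp [smul_comm t])]
      exact Submodule.smul_mem _ t (iu _ (j hu))
  have m2 : ∀ f, Tf I univ f → ∀ w ∈ Submodule.span ℝ 𝒲, ∀ x, (r.Rp x fun y => f y • w y) →
      x ∈ S := by
    intro f hf w hw x hx
    obtain ⟨a, ha, a1⟩ := g.one _ hf.hcs
    have ha' := g.tf ha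
    let v : Tst I M V := ⟨_, smul_mem_tst ha'.sm ha'.hcs (c.sm_span hw)⟩
    refine (isClosed_cl _).closure_subset (Metric.mem_closure_iff.2 fun ε hε => ?_)
    obtain ⟨p, p1, p2⟩ := g.approx hf.sm.continuous ha'.hcs (ε := ε / (‖r.j v‖ + 1)) (by positivity)
    have hp := c.adj p1 w hw
    let v' : Tst I M V := ⟨_, smul_mem_tst ha'.sm ha'.hcs (c.sm_span hp)⟩
    let u : Tst I M V := ⟨_, smul_mem_tst hf.sm hf.hcs (c.sm_span hw)⟩
    refine ⟨_, m1 a ha _ hp _ (r.rp_j v'), ?_⟩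
    rw [hx.unique (r.rp_j u), dist_comm, dist_eq_norm, ← map_sub]
    refine lt_of_le_of_lt (b := ε / (‖r.j v‖ + 1) * ‖r.j v‖) (abs_le_of_sq_le_sq' ?_ (by positivity)).2
      (by rw [div_mul_eq_mul_div, div_lt_iff₀ (by positivity)]; nlinarith)
    rw [mul_pow, ← real_inner_self_eq_norm_sq, ← real_inner_self_eq_norm_sq, r.inner_j, r.inner_j,
      ← integral_const_mul]
    refine integral_mono (L2D.integrable (v' - u).2 (v' - u).2.1)
      ((L2D.integrable v.2 v.2.1).const_mul _) fun y => ?_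
    simp only [real_inner_self_eq_norm_sq, ← mul_pow]
    refine pow_le_pow_left₀ (norm_nonneg _) ?_ 2
    have e : (v' - u).1 y = (p y - f y) • v.1 y := by
      change a y • p y • w y - f y • w y = (p y - f y) • a y • w y
      rw [sub_smul, smul_comm (a y), smul_comm (f y), smul_eq_of_one
        (u := fun y => f y • w y) (tsupport_smul_subset_left _ _) a1]
    rw [e, norm_smul]
    by_cases hy : y ∈ tsupport a
    · exact mul_le_mul_of_nonneg_right (p2 y hy).le (norm_nonneg _)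
    · simp [v, image_eq_zero_of_notMem_tsupport hy]
  have m3 : ∀ {f} (hf : Tf I univ f) {T : M → V →L[ℝ] V} (hT : Sm I T),
      (∀ w ∈ 𝒲, (fun y => T y (w y)) ∈ Submodule.span ℝ 𝒲) → ∀ x ∈ S, r.mg hf hT x ∈ S := by
    refine fun {f} hf T hT hw x => map_cl (isClosed_cl _) _ ?_
    rintro x ⟨a, ha, w, hw', hx⟩
    refine m2 _ ((g.tf ha).mul hf.sm) _ (hw w hw') _ ?_
    simpa [mul_smul] using hx.mg hf hT
  have m4 := fun {f} (hf : Tf I univ f) => m3 hf sm_one fun _ hw => Submodule.subset_span hw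
  have cut : ∀ φ : Tst I M V, ∃ f, ∃ hf : Tf I univ f, r.mg hf sm_one (r.j φ) = r.j φ := fun φ => by
    obtain ⟨f, hf, f1⟩ := exists_tf_one (I := I) φ.2.2.1 isOpen_univ (subset_univ _)
    exact ⟨f, hf, (L2D.mg_j _ _ _ _).trans
      (congrArg _ (Subtype.ext (funext (smul_eq_of_one Subset.rfl f1))))⟩
  have hi : ∀ {f w x}, Tf I univ f → Sm I w → r.Rp x (fun y => f y • w y) → r.Inf x := by
    intro f w x hf hw hx
    rw [hx.unique (r.rp_j ⟨_, smul_mem_tst hf.sm hf.hcs hw⟩)]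
    exact r.inf_j h.mc.sm _
  have mG : ∀ x ∈ S, r.G x ∈ S := by
    refine fun x => map_cl (isClosed_cl _) _ ?_
    rintro x ⟨a, ha, w, hw, hx⟩
    have h1 := c.mul a (g.sub ha) w hw
    have h2 := (h.res_rp (hi (g.tf ha) (c.sm w hw) hx) (c.sm _ h1) hx).2.2
    rw [← Submodule.starProjection_eq_self_iff]
    refine r.ext fun φ => ?_
    obtain ⟨f, hf, e⟩ := cut φ
    have ad := r.mg_adj hf sm_one sm_one fun _ _ _ => rfl
    rw [← e, ad, ad, ← proj_comm _ _ _ ad (m4 hf) (m4 hf), Submodule.starProjection_eq_self_iff.2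
      (m2 f hf _ (Submodule.subset_span (c.res _ h1)) _ (h2.mg hf sm_one))]
  let 𝒲' : Set (M → V) :=
    {w | Sm I w ∧ ∀ f, Tf I univ f → ∀ x, (r.Rp x fun y => f y • w y) → x ∈ S}
  have sub : ∀ w ∈ 𝒲, w ∈ 𝒲' := fun w hw =>
    ⟨c.sm w hw, fun f hf => m2 f hf w (Submodule.subset_span hw)⟩
  have eS : r.Sp univ 𝒲' = S := le_antisymm
    (cl_le (isClosed_cl _) fun x ⟨f, hf, w, hw, hx⟩ => hw.2 f hf x hx)
    (cl_le (isClosed_cl _) fun x ⟨a, ha, w, hw, hx⟩ => mem_cl ⟨a, g.tf ha, w, sub w hw, hx⟩)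
  have hW : r.Wds univ 𝒲' := ⟨isOpen_univ, by simp, fun w hw => hw.1, fun f hf w hw x hx => by
    have h1 := h.res_rp (hi hf hw.1 hx) (sm_smul hf.sm hw.1) hx
    exact ⟨_, Submodule.subset_span ⟨h1.1.1, fun f' hf' y hy => hy.unique (h1.2.2.mg hf' sm_one) ▸
      m4 hf' _ (mG _ (hw.2 f hf x hx))⟩, h1.2.2⟩⟩
  obtain ⟨π, hπ, hP⟩ := hW.exists_prj h.mc.sm h.proj
  have t : ∀ {T : M → V →L[ℝ] V}, Sm I T → (∀ w ∈ 𝒲, (fun y => T y (w y)) ∈ Submodule.span ℝ 𝒲) →
      ∀ w ∈ 𝒲', (fun y => T y (w y)) ∈ Submodule.span ℝ 𝒲' := fun {T} hT h1 w hw => by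
    refine Submodule.subset_span ⟨hT.clm_apply hw.1, fun f hf x hx => ?_⟩
    obtain ⟨f', hf', f1⟩ := exists_tf_one (I := I) hf.hcs isOpen_univ (subset_univ _)
    have j := r.rp_j ⟨_, smul_mem_tst hf.sm hf.hcs hw.1⟩
    rw [hx.unique (y := r.mg hf' hT _) (by
      convert j.mg hf' hT using 1
      funext y
      rw [← map_smul, ← map_smul, smul_eq_of_one (u := fun y => f y • w y)
        (tsupport_smul_subset_left _ _) f1])]
    exact m3 hf' hT h1 _ (hw.2 f hf _ j)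
  refine ⟨π, ⟨hπ.sm, hπ.symm, hπ.idem, hπ.par, fun w hw => hπ.fix w (sub w hw),
    fun T T' hT hT' ht a1 a2 => hπ.comm T T' hT hT' ht (t hT a1) (t hT' a2),
    fun η hη O hO ho => hπ.orth η hη O hO fun w hw y hy => ?_⟩, fun k u hu hπu => ?_⟩
  · obtain ⟨f, hf, f1⟩ := exists_tf (I := I) (hO.mem_nhds hy.1)
    have := eq_zero_of_tst (V := ℝ) F.μ isOpen_univ dense_univ (hf.sm.mul (sm_inner hη hw.1))
      fun φ hφ _ => by
        have hf' := hf.mul hφ.1
        let z : Tst I M V := ⟨_, smul_mem_tst hf'.sm hf'.hcs hη⟩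
        obtain ⟨b, hb, b1⟩ := exists_tf_one (I := I) hf.hcs isOpen_univ (subset_univ _)
        have j := r.rp_j ⟨_, smul_mem_tst hb.sm hb.hcs hw.1⟩
        have h3 : S ≤ (ℝ ∙ r.j z)ᗮ := cl_le (Submodule.isClosed_orthogonal _) <| by
          rintro x ⟨a, -, w, hw, hx⟩
          rw [SetLike.mem_coe, Submodule.mem_orthogonal_singleton_iff_inner_right, hx]
          refine integral_eq_zero_of_ae (Eventually.of_forall fun t => ?_)
          by_cases ht : t ∈ tsupport f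
          · simp [z, real_inner_smul_left, real_inner_smul_right, ho w hw t ⟨hf.sub ht, trivial⟩]
          · simp [z, image_eq_zero_of_notMem_tsupport ht]
        have := Submodule.mem_orthogonal_singleton_iff_inner_right.1 (h3 (hw.2 b hb _ j))
        rw [j] at this
        refine Eq.trans (integral_congr_ae (Eventually.of_forall fun t => ?_)) this
        by_cases ht : t ∈ tsupport f
        · simp [z, b1 t ht, real_inner_smul_left, mul_comm, mul_left_comm, mul_assoc]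
        · simp [z, image_eq_zero_of_notMem_tsupport ht]
    simpa [f1] using congrFun this y
  let D : ∀ j, Set (F.H j (triv M V)) := fun j =>
    {y | r.Inf (F.incl j 0 _ y) ∧ ∃ w ∈ 𝒲, r.Rp (F.incl j 0 _ y) w}
  have lev : ∀ j, ∀ y, F.incl (2 * j) 0 _ y ∈ S → y ∈ cl (D (2 * j)) := by
    intro j
    induction j with
    | zero =>
      intro y hy
      rw [incl_self] at hy
      refine cl_le (isClosed_cl _) ?_ hy
      rintro x ⟨f, hf, w, hw, hx⟩
      refine mem_cl ?_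
      change r.Inf (F.incl 0 0 _ x) ∧ ∃ w ∈ 𝒲, r.Rp (F.incl 0 0 _ x) w
      rw [incl_self]
      exact ⟨hi (g.tf hf) (c.sm w hw) hx, _, c.mul f (g.sub hf) w hw, hx⟩
    | succ j ih =>
      intro (y : F.H (2 * j + 2) _) hy
      have e : ∀ z, r.G (F.incl (2 * j) 0 _ z) = F.incl (2 * j + 2) 0 _ (GH F A _ z) := h.G0_incl _
      rw [← h.ell.G_Q _ y] at hy ⊢
      refine map_cl (isClosed_cl _) (GH F A _) ?_ (ih _ ?_)
      · rintro z ⟨h1, w, hw, h2⟩
        exact mem_cl ⟨e z ▸ h1.G, _, c.res w hw, e z ▸ (h.res_rp h1 (c.sm w hw) h2).2.2⟩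
      · rw [← Submodule.starProjection_eq_self_iff] at hy ⊢
        refine r.G_inj h.mc.sm ?_
        rw [← proj_comm _ _ _ r.symm mG mG, e]
        exact hy
  obtain ⟨a, ha, a1⟩ := g.one _ hu.2.1
  have hg := g.tf ha
  have hs := fun j => rep_smulH (F := F.toPre) (k := j) (p := triv M V) (Cb_of_hcs hg.sm hg.hcs)
  have h3 := lev k (F.toH _ _ ⟨u, hu⟩) (by
    rw [incl_toH (Nat.zero_le _), ← eS, ← Submodule.starProjection_eq_self_iff]
    exact (hP ⟨u, hu⟩).trans (congrArg _ (Subtype.ext (funext hπu))))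
  have h4 := map_cl (U := SpH F.toPre k _ (LocA 𝒞 𝒲)) (isClosed_cl _)
    (smulH F.toPre k _ a ∘L F.incl (2 * k) k _) (fun y hy => ?_) h3
  · rw [ContinuousLinearMap.comp_apply, incl_toH (by omega),
      RepT_toH' (hs k) ⟨u, hu⟩ ⟨u, hu⟩ (funext (smul_eq_of_one Subset.rfl a1))] at h4
    exact mem_Ap.2 ⟨hu, h4⟩
  · obtain ⟨-, w, hw, h2⟩ := hy
    refine mem_cl ⟨⟨_, smul_mem_tst hg.sm hg.hcs (c.sm w hw)⟩, ⟨a, ha, w, hw, rfl⟩,
      incl_injective (Nat.zero_le k) ?_⟩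
    rw [incl_toH (Nat.zero_le _), ContinuousLinearMap.comp_apply,
      Rep_incl (hs k) (hs 0) (Nat.zero_le k) (Nat.zero_le k), incl_incl (by omega) (Nat.zero_le _),
      smulH_zero hg]
    exact (r.rp_j _).unique (h2.mg hg sm_one)

variable (F A 𝒞 𝒲) in
/-- the projector of words over an algebra -/
structure PrA (π : M → V →L[ℝ] V) : Prop extends IsPrj F A univ 𝒲 π where
  loc : ∀ {ι' W : Type} [Fintype ι'] [NormedAddCommGroup W] [InnerProductSpace ℝ W]
    [FiniteDimensional ℝ W] (F' : Pre I M ι') (k : ℕ) (𝒯 : Set (M → W)) (T : M → V →L[ℝ] W), Sm I T →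
    (∀ a ∈ 𝒞, ∀ w ∈ 𝒲, (fun x => a x • T x (w x)) ∈ Ap F' k 𝒯) →
    ∀ f, Tf I univ f → ∀ b, Sm I b → (fun x => f x • T x (π x (b x))) ∈ Ap F' k 𝒯

theorem ClA.exists_pra (c : ClA 𝒢 𝒲 F A) (g : Gn I 𝒢 𝒞) (h : RH F A) :
    ∃ π, PrA 𝒞 𝒲 F A π := by
  obtain ⟨π, p, hp⟩ := c.exists_prj g h
  refine ⟨π, p, fun F' k 𝒯 T hT hw f hf b hb => ?_⟩
  have s := hT.clm_apply (p.sm.clm_apply hb)
  obtain ⟨a, ha, a1⟩ := g.one _ hf.hcs
  have hg := g.tf ha
  obtain ⟨L, hL⟩ := rep_loc F.toPre F' k (p := triv M V) (q := triv M _) (sm_smul hg.sm hT)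
    hg.hcs.smul_right fun _ _ _ => rfl
  refine mem_Ap.2 ⟨smul_mem_tst hf.sm hf.hcs s, Ap.map_H hL (isClosed_cl _) ?_
    (hp k _ (smul_mem_tst hf.sm hf.hcs (p.sm.clm_apply hb)) fun x => by rw [map_smul, p.idem]) _
    (funext fun x => ?_)⟩
  · rintro _ ⟨a', ha', w, hw', rfl⟩ - v hv
    obtain ⟨h1, h2⟩ := mem_Ap.1 (hw a ha _ (c.mul a' (g.sub ha') w hw'))
    rwa [Subtype.ext hv (a2 := ⟨_, h1⟩)]
  · rw [smul_apply, map_smul]
    exact (smul_eq_of_one (u := fun x => f x • T x (π x (b x)))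
      (tsupport_smul_subset_left _ _) a1 x).symm

end Crest.Agent.X212.Wrd81
end
end

-- ▼ part X212/Wrd81/Cls
section

/-!
# X212 / WORDS, part 19 (helper81): proper parallel subbundles give fixed points or parallel lines.
-/

set_option autoImplicit false
set_option linter.unusedSectionVars false
noncomputable section
open scoped Manifold ContDiff Topology InnerProductSpace
open MeasureTheory Set Function Filter

namespace Crest.Agent.X212.Wrd81
open An Sob92 Wz78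

variable {E : Type} [NormedAddCommGroup E] [NormedSpace ℝ E] [FiniteDimensional ℝ E]
  [MeasurableSpace E] [BorelSpace E]
  {HM : Type} [TopologicalSpace HM] {I : ModelWithCorners ℝ E HM} [I.Boundaryless]
  {M : Type} [TopologicalSpace M] [ChartedSpace HM M] [IsManifold I ∞ M]
  [MeasurableSpace M] [T2Space M] [BorelSpace M] [SecondCountableTopology M]
  {ι : Type} [Fintype ι] {ι' : Type} [Fintype ι'] {lam : Type} [Fintype lam] {r n : ℕ}
  {B : Base M ι lam}

/-- a half gives an element of `g` -/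
lemma Hf.xi {m : Md M ι lam} {x : M} {π : En (Fin m.N)} (hB : B.OK I) (H : m.OK I B) (h : Hf m x π)
    (h0 : π ≠ 0) (hh : ∀ s, π * m.j x s * π = 0) : hsL (m.J * (π + π - m.p x)) ∈ m.gS x := by
  obtain ⟨s, t, kk, e, ht⟩ := h.exists_t hB H
  have a := hh s
  have kp := j_p H x s
  have pk := H.pj x s
  have kJ := H.jJ x s
  generalize m.j x s = k at *
  have b := congrArg (π * ·) ht
  simp only [mul_add, ← mul_assoc, a, h.idem, zero_mul, add_zero, mul_smul_comm, h.p' H] at b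
  obtain rfl : t = 1 := by
    rw [← sub_eq_zero, ← one_smul ℝ π, smul_smul, ← sub_smul, smul_eq_zero] at b
    linarith [b.resolve_right h0]
  have c := congrArg (· * k) ht
  simp only [add_mul, mul_assoc, kk, h.p' H, one_smul, pk] at c
  have cJ : (π + π - m.p x) * m.J = m.J * (π + π - m.p x) := by
    rw [sub_mul, add_mul, mul_sub, mul_add, h.J, H.Jp]
  have ck : k * (m.J * (π + π - m.p x)) = m.J * (π + π - m.p x) * k := by
    rw [← mul_assoc, kJ, neg_mul, mul_assoc, mul_assoc, ← mul_neg, mul_sub, sub_mul, mul_add,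
      add_mul, kp, pk]
    congr 1
    linear_combination (norm := abel) -(c + c)
  refine mem_g (fun v w => ?_) ?_ (by rw [mul_assoc, cJ]) (fun a => ?_) fun s => ?_
  · rw [mul_apply_eq_comp, H.Jsk, ← cJ, mul_apply_eq_comp]
    simp only [sub_apply, add_apply, inner_sub_left, inner_sub_right, inner_add_left,
      inner_add_right, h.sym _, H.psym x _]
  · rw [← mul_assoc, ← H.Jp, mul_assoc, mul_sub, mul_add, h.p, H.pidem]
  · rw [← mul_assoc, ← H.Jρ, mul_assoc, mul_assoc, mul_sub, mul_add, sub_mul, add_mul, h.ρ,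
      (H.cl x).pl, (H.cl x).pr]
  · obtain ⟨a, b, e⟩ := e s
    rw [e, add_mul, mul_add _ (a • k), smul_mul_assoc, smul_mul_assoc, mul_smul_comm, mul_smul_comm,
      ck, mul_assoc m.J k, ck, ← mul_assoc _ m.J k, mul_assoc m.J _ m.J, cJ]
    simp only [mul_assoc]

/-- a self-dual form is determined by its contraction with a unit vector -/
lemma sd_zero [DecidableEq ι] {V : Type} [NormedAddCommGroup V] [InnerProductSpace ℝ V]
    (hB : B.OK I) {x : M} {a₀ : ι} (hP : ∀ a, B.P a₀ a x = if a = a₀ then 1 else 0)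
    {v : ι × ι → V} (hv : ∀ s, ∑ t, B.sd x s t • v t = v s)
    (h1 : ∀ b ≠ a₀, ∑ a, B.P b a x • v (a₀, a) = 0) : v = 0 := by
  have a : ∀ s, ∑ t, B.a2 x s t • v t = v s := fun s => by
    rw [← hv s, Finset.sum_congr rfl fun t _ => congrArg _ (hv t).symm]
    simp only [Finset.smul_sum, smul_smul, ← a2_sd hB x s, Finset.sum_smul]
    exact Finset.sum_comm
  have h0 : ∀ b, v (a₀, b) = 0 := fun b => by
    by_cases e : b = a₀
    · rw [← a, e]; simp [Base.a2, mul_comm]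
    rw [← h1 b e, ← a, Finset.sum_congr rfl fun t _ => congrArg _ (a (a₀, t)).symm]
    simp only [Finset.smul_sum, smul_smul]
    rw [Finset.sum_comm]
    refine Finset.sum_congr rfl fun t _ => ?_
    simp only [← Finset.sum_smul, Base.a2, ← mul_div_assoc, ← Finset.sum_div, mul_sub,
      Finset.sum_sub_distrib, mul_left_comm (B.P b _ x), ← Finset.mul_sum, (hB.pr x).idem]
  have b : ∀ s, ∑ t, B.st x s t • v t = v s := fun s => by
    have := hv s
    simp only [Base.sd, add_smul, Finset.sum_add_distrib, div_eq_inv_mul, mul_smul,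
      ← Finset.smul_sum, a] at this
    linear_combination (norm := module) (2 : ℝ) • this
  have c : ∀ b, v (b, a₀) = 0 := fun b => by
    rw [← a, ← neg_eq_zero, ← h0 b, ← a, ← Finset.sum_neg_distrib]
    exact Finset.sum_congr rfl fun t _ => by rw [← neg_smul, Base.a2, Base.a2]; congr 1; ring
  funext s
  have d : ∀ t : ι × ι, B.st x s t • v t = B.P a₀ s.1 x • B.st x (a₀, s.2) t • v t +
      B.P a₀ s.2 x • B.st x (s.1, a₀) t • v t := fun t => by
    have e := Dgr80.o_five hB x a₀ s.1 s.2 t.1 t.2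
    by_cases h1 : t.1 = a₀
    · simp [show v t = 0 from (h1 ▸ h0 t.2 : v (t.1, t.2) = 0)]
    by_cases h2 : t.2 = a₀
    · simp [show v t = 0 from (h2 ▸ c t.1 : v (t.1, t.2) = 0)]
    rw [hP a₀, hP t.1, hP t.2, if_pos rfl, if_neg h1, if_neg h2] at e
    rw [smul_smul, smul_smul, ← add_smul, Base.st, Base.st, Base.st]
    congr 1
    linarith
  rw [← b]
  simp only [d, Finset.sum_add_distrib, ← Finset.smul_sum, b, h0, c, smul_zero, add_zero,
    Pi.zero_apply]

variable {c : Cfg M ι lam r} {G : Geo I M ι lam} {K : Set M}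

/-- away from the fixed points the spinor words generate the whole module -/
theorem p_of_not_fix (hB : B.OK I) (H : c.m.OK I B) (hW : c.m.IsConn B G c.W)
    (hK : IsPreconnected K) {π : M → En (Fin c.m.N)} (sm : Sm I π) (hf : ∀ x ∈ K, Hf c.m x (π x))
    (hi : ∀ x v, π x (π x v) = π x v) (par : ∀ a x, nabE I G.F.e c.W a π x = 0)
    (fix : ∀ x ∈ K, π x (c.Φ x) = c.Φ x) (h : ¬Nd18.Fix G.F c K) : ∀ x ∈ K, π x = c.m.p x := by
  obtain ⟨y, hy, h0⟩ : ∃ y ∈ K, c.Φ y ≠ 0 := by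
    by_contra! k
    exact h ⟨0, ⟨contMDiffOn_const, fun _ _ => zero_mem _, fun a x _ => by simp [nab, dv_zero]⟩,
      fun x hx => by simp [k x hx]⟩
  have n0 : ∀ x ∈ K, π x ≠ 0 := fun x hx e =>
    h0 (by rw [← fix y hy, zero_const sm.continuous hi hK hx hy e, zero_apply])
  by_cases e : ∃ y ∈ K, π y = c.m.p y
  · obtain ⟨y, hy, e⟩ := e
    intro x hx
    refine (sub_eq_zero.1 (zero_const (X := K) (π := fun x => c.m.p x - π x)
      ((H.sp.continuous.sub sm.continuous).comp continuous_subtype_val) (fun x v => ?_)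
      (K := univ) (by exact (isPreconnected_iff_preconnectedSpace.1 hK).1) (x := ⟨y, hy⟩)
      (y := ⟨x, hx⟩) trivial trivial (sub_eq_zero.2 e.symm))).symm
    rw [← mul_apply_eq_comp, sub_mul, mul_sub, mul_sub, H.pidem, (hf x x.2).p, (hf x x.2).p' H,
      (hf x x.2).idem, sub_self, sub_zero]
  have s1 : Sm I fun x => π x + π x := sm.add sm
  have s : Sm I fun x => π x + π x - c.m.p x := s1.sub H.sp
  refine (h ⟨fun x => hsL (c.m.J * (π x + π x - c.m.p x)), ⟨(hsL.contMDiff.comp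
    (contMDiff_const.clm_comp s)).contMDiffOn, fun x hx => (hf x hx).xi hB H (n0 x hx)
      ((((hf x hx).tri hB H).resolve_left (n0 x hx)).resolve_left fun k => e ⟨x, hx, k⟩),
    fun a x _ => ?_⟩, fun x hx => ?_⟩).elim
  · rw [hsL_nab a (SA.mul contMDiffAt_const (s x)), nabE_mul a contMDiffAt_const (s x),
      nabE_sub a (s1 x) (H.sp x), nabE_add a (sm x) (sm x), par,
      show nabE I G.F.e c.W a c.m.p x = 0 from hW.cc.par a x, nabE, dv_const, hW.J]
    simp
  · have := fix x hx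
    rw [opL_hsL, mul_apply_eq_comp, sub_apply, add_apply, this, ← this, ← mul_apply_eq_comp (c.m.p x),
      (hf x hx).p, add_sub_cancel_right]

/-- no parallel line and non-zero curvature give full holonomy -/
theorem full_of_not_lin (hB : B.OK I) (H : c.m.OK I B) (hW : c.m.IsConn B G c.W)
    (hK : IsPreconnected K) (h : ¬Nd18.Lin G.F c K) (h0 : ∃ x ∈ K, c.m.Fg G.F c.W x ≠ 0) :
    Full c G K := by
  intro σ sm sy hi hg par fix x hx
  have sg := Std94.sm_pg hB H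
  have tr : ∀ {T : CL c.m.A c.m.A}, (∀ v, T (T v) = T v) →
      LinearMap.trace ℝ _ (T : c.m.A →ₗ[ℝ] c.m.A) = Module.finrank ℝ T.range := fun h =>
    LinearMap.IsProj.trace ⟨fun v => ⟨v, rfl⟩, by rintro _ ⟨v, rfl⟩; exact h v⟩
  have hg' : ∀ x v, σ x (c.m.pg x v) = σ x v := fun x v =>
    ext_inner_right ℝ fun w => by rw [sy, inner_pg, hg, sy]
  have i2 : ∀ x v, (c.m.pg x - σ x) ((c.m.pg x - σ x) v) = (c.m.pg x - σ x) v := fun x v => by
    simp only [sub_apply, map_sub, pg_pg, hg, hg', hi, sub_self, sub_zero]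
  have t3 : ∀ x, Module.finrank ℝ (c.m.pg x - σ x).range + Module.finrank ℝ (σ x).range = 3 :=
    fun x => by
      have := (⟨pg_mem x, fun _ => pg_of_mem⟩ :
        LinearMap.IsProj (c.m.gS x) (c.m.pg x : _ →ₗ[ℝ] _)).trace
      rw [Std94.finrank_g hB (Std94.pmx H x), ← sub_add_cancel (c.m.pg x) (σ x),
        ContinuousLinearMap.toLinearMap_add, map_add, tr (i2 x), tr (hi x)] at this
      exact_mod_cast this
  have rk := fun y hy => rank_const sm.continuous hi hK hx (y := y) hy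
  have z : ∀ {T : CL c.m.A c.m.A}, Module.finrank ℝ T.range = 0 → T = 0 := fun h =>
    ContinuousLinearMap.coe_injective (LinearMap.range_eq_bot.1 (Submodule.finrank_eq_zero.1 h))
  have t := t3 x
  rcases (by omega : Module.finrank ℝ (σ x).range = 0 ∨ Module.finrank ℝ (σ x).range = 1 ∨
    Module.finrank ℝ (σ x).range = 2 ∨ Module.finrank ℝ (c.m.pg x - σ x).range = 0) with e | e | e | e
  · obtain ⟨y, hy, h0⟩ := h0
    refine (h0 ?_).elim
    ext1 s
    rw [← fix y hy, z ((rk y hy).symm.trans e)]; rfl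
  · exact (h ⟨σ, sm.contMDiffOn, fun y hy => ⟨sy y, ContinuousLinearMap.ext (hi y),
      ContinuousLinearMap.ext (hg y), by rw [tr (hi y), ← rk y hy, e, Nat.cast_one],
      fun a => par a y⟩⟩).elim
  · refine (h ⟨fun y => c.m.pg y - σ y, (sg.sub sm).contMDiffOn, fun y hy => ⟨fun v w => ?_,
      ContinuousLinearMap.ext (i2 y), ContinuousLinearMap.ext fun v => ?_, ?_, fun a => ?_⟩⟩).elim
    · simp only [sub_apply, inner_sub_left, inner_sub_right, sy, inner_pg]
    · simp only [mul_apply_eq_comp, sub_apply, map_sub, pg_pg, hg]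
    · have := t3 y
      rw [← rk y hy, e] at this
      rw [tr (i2 y), show Module.finrank ℝ (c.m.pg y - σ y).range = 1 by omega, Nat.cast_one]
    · exact (nabE_sub a (sg y) (sm y)).trans (by rw [pg_par H hW sg, par, sub_self])
  · exact (sub_eq_zero.1 (z e)).symm

end Crest.Agent.X212.Wrd81
end
end

-- ▼ part X212/Wrd81/Apx

/-!
# X212 / WORDS, part 21 (helper81): supports, approximation along families, clopen pieces.
-/

set_option autoImplicit false
set_option linter.unusedSectionVars false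
noncomputable section
open scoped Manifold ContDiff Topology InnerProductSpace
open MeasureTheory Set Function Filter

namespace Crest.Agent.X212.Wrd81
open An Sob92 Mod61 Map77

theorem _root_.Crest.Agent.X212.Mod61.Prob.Ax.onto {W : Type} {Q : Prob W}
    {Adm : (W →₀ ℝ) → Prop} (H : Q.Ax Adm) {q : W →₀ ℝ} {x : Q.X} (ha : Adm q) (hx : Q.Sol q x)
    (hd : ∀ N : Submodule ℝ (Q.E x.1), IsClosed (N : Set (Q.E x.1)) →
      (∀ u, fderiv ℝ (Q.F x.1 q) (Q.pt x.2) u ∈ N) → (∀ w, Q.τ x.1 w (Q.pt x.2) ∈ N) →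
      ∀ e, e ∈ N) : ∃ J, Q.Onto q x J :=
  let ⟨_, _, h, _⟩ := H.slc q x ha hx; exists_onto h.1 _ hd

variable {E : Type} [NormedAddCommGroup E] [NormedSpace ℝ E] [FiniteDimensional ℝ E]
  [MeasurableSpace E] [BorelSpace E]
  {HM : Type} [TopologicalSpace HM] {I : ModelWithCorners ℝ E HM} [I.Boundaryless]
  {M : Type} [TopologicalSpace M] [ChartedSpace HM M] [IsManifold I ∞ M]
  [MeasurableSpace M] [T2Space M] [BorelSpace M] [SecondCountableTopology M]
  {ι : Type} [Fintype ι] {lam : Type} [Fintype lam]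
  {T : Type} [NormedAddCommGroup T] [NormedSpace ℝ T] {r n : ℕ} {Ω Ω' K : Set M}

/-! ### supports -/

section mono
variable (e : Ω ⊆ Ω')
include e

lemma Tv.mono {s : M → Eu lam} (h : Tv I Ω s) : Tv I Ω' s := ⟨h.sm, h.hcs, h.sub.trans e⟩

lemma SwIn.mono {u : SW M} (h : SwIn I Ω u) : SwIn I Ω' u := fun t ht => by
  have := h t ht
  cases t
  exacts [this.mono e, this.mono e, trivial, trivial]

lemma LlIn.mono {l : List (La M)} (h : LlIn I Ω l) : LlIn I Ω' l := fun t ht => by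
  have := h t ht
  cases t
  exacts [this.mono e, trivial]

lemma AwIn.mono {ξ : AW M} (h : AwIn I Ω ξ) : AwIn I Ω' ξ := by
  obtain ⟨s, l⟩ := ξ
  refine ⟨?_, h.2.mono e⟩
  cases s
  exacts [⟨h.1.1.mono e, h.1.2.mono e⟩, ⟨h.1.1.mono e, h.1.2.1.mono e, h.1.2.2.mono e⟩]

lemma SgIn.mono {g : Sg M lam} (h : SgIn I Ω g) : SgIn I Ω' g :=
  ⟨h.1.mono e, h.2.1.mono e, h.2.2.mono e⟩

lemma CoIn.mono {d : Co M lam r} (h : CoIn I Ω d) : CoIn I Ω' d := by
  cases d
  exacts [trivial, ⟨h.1.mono e, fun g k => (h.2 g k).mono e⟩]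

lemma TmIn.mono {τ : Tm M lam r n} (h : TmIn I Ω τ) : TmIn I Ω' τ := by
  cases τ
  exacts [⟨h.1.mono e, h.2⟩, ⟨h.1.mono e, h.2.1.mono e, h.2.2.mono e⟩,
    ⟨h.1.mono e, h.2.1.mono e, h.2.2.mono e⟩, ⟨h.1.mono e, h.2.1.mono e, h.2.2.1.mono e,
      h.2.2.2.1.mono e, h.2.2.2.2.1.mono e, h.2.2.2.2.2.1.mono e, h.2.2.2.2.2.2.mono e⟩,
    ⟨h.1.mono e, h.2.1.mono e, h.2.2.1.mono e, h.2.2.2.1, h.2.2.2.2.1,
      fun ξ k => (h.2.2.2.2.2 ξ k).mono e⟩, SgIn.mono e h, trivial]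

end mono

/-! ### approximation -/

section ap
variable {V : Type} [NormedAddCommGroup V] [InnerProductSpace ℝ V] [FiniteDimensional ℝ V]
  {F : Pre I M ι} {k : ℕ} {𝒯 𝒯' : Set (M → V)} {u : M → V}

lemma Ap.trans (h : ∀ v ∈ 𝒯, v ∈ Tst I M V → v ∈ Ap F k 𝒯') (hu : u ∈ Ap F k 𝒯) :
    u ∈ Ap F k 𝒯' := Ap.map (T := fun _ => 1) (Cb_const _) h hu

lemma Ap.mono (h : 𝒯 ⊆ 𝒯') (hu : u ∈ Ap F k 𝒯) : u ∈ Ap F k 𝒯' :=
  Ap.trans (fun _ a b => Ap.of_mem b (h a)) hu

/-- limits along smooth families -/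
lemma Ap.of_fam {f : ℝ → M → V} (hf : Prm93.JS I univ f) (hK : IsCompact K)
    (h0 : ∀ s, ∀ x ∉ K, f s x = 0) (h : ∀ s ≠ 0, f s ∈ Ap F k 𝒯) : f 0 ∈ Ap F k 𝒯 := by
  have t := fun s => mem_tst (hf.sm (mem_univ s)) (HasCompactSupport.intro hK (h0 s))
  obtain ⟨g, hg, g1⟩ := exists_tf_one (I := I) hK isOpen_univ (subset_univ _)
  have c := Prm93.SB.toH (k := k) (s := fun s => ⟨f s, t s⟩) (Prm93.Fam.sb (F := F) hK isOpen_univ
    ⟨hf, fun s _ => Cb_of_hcs (t s).1 (t s).2.1, fun s _ s' _ x hx =>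
      (h0 s x hx).trans (h0 s' x hx).symm⟩)
    (Cb_const _) (fun _ _ => rfl) hg.sm hg.hcs fun s _ x => by
      by_cases hx : x ∈ K
      · simp [g1 x hx]
      · simp [h0 s x hx]
  exact mem_Ap.2 ⟨t 0, (isClosed_cl _).mem_of_tendsto
    (((continuousOn_univ.1 c.continuousOn).tendsto 0).mono_left nhdsWithin_le_nhds)
    (eventually_mem_nhdsWithin.mono fun s (hs : s ∈ ({0}ᶜ : Set ℝ)) => (mem_Ap.1 (h s hs)).2)⟩

lemma ind_tst (hK : IsClopen K) (hu : u ∈ Tst I M V) :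
    K.indicator u ∈ Tst I M V ∧ tsupport (K.indicator u) ⊆ tsupport u ∩ K := by
  have e : support (K.indicator u) ⊆ K ∩ support u := support_indicator.subset
  exact ⟨mem_tst (Eqv71.sm_ind hK fun x _ => hu.1 x) (hu.2.1.mono (e.trans inter_subset_right)),
    subset_inter (closure_mono (e.trans inter_subset_right))
      (closure_minimal (e.trans inter_subset_left) hK.1)⟩

/-- pointwise normalisation does not change the approximable functions -/
lemma Ap.of_nrm (hu : u ∈ Tst I M V)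
    (h : ∀ s : ℝ, s ≠ 0 → (fun x => (√(1 + ‖s • u x‖ ^ 2))⁻¹ • s • u x) ∈ 𝒯) : u ∈ Ap F k 𝒯 := by
  have c : ContDiff ℝ ∞ fun z : ℝ × V => (√(1 + ‖z.1 • z.2‖ ^ 2))⁻¹ • z.2 :=
    (((contDiff_const.add ((contDiff_fst.smul contDiff_snd).norm_sq ℝ)).sqrt
      fun _ => by positivity).inv fun _ => by positivity).smul contDiff_snd
  have z : ∀ s : ℝ, ∀ x ∉ tsupport u, (√(1 + ‖s • u x‖ ^ 2))⁻¹ • u x = 0 := fun s x hx => by
    rw [image_eq_zero_of_notMem_tsupport hx, smul_zero]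
  have j : Prm93.JS I univ fun (s : ℝ) x => (√(1 + ‖s • u x‖ ^ 2))⁻¹ • u x := fun s _ x =>
    c.comp_contMDiffAt (contMDiffAt_fst.prodMk_space ((hu.1 x).comp (s, x) contMDiffAt_snd))
  refine mem_of_eq_of_mem (funext fun x => by simp) (Ap.of_fam j hu.2.1 z fun s hs => ?_)
  have t := (Tst I M V).smul_mem s (mem_tst (j.sm (mem_univ s)) (.intro hu.2.1 (z s)))
  have e : (s • fun x => (√(1 + ‖s • u x‖ ^ 2))⁻¹ • u x) =
    fun x => (√(1 + ‖s • u x‖ ^ 2))⁻¹ • s • u x := funext fun x => smul_comm _ _ _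
  exact (Submodule.smul_mem_iff _ hs).1 (Ap.of_mem t (mem_of_eq_of_mem e (h s hs)))

/-- from clopen pieces to the whole -/
lemma mem_of_pcs {U : Submodule ℝ (M → V)} {q : M → V →L[ℝ] V}
    (h : ∀ x ∈ Ω, ∃ K, IsClopen K ∧ x ∈ K ∧ ∀ u ∈ Tst I M V, tsupport u ⊆ Ω ∩ K →
      (∀ x, q x (u x) = u x) → u ∈ U) (hu : u ∈ Tst I M V) (hs : tsupport u ⊆ Ω)
    (hq : ∀ x, q x (u x) = u x) : u ∈ U := by
  have a : ∀ (K : Set M) x, q x (K.indicator u x) = K.indicator u x := fun K x => by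
    by_cases hx : x ∈ K <;> simp [hx, hq]
  obtain ⟨K, h1, h2, h3⟩ : ∃ K, IsClopen K ∧ tsupport u ⊆ K ∧
      ∀ L ⊆ K, IsClopen L → L.indicator u ∈ U := by
    refine hu.2.1.isCompact.induction_on ⟨∅, isClopen_empty, Subset.rfl, fun L e _ => by
      rw [subset_empty_iff.1 e, indicator_empty]; exact U.zero_mem⟩ (fun s t e ⟨K, h⟩ => ⟨K, h.1, e.trans h.2.1, h.2.2⟩)
      (fun s t ⟨K, h⟩ ⟨K', h'⟩ => ⟨K ∪ K', h.1.union h'.1, union_subset_union h.2.1 h'.2.1,
        fun L e hL => ?_⟩) fun x hx => ?_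
    · rw [← inter_union_sdiff L K, indicator_union_of_disjoint disjoint_sdiff_inter.symm]
      exact add_mem (h.2.2 _ inter_subset_right (hL.inter h.1))
        (h'.2.2 _ (sdiff_subset_iff.2 e) (hL.diff h.1))
    · obtain ⟨K, h1, h2, h3⟩ := h x (hs hx)
      exact ⟨K, mem_nhdsWithin_of_mem_nhds (h1.2.mem_nhds h2), K, h1, Subset.rfl, fun L e hL => h3 _
        (ind_tst hL hu).1 ((ind_tst hL hu).2.trans (inter_subset_inter hs e)) (a L)⟩
  exact mem_of_eq_of_mem (indicator_eq_self.2 (subset_closure.trans h2)).symm (h3 K Subset.rfl h1)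

end ap

end Crest.Agent.X212.Wrd81
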