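import Crest.Agent.X212.Wrd81.Psh
import Crest.Agent.X212.Hol14.Den
import Crest.Agent.X212.An.Ext
import Crest.Agent.X212.Nd18.Api
import Crest.Agent.X212.Sard93.Fin
import Crest.Agent.X212.An.Str

-- ▼ part X212/Wrd81/Zer
section

/-!
# X212 / WORDS, part 25 (helper81): null sets, rows of cuts, supports of neck terms.
-/

set_option autoImplicit false
set_option linter.unusedSectionVars false
noncomputable section
open scoped Manifold ContDiff Topology InnerProductSpace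
open MeasureTheory Set Function Filter

/-- `Onto` for the extended problem from density in each row -/
theorem Crest.Agent.X212.An.Ext.Ax.onto' {W : Type} {Q : Crest.Agent.X212.Mod61.Prob W} {h : Type}
    [Fintype h] {X : Crest.Agent.X212.An.Ext Q h} {Adm : (W →₀ ℝ) → Prop} (H : X.Ax Adm)
    {q : W →₀ ℝ} {x : X.prob.X} (ha : Adm q) (hx : X.prob.Sol q x) (h1 : ∃ J, Q.Onto q (X.fst x) J)
    (h3 : ∀ i (N : Submodule ℝ (X.K x.1 i)), IsClosed (N : Set (X.K x.1 i)) →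
      (∀ χ, X.T x.1 i q (Q.pt x.2.1) χ ∈ N) → (∀ w, Q.τ x.1 w (Q.pt x.2.1) = 0 →
        (∀ i' ≠ i, X.σ x.1 i' w (Q.pt x.2.1) (x.2.2 i') = 0) →
        X.σ x.1 i w (Q.pt x.2.1) (x.2.2 i) ∈ N) → ∀ χ, χ ∈ N) : ∃ J, X.prob.Onto q x J := by
  classical
  obtain ⟨J, h1⟩ := h1
  have a := Crest.Agent.X212.An.fr_dgl fun i => H.fred q _ i ha ((X.sol_iff q x).1 hx).1
  obtain ⟨J', b⟩ := Crest.Agent.X212.Wrd81.exists_onto (H := Unit) (σ := 0)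
    (A := Crest.Agent.X212.An.dgl fun i => X.T x.1 i q (Q.pt x.2.1)) ((a.conj (.refl ℝ _)
      (ContinuousLinearEquiv.prodUnique ℝ _ Unit).symm).congr fun _ => rfl).1
    (fun w i => if Q.τ x.1 w (Q.pt x.2.1) = 0 then X.σ x.1 i w (Q.pt x.2.1) (x.2.2 i) else 0)
    fun N n1 n2 n3 e => by
      rw [← Finset.univ_sum_single e]
      refine sum_mem fun i _ => h3 i (N.comap (LinearMap.single ℝ _ i))
        (n1.preimage (continuous_single i)) (fun χ => ?_) (fun w w1 w2 => ?_) _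
      · refine Submodule.mem_comap.2 (Set.mem_of_eq_of_mem (funext fun j => ?_) (n2 (Pi.single i χ)))
        by_cases k : j = i
        · subst k; simp
        · simp [k]
      · refine Submodule.mem_comap.2 (Set.mem_of_eq_of_mem (funext fun j => ?_) (n3 w))
        by_cases k : j = i
        · subst k; simp [w1]
        · simp [k, w2 j k]
  refine ⟨_, H.onto hx (J' := J'.filter fun w => Q.τ x.1 w (Q.pt x.2.1) = 0) h1
    (fun w hw => (Finset.mem_filter.1 hw).2) fun f => ?_⟩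
  obtain ⟨u, c, k⟩ := b f
  let c' : W → ℝ := fun w => if h : w ∈ J' then c ⟨w, h⟩ else 0
  refine ⟨u, fun w => c' w, fun i => Eq.trans (congrArg₂ (· + ·) rfl ?_) (congrFun k i)⟩
  rw [Finset.sum_coe_sort _ fun w => c' w • X.σ x.1 i w (Q.pt x.2.1) (x.2.2 i), Finset.sum_filter,
    ← Finset.sum_coe_sort, Finset.sum_apply]
  exact Finset.sum_congr rfl fun w _ => by simp [c']

namespace Crest.Agent.X212.Wrd81
open An Sob92 Mod61 Nd18 Hol14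

variable {E : Type} [NormedAddCommGroup E] [NormedSpace ℝ E] [FiniteDimensional ℝ E]
  [MeasurableSpace E] [BorelSpace E]
  {HM : Type} [TopologicalSpace HM] {I : ModelWithCorners ℝ E HM} [I.Boundaryless]
  {M : Type} [TopologicalSpace M] [ChartedSpace HM M] [IsManifold I ∞ M]
  [MeasurableSpace M] [T2Space M] [BorelSpace M] [SecondCountableTopology M]
  {E' : Type} [NormedAddCommGroup E'] [NormedSpace ℝ E'] [FiniteDimensional ℝ E']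
  [MeasurableSpace E'] [BorelSpace E']
  {HM' : Type} [TopologicalSpace HM'] {I' : ModelWithCorners ℝ E' HM'} [I'.Boundaryless]
  {M' : Type} [TopologicalSpace M'] [ChartedSpace HM' M'] [IsManifold I' ∞ M']
  [MeasurableSpace M'] [T2Space M'] [BorelSpace M'] [SecondCountableTopology M']
  {ι : Type} [Fintype ι] {lam lam' : Type} [Fintype lam] [Fintype lam'] {r n : ℕ}

/-- images of manifolds of smaller dimension are null -/
theorem null_image (hd : Module.finrank ℝ E < Module.finrank ℝ E') (F : Pre I' M' ι) {f : M → M'}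
    {U : Set M} (hf : ∀ x ∈ U, ContMDiffAt I I' 1 f x) : F.μ (f '' U) = 0 := by
  refine Sard93.null_image_of_loc fun y hy => ?_
  obtain ⟨O, ρ, h, -⟩ := F.dens (f y)
  have hg := (contMDiffAt_iff.1 (hf y hy)).2
  rw [I.range_eq_univ, contDiffWithinAt_univ] at hg
  obtain ⟨C, t, ht, hl⟩ := hg.exists_lipschitzOnWith
  have h1 := measure_zero_of_dimH_lt (μ := leb E') (d := Module.finrank ℝ E')
    (by rw [leb, NNReal.coe_natCast]; exact Measure.absolutelyContinuous_isAddHaarMeasure _ _)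
    (hl.dimH_image_le.trans_lt ((dimH_mono (subset_univ _)).trans_lt
      (by rw [Real.dimH_univ_eq_finrank]; exact_mod_cast hd)))
  refine ⟨f ⁻¹' O ∩ ((extChartAt I y).source ∩ extChartAt I y ⁻¹' t), inter_mem
    ((hf y hy).continuousAt (h.1.mem_nhds h.2.1)) (inter_mem (extChartAt_source_mem_nhds y)
      (continuousAt_extChartAt y ht)), ?_⟩
  rw [← Measure.restrict_eq_self (t := O) _ (by rintro _ ⟨z, hz, rfl⟩; exact hz.2.1)]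
  refine nonpos_iff_eq_zero.1 ((measure_mono ?_).trans ((Measure.le_map_apply
    (Met55.dens_aem h) _).trans (h.2.2.2 ▸ (withDensity_absolutelyContinuous _ _
      (nonpos_iff_eq_zero.1 ((Measure.restrict_apply_le _ _).trans h1.le))).le)))
  rintro _ ⟨z, hz, rfl⟩
  exact ⟨_, hz.2.2.2, by simp only [comp_apply, (extChartAt I y).left_inv hz.2.2.1]⟩

variable {Ω Ω₀ : Set M} {Ω' K : Set M'}

theorem RichP.mono {d : Co M lam r} {Av Av' : Tm M lam r n → Prop} (h : RichP I Ω d Av)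
    (e : Ω₀ ⊆ Ω) (a : ∀ τ, Av τ → Av' τ) : RichP I Ω₀ d Av' :=
  ⟨fun _ _ h1 h2 => a _ (h.lin _ _ (h1.mono e) (h2.mono e)),
    fun _ _ h1 h2 => a _ (h.anti _ _ (h1.mono e) (h2.mono e)),
    fun _ _ _ _ _ h1 h2 h3 => a _ (h.ad _ _ _ _ _ (h1.mono e) (h2.mono e) (h3.mono e)),
    fun _ _ _ _ _ h1 h2 h3 h4 h5 => a _ (h.adj _ _ _ _ _ (h1.mono e) (h2.mono e) (h3.mono e)
      (h4.mono e) (h5.mono e))⟩

namespace Inv
variable {t : Tp M M' lam lam'} {t' : Tp M' M lam' lam} {c : Cfg M' ι lam' r} {B : Base M' ι lam'}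
  {G : Geo I' M' ι lam'} {x : M'} (h : Inv I I' t t' Ω Ω' B.l) (p : Pc c B G K Ω')
  (hx : x ∈ Ω' ∩ K) (e : Ω ⊆ Ω₀)
include h p hx e

theorem spn_full (hF : Full c G K) :
    Spn c G.F (fun ξ' => ∃ ξ, XiIn I Ω₀ ξ ∧ c.xi G.F (t.xi ξ) = c.xi G.F ξ') x :=
  Hol14.spn_full p hx hF fun ξ k => ⟨.aw (t'.aw ξ), (h.toIn.aw k).mono e, by rw [Tp.xi, h.aw' k]⟩

theorem spn_irr (hΦ : ∀ x ∈ K, ∃ y ∈ connectedComponent x, c.Φ y ≠ 0) {d : Co M lam r}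
    (hd : CoIn I Ω₀ d) (d0 : c.co G.F (t.co d) ≠ 0) :
    Spn c G.F (fun ξ' => ∃ ξ, XiIn I Ω₀ ξ ∧ c.xi G.F (t.xi ξ) = c.xi G.F ξ') x := by
  refine Hol14.spn_irr p hx hΦ d0 (fun u v h1 h2 => ?_) fun s u v h1 h2 h3 =>
    ⟨.qj d (t'.s s) (u.map t'.lt) (v.map t'.lt) [], ⟨hd, (h.s _ h1).mono e, (h.toIn.sw h2).mono e,
      (h.toIn.sw h3).mono e, llIn_nil⟩, ?_⟩
  · have k : AwIn I' Ω' ⟨.q u v, []⟩ := ⟨⟨h1, h2⟩, llIn_nil⟩
    exact ⟨.aw (t'.aw _), (h.toIn.aw k).mono e, by rw [Tp.xi, h.aw' k]⟩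
  · rw [Tp.xi, h.sw' h2, h.sw' h3, h.ts _ h1]
    simp only [Cfg.xi, List.map_nil, wd, List.foldr_nil, Cfg.qj, p.ok.jl]

end Inv

section nk
variable {κ : Type} [Fintype κ] [CompactSpace M] {D : YD I M κ lam} {B : Base M' (Option κ) lam}
  {G : Geo I' M' (Option κ) lam} (N : ND M lam) (K : Nk D B G) (c : Cfg M' (Option κ) lam r)
  {x : M'} (hx : x ∉ K.ψ.target)
include hx

theorem q1_off : (N.q1 K : Pt _ _ _ r n).D c x = 0 ∧ (N.q1 K : Pt _ _ _ r n).C c x = 0 := by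
  have a : ∀ a, G.F.D a K.τ x = 0 := fun a => by
    cases a
    · rw [K.D_τ_none]
      exact image_eq_zero_of_notMem_tsupport fun k =>
        hx (K.dp_sub (by norm_num) (tsupport_dtf K.len k))
    · rw [K.D_τ_some]; rfl
  simp [ND.q1, Dgr80.DG.q1, ND.dg, a, ← Pi.zero_def]

theorem q2_off (T : YT M) : (N.q2 K T : Pt _ _ _ r n).D c x = 0 ∧
    (N.q2 K T : Pt _ _ _ r n).C c x = 0 := by
  have a : K.cut 3 (K.τ x) = 0 := (K.cut_τ (by norm_num) x).trans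
    (ct_zero fun k => hx (K.dp_sub (by norm_num) k))
  simp [ND.q2, ND.oc, a]

end nk

end Crest.Agent.X212.Wrd81
end
end

-- ▼ part X212/Wrd81/Jb

/-!
# X212 / WORDS, part 26 (helper81): density for the parts of a job.
-/

set_option autoImplicit false
set_option linter.unusedSectionVars false
noncomputable section
open scoped Manifold ContDiff Topology InnerProductSpace
open MeasureTheory Set Function Filter

namespace Crest.Agent.X212.Wrd81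
open An M Nd18 Sob92 Mod61 Hol14

section gen
variable {E : Type} [NormedAddCommGroup E] [NormedSpace ℝ E] [FiniteDimensional ℝ E]
  [MeasurableSpace E] [BorelSpace E]
  {HM : Type} [TopologicalSpace HM] {I : ModelWithCorners ℝ E HM} [I.Boundaryless]
  {M : Type} [TopologicalSpace M] [ChartedSpace HM M] [IsManifold I ∞ M]
  [MeasurableSpace M] [T2Space M] [BorelSpace M] [SecondCountableTopology M]
  {ι : Type} [Fintype ι] {lam : Type} [Fintype lam]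
  {T : Type} [NormedAddCommGroup T] [NormedSpace ℝ T] {r n m : ℕ}
  {𝔉 : Mod61.Fam I M ι lam T}

variable (I) in
/-- all curvature terms in `Ω` are available -/
abbrev RichA (Ω : Set M) (Av : Tm M lam r n → Prop) : Prop := ∀ g g' t f l, Tf I Ω g → Tf I Ω g' →
  AwIn I Ω ⟨t, .mul f :: l⟩ → Av (.ad g g' ⟨t, .mul f :: l⟩)

/-- perturbations which vanish near `S` -/
def offS (o : Ref 𝔉) (S : Set M) : Submodule ℝ (T → PtX M ι lam r n m) where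
  carrier := {τ | ∀ᶠ x in 𝓝ˢ S, ∀ y : Pnt o r, (τ y.t).D y.cfg x = 0 ∧ (τ y.t).C y.cfg x = 0}
  add_mem' a b := mem_ofPred.2 (((mem_ofPred.1 a).and (mem_ofPred.1 b)).mono fun x k y => by
    simp [k.1 y, k.2 y])
  zero_mem' := mem_ofPred.2 (.of_forall fun _ _ => ⟨rfl, rfl⟩)
  smul_mem' s τ a := mem_ofPred.2 ((mem_ofPred.1 a).mono fun x k y => by simp [k y])

/-- perturbations without real rows -/
def norS (o : Ref 𝔉) : Submodule ℝ (T → PtX M ι lam r n m) where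
  carrier := {τ | ∀ y : Pnt o r, (τ y.t).R y.cfg = 0}
  add_mem' a b y := by simp [a y, b y]
  zero_mem' _ := rfl
  smul_mem' s τ a y := by simp [a y]

theorem row_norm {z : EuclideanSpace ℂ (Fin r)} (hz : z ≠ 0) {a b : ℝ} (hb : b ≠ 0) (ρ : Fin 1 → ℝ) :
    ∃ ζ : EuclideanSpace ℂ (Fin r),
      HasDerivAt (fun s : ℝ => fun _ : Fin 1 => a + b * ‖z + s • ζ‖ ^ 2) ρ 0 := by
  have := norm_ne_zero_iff.2 hz
  refine ⟨(ρ 0 / (2 * b * ‖z‖ ^ 2)) • z, hasDerivAt_pi.2 fun i => ?_⟩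
  convert (((((hasDerivAt_id (0 : ℝ)).mul_const (ρ 0 / (2 * b * ‖z‖ ^ 2))).const_add 1).pow 2
    |>.mul_const (‖z‖ ^ 2)).const_mul b).const_add a using 1
  · funext s
    rw [smul_smul, show ∀ t : ℝ, z + t • z = (1 + t) • z from fun t => by rw [add_smul, one_smul],
      norm_smul, mul_pow, Real.norm_eq_abs, sq_abs]
    rfl
  · rw [Subsingleton.elim i 0]
    simp
    field_simp

end gen

variable {Wi : Type} {X : Mf 4} {A κ lam : Type} [Fintype A] [Fintype κ] [Fintype lam]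
  [DecidableEq lam] {M : Mark X A κ} {c : M.Cl} {π : Reg A}

/-! ### caps and necks -/

section caps
variable (C : Caps M)

theorem tgt_sub : (C.φ c).targetᶜ ⊆ ⋃ p : A × Bool, {C.β c p.1 p.2 0} := fun z hz => by
  rw [C.tgt] at hz
  simp only [mem_compl_iff, mem_ofPred_eq, not_forall, not_not] at hz
  obtain ⟨a, -, -, b, e⟩ := hz
  exact mem_iUnion.2 ⟨(a, b), e⟩

theorem cpt_tgt : IsCompact (C.φ c).targetᶜ :=
  ((finite_iUnion fun _ => finite_singleton _).subset (tgt_sub C)).isCompact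

theorem null_tgt {ι : Type} [Fintype ι] (F : Pre (C.Z c).I (C.Z c).M ι) :
    F.μ (C.φ c).targetᶜ = 0 :=
  measure_mono_null (tgt_sub C) (measure_iUnion_null fun p => by
    rw [← (univ_nonempty (α := (M.bn p.1).Y.M)).image_const]
    exact null_image (I := (M.bn p.1).Y.I) (by rw [Mf.dim, Mf.dim]; norm_num) F
      fun _ _ => contMDiffAt_const)

variable (hπ : M.sys.Piece c.1 π)
include hπ

theorem U_src : M.sys.U π ⊆ (C.φ c).source := C.src c ▸ Cyl58.U_sub hπ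

theorem pc_tgt : (C.φ c).target ∩ C.pc c π ⊆ C.φ c '' M.sys.U π := fun z hz => by
  obtain ⟨x, hx, rfl⟩ := (C.φ c).toPartialEquiv.surjOn hz.1
  exact ⟨x, (Cyl58.φ_mem_pc C hπ ((C.mem_src c).1 hx)).1 hz.2, rfl⟩

theorem isOpen_img : IsOpen (C.φ c '' M.sys.U π) :=
  (C.φ c).toOpenPartialHomeomorph.isOpen_image_of_subset_source (M.sys.isOpen_U π) (U_src C hπ)

theorem null_pc {ι : Type} [Fintype ι] (F : Pre (C.Z c).I (C.Z c).M ι) :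
    F.μ (C.pc c π \ C.φ c '' M.sys.U π) = 0 :=
  measure_mono_null (fun _ hz k => hz.2 (pc_tgt C hπ ⟨k, hz.1⟩)) (null_tgt C F)

theorem pc_cmp {V : Type} [Zero V] {Φ : (C.Z c).M → V} (h : ∃ x ∈ C.pc c π, Φ x ≠ 0) :
    ∀ x ∈ C.pc c π, ∃ y ∈ connectedComponent x, Φ y ≠ 0 := fun _ hx =>
  let ⟨y, h1, h2⟩ := h; ⟨y, (Cyl58.isConnected_pc C hπ).subset_connectedComponent hx h1, h2⟩

end caps

variable {W : World M} {Ll : ML M lam} {Λ : Lns W Ll}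

theorem _root_.Crest.Agent.X212.An.IsNk.tgt_sub {m : M.Cl} {p : Prm A} {a : A} {b : Option Bool}
    {S : Xs Wi κ lam} {g : S.Y.M → (M.bn a).Y.M} {K : Nk S.D (Λ.B m c) (Λ.G m c p)}
    (h : IsNk a b g K) (ha : Act m c a b p) :
    K.ψ.target ⊆ W.φ c '' ((M.sys.cores c.1)ᶜ ∩ (M.bn a).slab (Icc (-1) 1)) := fun z hz => by
  obtain ⟨⟨y, t⟩, ht, rfl⟩ := K.ψ.toPartialEquiv.surjOn hz
  have e : K.J = Jv (Cht98.np (p.2 a) (b.getD false)) (Cht98.nq (p.2 a) (b.getD false)) ∧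
      ∀ s ∈ dom (p.2 a) (b.getD false), (b = some true → 0 < s) ∧ (b = some false → s < 0) ∧
        (a ∈ c.1 ∧ s ≠ 0 ∨ a ∈ M.sys.fr c.1) := by
    rw [Nk.J, h.lo, h.hi]
    rcases b with _ | b
    · exact ⟨by simp [Cht98.np, Cht98.nq, ha.2.2.1 a ha.2.2.2.2.1],
        fun _ _ => ⟨nofun, nofun, .inr ha.2.2.2.2.1⟩⟩
    have e : p.2 a = 1 := ha.2.1.2 ha.2.2.2
    rw [e]
    refine ⟨by cases b <;> simp [Cht98.np, Cht98.nq], fun s hs => ?_⟩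
    replace hs := hs.resolve_left (lt_irrefl _)
    cases b
    exacts [⟨nofun, fun _ => hs, .inl ⟨ha.2.2.2, (show s < 0 from hs).ne⟩⟩,
      ⟨fun _ => hs, nofun, .inl ⟨ha.2.2.2, (show 0 < s from hs).ne'⟩⟩]
  obtain ⟨s, ⟨h1, h2⟩, h3⟩ := (Cht98.bijOn_len (ha.2.1.1.1 a).2 _).surjOn (e.1 ▸ K.mem_src.1 ht)
  obtain ⟨h4, h5, h6⟩ := e.2 s h2
  have := h.ψ y s (by split_ifs with k; exacts [h4 k, h1.1]) (by split_ifs with k; exacts [h5 k, h1.2])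
  rw [h3] at this
  exact ⟨_, ⟨Mark.j_not_mem c (q := (g y, s)) h6, (M.bn a).j_mem_slab.2 (Ioo_subset_Icc_self h1)⟩,
    this.symm⟩

/-- no neck comes near the centres of the caps -/
theorem off_nk : ∀ᶠ z in 𝓝ˢ (W.φ c).targetᶜ, ∀ {m : M.Cl} {p : Prm A} {a : A} {b : Option Bool}
    {S : Xs Wi κ lam} {g : S.Y.M → (M.bn a).Y.M} {K : Nk S.D (Λ.B m c) (Λ.G m c p)},
    IsNk a b g K → Act m c a b p → z ∉ K.ψ.target := by
  have h := (toFinite {a | a ∈ c.1 ∧ ¬M.pin a ∨ a ∈ M.sys.fr c.1}).isClosed_biUnion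
    fun a ha => Cyl58.isClosed_slab W.toCaps ha (isCompact_Icc (a := -1) (b := 1))
  refine mem_of_superset (h.isOpen_compl.mem_nhdsSet.2 (compl_subset_compl.2 (iUnion₂_subset
    fun a _ => image_subset_iff.2 fun x hx => (W.φ c).map_source ((W.mem_src c).2 hx.1))))
    fun z hz m p a b S g K h1 h2 h3 => hz (mem_biUnion ?_ (h1.tgt_sub h2 h3))
  cases b
  exacts [.inr h2.2.2.2.2.1, .inl ⟨h2.2.2.2, h2.1⟩]

/-! ### the terms of a job -/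

variable {A' h : Type} [Fintype A'] [DecidableEq A'] [Fintype h] {r n : ℕ}
  {J : Job Wi Λ A' h r n} {σ : Cel A'} {s : A' → ℝ}

theorem br_of (hJ : J.OK) (hσ : σ ∈ J.𝒦) (hs : J.Ov σ c s) : J.Θ s ∈ M.Br c.1 :=
  ⟨hJ.par σ hσ s hs.1, hs.2.ge⟩

variable (c J) in
/-- transport of data from `Z c` to `X` -/
abbrev tq : Tp (W.Z c).M X.M (lam ⊕ lam) (lam ⊕ lam) := .of (W.φ c).symm.toPartialEquiv
  fun y => trn (Line51.rl (Λ.v J.m c ((W.φ c).toPartialEquiv.symm y)))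

theorem inv_tp {p : Prm A} (hp : p ∈ M.Br c.1) {Ω : Set X.M} (hΩ : Ω ⊆ (W.φ c).source) :
    Inv X.I (W.Z c).I (J.tp c) (tq c J) Ω (W.φ c '' Ω) (J.B c).l ∧
      (J.tp c).In X.I (W.Z c).I Ω (W.φ c '' Ω) :=
  have u := (Λ.iso J.m c p hp).toUni
  ⟨inv_of _ (fun x hx => by
      simpa only [← Line51.rl_ct] using (Line51.fsm_rl (u.sm x hx).ct).contMDiffWithinAt)
    (fun x hx => by rw [← Line51.rl_ct, ← Line51.rl_comp, (u.iso x hx).tgt]; rfl) hΩ,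
    Tp.in_of _ (fun x hx => (Line51.fsm_rl (u.sm x hx)).contMDiffWithinAt) hΩ⟩

theorem off_τ0 (hJ : J.OK) : ∀ᶠ z in 𝓝ˢ (W.φ c).targetᶜ, ∀ s x,
    (J.τ0 c s).D x z = 0 ∧ (J.τ0 c s).C x z = 0 :=
  (off_nk (Wi := Wi) (Λ := Λ)).mono fun z hz s x => by
    have b := fun (i : A × Option Bool) k => q1_off (n := n) ((J.xs i.1).N.smul (J.ν i.1 s))
      (J.K c i.1 i.2 _ k) x (hz (hJ.nk c i.1 i.2 (J.Θ s) k) k)
    simp [Job.τ0, Pt.dsum, b]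

theorem off_τw (hJ : J.OK) (hσ : σ ∈ J.𝒦) (hs : J.Ov σ c s) (w : Wi) :
    ∀ᶠ z in 𝓝ˢ (W.φ c).targetᶜ, ∀ s, J.Ov σ c s → ∀ x,
      (J.τw c s w).D x z = 0 ∧ (J.τw c s w).C x z = 0 := by
  have a : ∀ᶠ z in 𝓝ˢ (W.φ c).targetᶜ, ∀ s, J.Ov σ c s → ∀ x : Cfg _ _ _ r, J.co w s = 0 ∨
      x.tD (J.B c) (J.G c s).F ((J.tp c).tm (J.tw w)) z = 0 ∧
      x.tC (J.B c) (J.G c s).F ((J.tp c).tm (J.tw w)) z = 0 := by
    obtain ⟨V, h1, s₀, h2, h3⟩ := hJ.tw w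
    by_cases e : c.1 ⊆ J.hw \ V
    · obtain ⟨K, k1, k2, k3⟩ := ((inv_tp (J := J) (br_of hJ hσ hs) subset_rfl).2.tm (h1.mono
        (W.src c ▸ compl_subset_compl.2 (biUnion_subset_biUnion_left e)))).supp (ι := Option κ)
      exact mem_of_superset (k1.isClosed.isOpen_compl.mem_nhdsSet.2 (compl_subset_compl.2
        (k2.trans (W.φ c).image_source_eq_target.le))) fun z hz s _ x => .inr (k3 x _ _ z hz)
    · obtain ⟨x, e1, e2⟩ := not_subset.1 e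
      refine .of_forall fun z s hs _ => .inl ?_
      obtain ⟨a, e3, e4⟩ := hJ.inf σ hσ s hs.1 x (hs.2.ge e1)
      exact h3 σ hσ s hs.1 a x e3 (by_contra fun k => e2 ⟨⟨a, e3⟩, k⟩) (h2.le.trans e4.ge)
  filter_upwards [a, off_nk (Wi := Wi) (Λ := Λ)] with z h1 h2 s hs x
  have b := fun (i : A × Option Bool) k T => q2_off (n := n) (J.xs i.1).N (J.K c i.1 i.2 _ k) x
    (h2 (hJ.nk c i.1 i.2 (J.Θ s) k) k) T
  rcases h1 s hs x with k | k <;>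
    simp [Job.τw, Pt.add, Pt.smul, Pt.dsum, tmP, fsum, Finsupp.sum, b, k]

theorem τw_eq {w : Wi} (hw : J.Nn w s) (x : Cfg (W.Z c).M (Option κ) (lam ⊕ lam) r) :
    (J.τw c s w).D x = J.co w s • x.tD (J.B c) (J.G c s).F ((J.tp c).tm (J.tw w)) ∧
    (J.τw c s w).C x = J.co w s • x.tC (J.B c) (J.G c s).F ((J.tp c).tm (J.tw w)) ∧
    (J.τw c s w).S x = J.co w s • x.tS (J.G c s).F ((J.tp c).tm (J.tw w)) := by
  refine ⟨?_, ?_, ?_⟩ <;> funext z <;>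
    simp [Job.τw, Pt.add, Pt.smul, Pt.dsum, tmP, fsum, hw _]

theorem _root_.Crest.Agent.X212.An.Job.RichT.a (h : J.RichT s π) :
    RichA X.I (M.sys.U π) (J.HasT s) := fun _ _ _ _ _ h1 h2 h3 =>
  h _ ⟨h1, h2, h3⟩ ⟨_, _, rfl⟩ trivial

theorem _root_.Crest.Agent.X212.An.Job.RichT.p (h : J.RichT s π) (j : Fin r) :
    RichP X.I (M.sys.U π) (.z j) (J.HasT s) :=
  ⟨fun _ _ h1 h2 => h _ ⟨h2.cons h1, _, _, rfl⟩ trivial trivial,
    fun _ _ h1 h2 => h _ ⟨trivial, h1, h2⟩ trivial ⟨j, rfl⟩, h.a,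
    fun _ _ _ _ _ h1 h2 h3 h4 h5 => h _ ⟨trivial, h1, h2, h3, h4, h5, llIn_nil⟩ trivial ⟨j, rfl⟩⟩

/-! ### the Banach model of a part -/

variable {T : Type} [NormedAddCommGroup T] [NormedSpace ℝ T] {m k : ℕ}
  {𝔉 : Mod61.Fam (W.Z c).I (W.Z c).M (Option κ) (lam ⊕ lam) T} {p : Prt A A' h}

variable (J σ 𝔉 p) in
/-- the family `𝔉` with the equation `e + ∑ q w • τ w` describes the part `p` over the
parameters `s t` -/
structure Lk (s : T → A' → ℝ) (e : T → PtX (W.Z c).M (Option κ) (lam ⊕ lam) r n m)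
    (τ : Wi → T → PtX (W.Z c).M (Option κ) (lam ⊕ lam) r n m) : Prop where
  ok : J.OK
  mem : σ ∈ J.𝒦
  pc : ∀ π ∈ p.P, M.sys.Piece c.1 π
  sub : p.P' ⊆ p.P
  fam : 𝔉.OK
  B : 𝔉.B = J.B c
  G : ∀ t ∈ 𝔉.Q, 𝔉.G t = J.G c (s t)
  Om : 𝔉.Om = W.un c p.P
  Om' : 𝔉.Om' = W.un c p.P'
  ov : ∀ t ∈ 𝔉.Q, J.Ov σ c (s t)
  e : ∀ t ∈ 𝔉.Q, ∀ x z, (J.τ0 c (s t)).D x z = 0 → (J.τ0 c (s t)).C x z = 0 →
    (e t).D x z = (𝔉.eq0 r n m t).D x z ∧ (e t).C x z = (𝔉.eq0 r n m t).C x z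
  τ : ∀ w, ∀ t ∈ 𝔉.Q, ∃ a : ℝ, a ≠ 0 ∧ ∀ x, (τ w t).D x = a • (J.τw c (s t) w).D x ∧
    (τ w t).C x = a • (J.τw c (s t) w).C x ∧ (τ w t).S x = a • (J.τw c (s t) w).S x ∧
    (τ w t).R x = 0

namespace Lk
variable {s : T → A' → ℝ} {e : T → PtX (W.Z c).M (Option κ) (lam ⊕ lam) r n m}
  {τ : Wi → T → PtX (W.Z c).M (Option κ) (lam ⊕ lam) r n m} (L : Lk J σ 𝔉 p s e τ) {o : Ref 𝔉}
  {y : Pnt o r} {N : Submodule ℝ (o.Y n m k)}
include L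

theorem inv (y : Pnt o r) (hπ : π ∈ p.P) : Inv X.I (W.Z c).I (J.tp c) (tq c J) (M.sys.U π)
    (W.φ c '' M.sys.U π) 𝔉.B.l := by
  rw [L.B]
  exact (inv_tp (br_of L.ok L.mem (L.ov _ y.ht)) (U_src W.toCaps (L.pc π hπ))).1

theorem pcs (y : Pnt o r) (hπ : π ∈ p.P) :
    Pc y.cfg 𝔉.B (𝔉.G y.t) (W.pc c π) (W.φ c '' M.sys.U π) :=
  Wrd81.pc L.fam y (Cyl58.isClopen_pc _ (L.pc π hπ)) (isOpen_img _ (L.pc π hπ))
    (null_pc _ (L.pc π hπ) _)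

/-- indices without field terms -/
theorem τ_zero (hk : 4 ≤ k) {w : Wi} (h1 : J.co w (s y.t) = 0) (h2 : J.Nn w (s y.t))
    {v : o.Y n m k} (hv : RepE (τ w) y v) : v = 0 := by
  obtain ⟨a, -, h3⟩ := L.τ w _ y.ht
  have h4 := τw_eq (c := c) h2 y.cfg
  simp only [h1, zero_smul] at h4
  refine hv.unique L.fam hk ⟨?_, ?_, ?_, ?_⟩ <;> simp [h3, h4, val_zero, indicator_zero'] <;> rfl

theorem av (hN : ∀ w v, RepE (τ w) y v → v ∈ N) {τ₀ : Tm X.M (lam ⊕ lam) r n}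
    (h : J.HasT (s y.t) τ₀) : Av N y ((J.tp c).tm τ₀) := by
  obtain ⟨w, rfl, h1, -, h2⟩ := h
  obtain ⟨a, a0, h3⟩ := L.τ w _ y.ht
  obtain ⟨h4, h5, h6, h7⟩ := h3 y.cfg
  obtain ⟨k1, k2, k3⟩ := τw_eq (c := c) h2 y.cfg
  rw [Av, L.B, L.G _ y.ht]
  exact Val.of_rep (hN w) (mul_ne_zero a0 h1) (fun x _ => by rw [h4, k1, smul_smul]; rfl)
    (fun x _ => by rw [h5, k2, smul_smul]; rfl) (by rw [h6, k3, smul_smul]) (by simp [h7])

/-- a free piece has a non-zero scalar of weight two -/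
theorem exists_co (hπ : π ∈ p.P) (hf : ¬Fix (𝔉.G y.t).F y.cfg (W.pc c π)) :
    ∃ g, SgIn X.I (M.sys.U π) g ∧ y.cfg.sg (𝔉.G y.t).F ((J.tp c).sg g) ≠ 0 ∧
      y.cfg.co (𝔉.G y.t).F ((J.tp c).co (.s g [])) ≠ 0 := by
  obtain ⟨g, h1, h2, h3⟩ := (L.pcs y hπ).exists_sg (Cyl58.isConnected_pc _ (L.pc π hπ)).2 hf
  have := (L.inv y hπ).sg' (c := y.cfg) o.ok.jl (𝔉.G y.t).F h1
  exact ⟨_, (L.inv y hπ).toIn.sg h1, this ▸ h2, by simpa only [Tp.co, Cfg.co, this, List.map_nil] using h3⟩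

/-- **density in the row of a cut** -/
theorem cut (hπ : π ∈ p.P) {Ω : Set X.M} (hΩ : M.sys.U π ⊆ Ω) {i : h}
    (hi : (J.ct i).x0 ∈ M.sys.U π) (hk : (J.cut c i).OK (J.B c) (J.G c (s y.t)).F)
    (ht : ((∃ z ∈ W.pc c π, y.cfg.Φ z ≠ 0) ∧
        ∃ d, CoIn X.I Ω d ∧ y.cfg.co (𝔉.G y.t).F ((J.tp c).co d) ≠ 0) ∨
      ¬Lin (𝔉.G y.t).F y.cfg (W.pc c π) ∧ ∃ z ∈ W.pc c π, y.cfg.m.Fg (𝔉.G y.t).F y.cfg.W z ≠ 0)
    {P : Wi → Prop} (hR : ∀ t : Tc X.M (lam ⊕ lam) r, XiIn X.I Ω t.ξ → ∃ w, J.tc i w = t ∧ P w)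
    {q : Wi →₀ ℝ} {ψ : (J.cut c i).H (J.B c) y.cfg.m}
    (hψ : (J.cut c i).Sol (J.B c) (J.G c (s y.t)).F (J.σc c q (s y.t) i) y.cfg ψ)
    {N : Submodule ℝ ((J.cut c i).H (J.B c) y.cfg.m)}
    (hN : IsClosed (N : Set ((J.cut c i).H (J.B c) y.cfg.m)))
    (hA : ∀ χ, ((J.cut c i).T (J.B c) (J.G c (s y.t)).F y.cfg.m y.cfg.W -
      J.σc c q (s y.t) i y.cfg) χ ∈ N)
    (hT : ∀ w, P w → y.cfg.tc (J.B c) (J.G c (s y.t)).F (J.cut c i) ((J.tp c).tc (J.tc i w)) ψ ∈ N)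
    (χ : (J.cut c i).H (J.B c) y.cfg.m) : χ ∈ N := by
  have a := L.pcs y hπ
  have b := L.inv y hπ
  rw [L.G _ y.ht] at ht a
  rw [L.B] at a b
  have hx : (J.cut c i).x0 ∈ W.φ c '' M.sys.U π ∩ W.pc c π := ⟨⟨_, hi, rfl⟩, .inl ⟨_, hi, rfl⟩⟩
  refine den_tc a.hB a.ok hk (cn0_of a.conn) (On.sum _ fun _ _ => (on_tc a.hB a.ok hk _).smul _)
    (norm_ne_zero_iff.1 (hψ.1.trans_ne one_ne_zero)) hψ.2 ⟨.one, trivial, rfl⟩ (ht.elim
      (fun ⟨h1, d, h2, h3⟩ => b.spn_irr a hx hΩ (pc_cmp _ (L.pc π hπ) h1) h2 h3) fun h1 =>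
      b.spn_full a hx hΩ (full_of_not_lin a.hB a.ok a.conn
        (Cyl58.isConnected_pc _ (L.pc π hπ)).2 h1.1 h1.2)) hN hA (fun u v ξ' ⟨ξ, h1, h2⟩ => ?_) χ
  obtain ⟨w, h3, h4⟩ := hR ⟨u, v, 1, ξ⟩ h1
  have := hT w h4
  rw [h3] at this
  simpa only [Cfg.tc, Tp.tc, h2] using this

theorem pin (y : Pnt o r) (q : Wi →₀ ℝ) :
    Pin o (W.φ c).targetᶜ (e + q.sum fun w a => a • τ w) := by
  have a : (q.sum fun w a => a • τ w) ∈ offS o (W.φ c).targetᶜ :=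
    sum_mem fun w _ => Submodule.smul_mem _ _ ((off_τw L.ok L.mem (L.ov _ y.ht) w).mono
      fun z hz y => let ⟨a, _, h⟩ := L.τ w _ y.ht; by simp [h y.cfg, hz _ (L.ov _ y.ht)])
  obtain ⟨O, h1, h2, h3⟩ := mem_nhdsSet_iff_exists.1 ((mem_ofPred.1 a).and (off_τ0 L.ok))
  refine ⟨cpt_tgt _, null_tgt _ _, O, h1, h2, fun y x hx => ?_⟩
  have := L.e _ y.ht y.cfg x ((h3 hx).2 _ _).1 ((h3 hx).2 _ _).2
  simp only [Pi.add_apply, PtX.add_D, PtX.add_C, (h3 hx).1 y, this, add_zero, and_self]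

variable (hF : ∀ π ∈ p.P', (∃ z ∈ W.pc c π, y.cfg.Φ z ≠ 0) ∧ ∃ d,
    y.cfg.co (𝔉.G y.t).F ((J.tp c).co d) ≠ 0 ∧ RichP X.I (M.sys.U π) d (J.HasT (s y.t)))
  (hI : ∀ π ∈ p.P, π ∉ p.P' → ¬Lin (𝔉.G y.t).F y.cfg (W.pc c π) ∧
    (∃ z ∈ W.pc c π, y.cfg.m.Fg (𝔉.G y.t).F y.cfg.W z ≠ 0) ∧
    RichA X.I (M.sys.U π) (J.HasT (s y.t)))
include hF hI

/-- **density of the field terms** -/
theorem dn (hN : ∀ w v, RepE (τ w) y v → v ∈ N) : Dn (W.φ c).target N := by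
  refine Dn.loc L.fam fun x hx => ?_
  obtain ⟨π, h1, h2⟩ := mem_un.1 (L.Om.le hx.2)
  have hπ := L.pc π h1
  have hK := Cyl58.isClopen_pc W.toCaps hπ
  refine ⟨_, hK, h2, Dn.mono L.fam (Ω := W.φ c '' M.sys.U π ∩ W.pc c π) ?_
    fun z hz => ⟨pc_tgt _ hπ hz.1, hz.1.2⟩⟩
  by_cases k : π ∈ p.P'
  · obtain ⟨a, d, b, b'⟩ := hF π k
    exact dn_F L.fam hK (isOpen_img _ hπ) (null_pc _ hπ _) (pc_cmp _ hπ a) b
      ((L.inv y h1).rich rfl (b'.mono subset_rfl fun _ => L.av hN))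
  · obtain ⟨a, b, b'⟩ := hI π h1 k
    refine dn_I L.fam hK (isOpen_img _ hπ) (null_pc _ hπ _) ?_ (Cyl58.isConnected_pc _ hπ).2 a b
      ((L.inv y h1).ad fun _ _ _ _ _ h1 h2 h3 => L.av hN (b' _ _ _ _ _ h1 h2 h3))
    rw [L.Om', Caps.un, disjoint_iUnion₂_right]
    exact fun π' k' => Cyl58.disjoint_pc _ hπ (L.pc _ (L.sub k')) fun e => k (e ▸ k')

/-- **density for a part** -/
theorem top (hS : n = 0 ∨ (∃ j, y.z j ≠ 0 ∧ J.RichS (s y.t)) ∨ ∃ g,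
      y.cfg.sg (𝔉.G y.t).F ((J.tp c).sg g) ≠ 0 ∧ ∀ i w, J.HasT (s y.t) (.cut i w g))
    {φ : EuclideanSpace ℂ (Fin r) → Fin m → ℝ} (hφ : ∀ y : Pnt o r, (e y.t).R y.cfg = φ y.z)
    (hR : ∀ ρ, ∃ ζ, HasDerivAt (fun s : ℝ => φ (y.z + s • ζ)) ρ 0) (hk : 6 ≤ k) {q : Wi →₀ ℝ}
    {f : o.C r k → o.Y n m k} (hf : RepF (e + q.sum fun w a => a • τ w) f)
    (n1 : IsClosed (N : Set (o.Y n m k))) (n2 : ∀ v, fderiv ℝ f (y.pt k) v ∈ N)
    (n3 : ∀ w v, RepE (τ w) y v → v ∈ N) (v : o.Y n m k) : v ∈ N := by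
  have P := L.pin y q
  have a : (q.sum fun w a => a • τ w) ∈ norS o := sum_mem fun w _ => Submodule.smul_mem _ _
    fun y => let ⟨_, _, h⟩ := L.τ w _ y.ht; (h y.cfg).2.2.2
  refine P.top L.fam hk hf (by rw [compl_compl]; exact L.dn hF hI n3) n1 n2 ?_ (fun ρ => ?_) v
  · rcases hS with rfl | ⟨j, h1, h2⟩ | ⟨g, h1, h2⟩
    exacts [rows_of fun i => i.elim0, rows_cz h1 fun i w => L.av n3 (h2 i w j),
      rows_cut h1 fun i w => L.av n3 (h2 i w)]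
  · obtain ⟨ζ, h1⟩ := hR ρ
    exact ⟨_, n2 _, P.row L.fam hk hf ζ, row_z L.fam hk hf
      (fun y => by rw [Pi.add_apply, PtX.add_R, a y, add_zero, hφ]) h1⟩

end Lk

/-- **DENS for a part with `z`, or without spinor** -/
theorem Lk.onto [CompleteSpace T] {Θ : Th 𝔉 r n m Wi} {Adm : (Wi →₀ ℝ) → Prop} (H : Θ.OK Adm)
    {s : T → A' → ℝ} (L : Lk J σ 𝔉 p s Θ.e Θ.τ) {q : Wi →₀ ℝ} {x : Θ.X} (ha : Adm q)
    (hx : H.Q.Sol q x) (hz : p.P' = ∅ ∧ n = 0 ∨ x.2.z ≠ 0)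
    (hT : ∀ π ∈ p.P, J.RichT (s x.2.t) π) (hS : J.RichS (s x.2.t))
    (hF : ∀ π ∈ p.P', ∃ z ∈ W.pc c π, x.2.cfg.Φ z ≠ 0)
    (hI : ∀ π ∈ p.P, π ∉ p.P' → ¬Lin (𝔉.G x.2.t).F x.2.cfg (W.pc c π) ∧
      ∃ z ∈ W.pc c π, x.2.cfg.m.Fg (𝔉.G x.2.t).F x.2.cfg.W z ≠ 0)
    {φ : EuclideanSpace ℂ (Fin r) → Fin m → ℝ}
    (hφ : ∀ y : Pnt (Θ.ref x.1) r, (Θ.e y.t).R y.cfg = φ y.z)
    (hR : ∀ ρ, ∃ ζ, HasDerivAt (fun s : ℝ => φ (x.2.z + s • ζ)) ρ 0) : ∃ S, H.Q.Onto q x S := by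
  have a : x.2.z ≠ 0 → ∃ j, x.2.z j ≠ 0 := fun h => by_contra fun k => h (by ext j; simpa using not_exists.1 k j)
  refine H.onto ha hx fun N => L.top (fun π hπ => ⟨hF π hπ, ?_⟩)
    (fun π h1 h2 => ⟨(hI π h1 h2).1, (hI π h1 h2).2, (hT π h1).a⟩)
    (hz.imp And.right fun h => .inl ((a h).imp fun _ k => ⟨k, hS⟩)) hφ hR
    (H.hk.trans' (by norm_num)) (H.repF x.1 q)
  obtain ⟨j, k⟩ := a (hz.resolve_left fun k => (k.1.le hπ).elim)
  exact ⟨.z j, k, (hT π (L.sub hπ)).p j⟩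

end Crest.Agent.X212.Wrd81
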