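import Mathlib

-- ▼ part X212/Wrd81/Comm
section

/-!
# X212 / WORDS, part 1 (helper81): the commutant lemma, format-free.

`H` is the space of `L²` sections, `S` the smooth sections, `R` the smooth functions,
`L = 1 + ∇^*∇`, `G = L⁻¹`.  A closed subspace `V` which is stable under `G` and under
multiplication by functions has an orthogonal projector which preserves the smooth sections, is
`R`-linear, pointwise symmetric and idempotent, and commutes with every `∇_{grad f}`.
-/

set_option autoImplicit false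
set_option linter.unusedSectionVars false
open scoped RealInnerProductSpace

noncomputable section
namespace Crest.Agent.X212.Wrd81

section hilbert
variable {H : Type*} [NormedAddCommGroup H] [InnerProductSpace ℝ H] [CompleteSpace H]

/-- closed linear span -/
def cl (W : Set H) : Submodule ℝ H := (Submodule.span ℝ W).topologicalClosure

lemma isClosed_cl (W : Set H) : IsClosed (cl W : Set H) :=
  Submodule.isClosed_topologicalClosure _

instance (W : Set H) : CompleteSpace (cl W) := (isClosed_cl W).completeSpace_coe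

instance (W : Set H) : (cl W).HasOrthogonalProjection := inferInstance

lemma mem_cl {W : Set H} {w : H} (h : w ∈ W) : w ∈ cl W :=
  Submodule.le_topologicalClosure _ (Submodule.subset_span h)

/-- a closed subspace containing `W` contains `cl W` -/
lemma cl_le {W : Set H} {U : Submodule ℝ H} (hU : IsClosed (U : Set H)) (h : W ⊆ U) :
    cl W ≤ U :=
  Submodule.topologicalClosure_minimal _ (Submodule.span_le.2 h) hU

lemma map_cl {H' : Type*} [NormedAddCommGroup H'] [InnerProductSpace ℝ H'] {W : Set H}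
    {U : Submodule ℝ H'} (hU : IsClosed (U : Set H')) (T : H →L[ℝ] H')
    (hW : ∀ w ∈ W, T w ∈ U) {x : H} (hx : x ∈ cl W) : T x ∈ U := by
  have : cl W ≤ U.comap (T : H →ₗ[ℝ] H') :=
    cl_le (hU.preimage T.continuous) (fun w hw => hW w hw)
  exact this hx

/-- a subspace stable under `T` and under an adjoint `T'` of `T` reduces `T` -/
lemma proj_comm (V : Submodule ℝ H) [V.HasOrthogonalProjection] (T T' : H →L[ℝ] H)
    (adj : ∀ x y, ⟪T x, y⟫ = ⟪x, T' y⟫) (hT : ∀ x ∈ V, T x ∈ V) (hT' : ∀ x ∈ V, T' x ∈ V)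
    (x : H) : V.starProjection (T x) = T (V.starProjection x) := by
  have h1 : T (V.starProjection x) ∈ V := hT _ (V.starProjection_apply_mem x)
  have h2 : T x - T (V.starProjection x) ∈ Vᗮ := by
    rw [← map_sub, Submodule.mem_orthogonal']
    intro u hu
    rw [adj]
    exact Submodule.inner_left_of_mem_orthogonal (hT' u hu) (V.sub_starProjection_mem_orthogonal x)
  exact Submodule.eq_starProjection_of_mem_orthogonal h1 h2

/-- the operators commuting with a fixed operator form a closed set -/
lemma isClosed_comm (P : H →L[ℝ] H) : IsClosed {T : H →L[ℝ] H | P * T = T * P} :=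
  isClosed_eq (continuous_const.mul continuous_id) (continuous_id.mul continuous_const)

/-- Stone–Weierstrass: an operator commuting with the multiplication by a point separating family
of continuous functions commutes with the multiplication by every continuous function. -/
lemma comm_all {M : Type*} [TopologicalSpace M] [CompactSpace M]
    (m : C(M, ℝ) →ₐ[ℝ] (H →L[ℝ] H)) (hm : Continuous m) (P : H →L[ℝ] H) (F : Set C(M, ℝ))
    (sep : ∀ x y : M, x ≠ y → ∃ f ∈ F, f x ≠ f y) (hF : ∀ f ∈ F, P * m f = m f * P)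
    (f : C(M, ℝ)) : P * m f = m f * P := by
  let A : Subalgebra ℝ C(M, ℝ) := (Subalgebra.centralizer ℝ {P}).comap m
  have hA : ∀ g, g ∈ A ↔ P * m g = m g * P := by
    intro g
    simp [A, Subalgebra.mem_centralizer_iff]
  have hcl : IsClosed (A : Set C(M, ℝ)) := by
    have : (A : Set C(M, ℝ)) = m ⁻¹' {T : H →L[ℝ] H | P * T = T * P} := by
      ext g; exact hA g
    rw [this]
    exact (isClosed_comm P).preimage hm
  have hs : A.SeparatesPoints := by
    intro x y hxy
    obtain ⟨g, hg, hne⟩ := sep x y hxy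
    exact ⟨g, ⟨g, (hA g).2 (hF g hg), rfl⟩, hne⟩
  have htop := ContinuousMap.subalgebra_topologicalClosure_eq_top_of_separatesPoints A hs
  have hle : A.topologicalClosure ≤ A := Subalgebra.topologicalClosure_minimal le_rfl hcl
  rw [htop] at hle
  exact (hA f).1 (hle Algebra.mem_top)

end hilbert

/-- Resolvent data: smooth sections `S` inside `L²` sections `H`, `L = 1 + ∇^*∇` on `S`,
`G = L⁻¹` on `H`, with elliptic regularity in the weakest form. -/
structure Res (S H : Type*) [AddCommGroup S] [Module ℝ S] [NormedAddCommGroup H]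
    [InnerProductSpace ℝ H] where
  ι : S →ₗ[ℝ] H
  inj : Function.Injective ι
  L : S →ₗ[ℝ] S
  G : H →L[ℝ] H
  symm : ∀ x y, ⟪G x, y⟫ = ⟪x, G y⟫
  Ginj : Function.Injective G
  hGL : ∀ s, G (ι (L s)) = ι s
  reg : ∀ x : H, (∀ k : ℕ, ∃ w, x = (G ^ k) w) → ∃ s, ι s = x

section res
variable {S H : Type*} [AddCommGroup S] [Module ℝ S] [NormedAddCommGroup H]
  [InnerProductSpace ℝ H]

lemma Res.pow_GL (r : Res S H) (k : ℕ) (s : S) : (r.G ^ k) (r.ι ((r.L ^ k) s)) = r.ι s := by
  induction k generalizing s with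
  | zero => simp
  | succ k ih =>
    rw [pow_succ', pow_succ, mul_apply_eq_comp, Module.End.mul_apply, ih, r.hGL]

lemma Res.pow_comm (r : Res S H) {P : H →L[ℝ] H} (hP : ∀ x, P (r.G x) = r.G (P x)) (k : ℕ)
    (x : H) : P ((r.G ^ k) x) = (r.G ^ k) (P x) := by
  induction k generalizing x with
  | zero => simp
  | succ k ih => rw [pow_succ', mul_apply_eq_comp, hP, ih,
      mul_apply_eq_comp]

/-- `G` preserves the smooth sections -/
lemma Res.exists_G (r : Res S H) (s : S) : ∃ t, r.ι t = r.G (r.ι s) := by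
  obtain ⟨t, ht⟩ := r.reg (r.G (r.ι s)) (fun k => ⟨r.G (r.ι ((r.L ^ k) s)), by
    rw [← r.pow_comm (P := r.G) (fun _ => rfl), r.pow_GL]⟩)
  exact ⟨t, ht⟩

/-- a bounded operator mapping smooth sections to smooth sections, as a map of `S` -/
def Res.lift (r : Res S H) (P : H →L[ℝ] H) (h : ∀ s, ∃ t, r.ι t = P (r.ι s)) : S →ₗ[ℝ] S where
  toFun s := (h s).choose
  map_add' s t := r.inj (by
    rw [(h (s + t)).choose_spec, map_add r.ι (h s).choose, (h s).choose_spec, (h t).choose_spec,
      map_add, map_add])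
  map_smul' c s := r.inj (by
    rw [RingHom.id_apply, (h (c • s)).choose_spec, map_smul r.ι c (h s).choose, (h s).choose_spec,
      map_smul, map_smul])

lemma Res.ι_lift (r : Res S H) (P : H →L[ℝ] H) (h : ∀ s, ∃ t, r.ι t = P (r.ι s)) (s : S) :
    r.ι (r.lift P h s) = P (r.ι s) := (h s).choose_spec

/-- the resolvent on smooth sections -/
def Res.GS (r : Res S H) : S →ₗ[ℝ] S := r.lift r.G r.exists_G

lemma Res.ι_GS (r : Res S H) (s : S) : r.ι (r.GS s) = r.G (r.ι s) := r.ι_lift _ _ s

lemma Res.GS_L (r : Res S H) (s : S) : r.GS (r.L s) = s := r.inj (by rw [r.ι_GS, r.hGL])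

lemma Res.L_GS (r : Res S H) (s : S) : r.L (r.GS s) = s :=
  r.inj (r.Ginj (by rw [r.hGL, r.ι_GS]))

/-- an operator commuting with `G` preserves the smooth sections -/
lemma Res.exists_of_comm (r : Res S H) {P : H →L[ℝ] H} (hP : ∀ x, P (r.G x) = r.G (P x))
    (s : S) : ∃ t, r.ι t = P (r.ι s) :=
  r.reg _ (fun k => ⟨P (r.ι ((r.L ^ k) s)), by rw [← r.pow_comm hP, r.pow_GL]⟩)

/-- an operator commuting with `G` commutes with `L` on smooth sections -/
lemma Res.comm_L (r : Res S H) {P : H →L[ℝ] H} (hP : ∀ x, P (r.G x) = r.G (P x))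
    {Q : S →ₗ[ℝ] S} (hQ : ∀ s, r.ι (Q s) = P (r.ι s)) (s : S) : Q (r.L s) = r.L (Q s) :=
  r.inj (r.Ginj (by rw [hQ, ← hP, r.hGL, r.hGL, hQ]))

end res

section leibniz
variable {R S : Type*} [CommRing R] [AddCommGroup S] [Module ℝ S] [Module R S]

/-- Leibniz: if `L (f s) = f L s - 2 Gr f s + Λ f s` then an `R`-linear map commuting with `L`
commutes with `Gr f = ∇_{grad f}`. -/
lemma comm_grad {L Q : S →ₗ[ℝ] S} {f lam : R} {Gr : S → S}
    (hL : ∀ s, L (f • s) = f • L s - (2 : ℝ) • Gr s + lam • s)
    (hQL : ∀ s, Q (L s) = L (Q s)) (hQR : ∀ (g : R) s, Q (g • s) = g • Q s) (s : S) :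
    Q (Gr s) = Gr (Q s) := by
  have h1 := hQL (f • s)
  rw [hL, hQR, hL, map_add, map_sub, hQR, hQR, hQL, map_smul] at h1
  have h2 : (2 : ℝ) • Q (Gr s) = (2 : ℝ) • Gr (Q s) := by
    have := add_right_cancel h1
    exact sub_right_injective this
  exact smul_right_injective S (two_ne_zero) h2

/-- every covariant derivative `D = ∑ h_i ∇_{grad f_i}` commutes with `Q` -/
lemma comm_D {Q : S →ₗ[ℝ] S} {ι : Type*} (I : Finset ι) (h : ι → R) (Gr : ι → S → S) {D : S → S}
    (hD : ∀ s, D s = ∑ i ∈ I, h i • Gr i s) (hQ : ∀ i ∈ I, ∀ s, Q (Gr i s) = Gr i (Q s))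
    (hQR : ∀ (g : R) s, Q (g • s) = g • Q s) (s : S) : Q (D s) = D (Q s) := by
  rw [hD, hD, map_sum]
  exact Finset.sum_congr rfl fun i hi => by rw [hQR, hQ i hi]

/-- pointwise symmetry from `L²` symmetry -/
lemma symm_pt {Q : S →ₗ[ℝ] S} (B : S → S → R) (I : R → ℝ)
    (hB : ∀ (g : R) s t, B (g • s) t = g * B s t) (hI : ∀ a b, I (a - b) = I a - I b)
    (hpos : ∀ g, I (g * g) = 0 → g = 0) (hQR : ∀ (g : R) s, Q (g • s) = g • Q s)
    (hs : ∀ s t, I (B (Q s) t) = I (B s (Q t))) (s t : S) : B (Q s) t = B s (Q t) := by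
  rw [← sub_eq_zero]
  apply hpos
  set g := B (Q s) t - B s (Q t) with hg
  have : g * g = B (Q (g • s)) t - B (g • s) (Q t) := by
    rw [hQR, hB, hB, ← mul_sub]
  rw [this, hI, hs, sub_self]

/-- tensoriality: an `R`-linear map of a module generated by `e i` with coefficient functionals
depending only on the value at the point is a field of linear maps -/
lemma tensorial {M V ι : Type*} [AddCommGroup V] [Module ℝ V] [Fintype ι] {Q : S →ₗ[ℝ] S}
    (ev : S → M → V) (evR : R → M → ℝ) (ev_sum : ∀ (u : ι → S) x, ev (∑ i, u i) x = ∑ i, ev (u i) x)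
    (ev_smul : ∀ (g : R) s x, ev (g • s) x = evR g x • ev s x)
    (e : ι → S) (c : ι → S → R) (l : ι → V →ₗ[ℝ] ℝ) (hc : ∀ i s x, evR (c i s) x = l i (ev s x))
    (gen : ∀ s, s = ∑ i, c i s • e i) (hQR : ∀ (g : R) s, Q (g • s) = g • Q s) (s : S) (x : M) :
    ev (Q s) x = (∑ i, (l i).smulRight (ev (Q (e i)) x)) (ev s x) := by
  conv_lhs => rw [gen s, map_sum]
  simp only [hQR]
  rw [ev_sum, LinearMap.sum_apply]
  exact Finset.sum_congr rfl fun i _ => by rw [ev_smul, hc, LinearMap.smulRight_apply]

end leibniz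

end Crest.Agent.X212.Wrd81
end
end

-- ▼ part X212/Wrd81/Word

/-!
# X212 / WORDS, part 3 (helper81): words, their smoothness, equivariance and density, format-free.

A word is a list of letters applied to a seed: `wd op s [t₁, …, tₙ] = op t₁ (… (op tₙ s))`.
-/

set_option autoImplicit false
set_option linter.unusedSectionVars false
open scoped RealInnerProductSpace ContDiff Topology
open Set Filter Function

noncomputable section
namespace Crest.Agent.X212.Wrd81

/-- the word `l` in the letters `op` applied to the seed `s` -/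
def wd {τ α : Type*} (op : τ → α → α) (s : α) (l : List τ) : α := l.foldr op s

section basic
variable {τ α β : Type*}

@[simp] lemma wd_nil (op : τ → α → α) (s : α) : wd op s [] = s := rfl

@[simp] lemma wd_cons (op : τ → α → α) (s : α) (t : τ) (l : List τ) :
    wd op s (t :: l) = op t (wd op s l) := rfl

lemma wd_append (op : τ → α → α) (s : α) (l l' : List τ) :
    wd op s (l ++ l') = wd op (wd op s l') l := List.foldr_append

/-- a property of the seed preserved by the letters holds for all words -/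
lemma wd_ind {op : τ → α → α} {s : α} {p : α → Prop} (h0 : p s) (h : ∀ t a, p a → p (op t a))
    (l : List τ) : p (wd op s l) := by
  induction l with
  | nil => exact h0
  | cons t l ih => exact h t _ ih

/-- a relation between the seeds preserved by the letters holds for all words (equivariance,
comparison of Sobolev levels, limits, splitting across necks) -/
lemma wd_rel {op : τ → α → α} {op' : τ → β → β} {s : α} {s' : β} {r : α → β → Prop}
    (h0 : r s s') (h : ∀ t a b, r a b → r (op t a) (op' t b)) (l : List τ) :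
    r (wd op s l) (wd op' s' l) := by
  induction l with
  | nil => exact h0
  | cons t l ih => exact h t _ _ ih

lemma wd_map {op : τ → α → α} {op' : τ → β → β} (φ : α → β) (s : α)
    (h : ∀ t a, φ (op t a) = op' t (φ a)) (l : List τ) : φ (wd op s l) = wd op' (φ s) l :=
  wd_rel (r := fun a b => φ a = b) rfl (fun t a b hab => by rw [h, hab]) l

/-- words of a family are computed member by member -/
lemma wd_family {X : Type*} (op : τ → X → α → α) (s : X → α) (l : List τ) (x : X) :
    wd (fun t (u : X → α) y => op t y (u y)) s l x = wd (fun t => op t x) (s x) l :=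
  wd_map (op := fun t (u : X → α) y => op t y (u y)) (fun u => u x) s (fun _ _ => rfl) l

end basic

section smooth
variable {τ X E E' : Type*} [NormedAddCommGroup X] [NormedSpace ℝ X] [NormedAddCommGroup E]
  [NormedSpace ℝ E] [NormedAddCommGroup E'] [NormedSpace ℝ E']

theorem contDiffAt_wd {n : WithTop ℕ∞} {op : τ → X → E →L[ℝ] E} {s : X → E} {x : X}
    (hop : ∀ t, ContDiffAt ℝ n (op t) x) (hs : ContDiffAt ℝ n s x) (l : List τ) :
    ContDiffAt ℝ n (fun y => wd (fun t => op t y) (s y) l) x := by
  induction l with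
  | nil => exact hs
  | cons t l ih => exact (hop t).clm_apply ih

theorem contDiffOn_wd {n : WithTop ℕ∞} {op : τ → X → E →L[ℝ] E} {s : X → E} {U : Set X}
    (hop : ∀ t, ContDiffOn ℝ n (op t) U) (hs : ContDiffOn ℝ n s U) (l : List τ) :
    ContDiffOn ℝ n (fun y => wd (fun t => op t y) (s y) l) U := by
  induction l with
  | nil => exact hs
  | cons t l ih => exact (hop t).clm_apply ih

theorem continuousAt_wd {Y : Type*} [TopologicalSpace Y] {op : τ → Y → E →L[ℝ] E} {s : Y → E}
    {x : Y} (hop : ∀ t, ContinuousAt (op t) x) (hs : ContinuousAt s x) (l : List τ) :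
    ContinuousAt (fun y => wd (fun t => op t y) (s y) l) x := by
  induction l with
  | nil => exact hs
  | cons t l ih => exact (hop t).clm_apply ih

/-- the resolvent `j ∘ (L x)⁻¹` -/
def rsv (j : E' →L[ℝ] E) (L : E' →L[ℝ] E) : E →L[ℝ] E := j.comp L.inverse

/-- the set of parameters where `L` is invertible is open -/
theorem isOpen_inv [CompleteSpace E'] {Y : Type*} [TopologicalSpace Y] {L : Y → E' →L[ℝ] E}
    (hL : Continuous L) : IsOpen {y | (L y).IsInvertible} :=
  ContinuousLinearEquiv.isOpen.preimage hL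

theorem contDiffAt_inverse [CompleteSpace E'] {n : WithTop ℕ∞} {L : X → E' →L[ℝ] E} {x : X}
    (hL : ContDiffAt ℝ n L x) (hx : (L x).IsInvertible) :
    ContDiffAt ℝ n (fun y => (L y).inverse) x := by
  obtain ⟨e, he⟩ := hx
  have := contDiffAt_map_inverse (𝕜 := ℝ) (n := n) e
  rw [he] at this
  exact this.comp x hL

theorem contDiffAt_rsv [CompleteSpace E'] {n : WithTop ℕ∞} (j : E' →L[ℝ] E)
    {L : X → E' →L[ℝ] E} {x : X} (hL : ContDiffAt ℝ n L x) (hx : (L x).IsInvertible) :
    ContDiffAt ℝ n (fun y => rsv j (L y)) x :=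
  contDiffAt_const.clm_comp (contDiffAt_inverse hL hx)

lemma rsv_apply (j : E' →L[ℝ] E) {L : E' →L[ℝ] E} (hL : L.IsInvertible) (u : E') :
    rsv j L (L u) = j u := by
  simp [rsv, hL.inverse_apply_eq.2 rfl]

/-- inverses of intertwined invertible operators are intertwined -/
lemma inverse_intertwine {F F' : Type*} [NormedAddCommGroup F] [NormedSpace ℝ F]
    [NormedAddCommGroup F'] [NormedSpace ℝ F'] {L : E' →L[ℝ] E} {L' : F' →L[ℝ] F}
    (hL : L.IsInvertible) (hL' : L'.IsInvertible) {a : E → F} {b : E' → F'}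
    (h : ∀ u, a (L u) = L' (b u)) (f : E) : L'.inverse (a f) = b (L.inverse f) := by
  obtain ⟨e, rfl⟩ := hL
  obtain ⟨u, rfl⟩ := e.surjective f
  have h1 : (e : E' →L[ℝ] E).inverse (e u) = u := by simp
  rw [h1, hL'.inverse_apply_eq]
  exact h u

end smooth

section dens
variable {τ σ S H : Type*} [AddCommGroup S] [Module ℝ S] [NormedAddCommGroup H]
  [InnerProductSpace ℝ H] [CompleteSpace H]

/-- all words in the letters `op` on the seeds `s` -/
def wds {α : Type*} (op : τ → α → α) (s : σ → α) : Set α := range fun p : σ × List τ => wd op (s p.1) p.2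

lemma wd_mem_wds {α : Type*} (op : τ → α → α) (s : σ → α) (j : σ) (l : List τ) :
    wd op (s j) l ∈ wds op s := ⟨(j, l), rfl⟩

lemma op_mem_wds {α : Type*} {op : τ → α → α} {s : σ → α} (t : τ) {a : α} (h : a ∈ wds op s) :
    op t a ∈ wds op s := by
  obtain ⟨⟨j, l⟩, rfl⟩ := h
  exact ⟨(j, t :: l), rfl⟩

/-- the closed span of the words is stable under the letters -/
lemma op_mem_cl (op : τ → H →L[ℝ] H) (s : σ → H) (t : τ) {x : H}
    (hx : x ∈ cl (wds (fun t => op t) s)) : op t x ∈ cl (wds (fun t => op t) s) :=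
  map_cl (isClosed_cl _) (op t) (fun _ hw => mem_cl (op_mem_wds (op := fun t => op t) t hw)) hx

/-- the projector onto the closed span of the words -/
def prj (op : τ → H →L[ℝ] H) (s : σ → H) : H →L[ℝ] H :=
  (cl (wds (fun t => op t) s)).starProjection

lemma prj_wd (op : τ → H →L[ℝ] H) (s : σ → H) (j : σ) (l : List τ) :
    prj op s (wd (fun t => op t) (s j) l) = wd (fun t => op t) (s j) l :=
  Submodule.starProjection_eq_self_iff.2 (mem_cl (wd_mem_wds _ _ j l))

lemma prj_seed (op : τ → H →L[ℝ] H) (s : σ → H) (j : σ) : prj op s (s j) = s j :=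
  prj_wd op s j []

lemma prj_idem (op : τ → H →L[ℝ] H) (s : σ → H) (x : H) : prj op s (prj op s x) = prj op s x :=
  Submodule.starProjection_eq_self_iff.2 (Submodule.starProjection_apply_mem _ x)

lemma prj_symm (op : τ → H →L[ℝ] H) (s : σ → H) (x y : H) :
    ⟪prj op s x, y⟫ = ⟪x, prj op s y⟫ :=
  Submodule.inner_starProjection_left_eq_right _ x y

lemma prj_eq_self_iff (op : τ → H →L[ℝ] H) (s : σ → H) {x : H} :
    prj op s x = x ↔ x ∈ cl (wds (fun t => op t) s) := Submodule.starProjection_eq_self_iff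

/-- an operator `T` such that `T` and an adjoint `T'` map the words into their closed span
commutes with the projector -/
lemma prj_comm' (op : τ → H →L[ℝ] H) (s : σ → H) {T T' : H →L[ℝ] H}
    (adj : ∀ x y, ⟪T x, y⟫ = ⟪x, T' y⟫)
    (hT : ∀ x ∈ cl (wds (fun t => op t) s), T x ∈ cl (wds (fun t => op t) s))
    (hT' : ∀ x ∈ cl (wds (fun t => op t) s), T' x ∈ cl (wds (fun t => op t) s)) (x : H) :
    prj op s (T x) = T (prj op s x) := proj_comm _ T T' adj hT hT' x

/-- the projector commutes with a letter whose adjoint is a multiple of a letter -/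
lemma prj_comm (op : τ → H →L[ℝ] H) (s : σ → H) {t t' : τ} (c : ℝ)
    (adj : ∀ x y, ⟪op t x, y⟫ = c * ⟪x, op t' y⟫) (x : H) :
    prj op s (op t x) = op t (prj op s x) :=
  prj_comm' op s (T' := c • op t') (fun x y => by simp [adj, inner_smul_right])
    (fun _ hx => op_mem_cl op s t hx)
    (fun _ hx => Submodule.smul_mem _ c (op_mem_cl op s t' hx)) x

/-- a closed subspace containing the seeds and stable under the letters contains the span -/
lemma cl_wds_le (op : τ → H →L[ℝ] H) (s : σ → H) {U : Submodule ℝ H} (hU : IsClosed (U : Set H))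
    (h0 : ∀ j, s j ∈ U) (h : ∀ t, ∀ x ∈ U, op t x ∈ U) : cl (wds (fun t => op t) s) ≤ U := by
  refine cl_le hU ?_
  rintro _ ⟨⟨j, l⟩, rfl⟩
  exact wd_ind (p := fun a => a ∈ U) (h0 j) (fun t a ha => h t a ha) l

/-- **density in a stronger norm.**  `E` is a Sobolev space, `j : E → H` the inclusion,
`K : H → E` a power of the resolvent with `j ∘ K = ` the word `l₀`.  Then `K x` lies in the closed
span in `E` of the words, for every `x` in the `L²`-closed span of the words. -/
theorem mem_closure_strong {E : Type*} [NormedAddCommGroup E] [NormedSpace ℝ E]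
    (op : τ → H →L[ℝ] H) (s : σ → H) (opE : τ → E → E) (sE : σ → E) (j : E → H)
    (hj : Injective j) (hop : ∀ t u, j (opE t u) = op t (j u)) (hs : ∀ i, j (sE i) = s i)
    (K : H →L[ℝ] E) (l₀ : List τ) (hK : ∀ x, j (K x) = wd (fun t => op t) x l₀) {x : H}
    (hx : x ∈ cl (wds (fun t => op t) s)) :
    K x ∈ (Submodule.span ℝ (wds opE sE)).topologicalClosure := by
  have : cl (wds (fun t => op t) s) ≤
      ((Submodule.span ℝ (wds opE sE)).topologicalClosure).comap (K : H →ₗ[ℝ] E) := by
    refine cl_le ((Submodule.isClosed_topologicalClosure _).preimage K.continuous) ?_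
    rintro _ ⟨⟨i, l⟩, rfl⟩
    have e : K (wd (fun t => op t) (s i) l) = wd opE (sE i) (l₀ ++ l) := by
      apply hj
      rw [hK, wd_map (op := opE) (op' := fun t => op t) j _ hop, hs, wd_append]
    change K (wd (fun t => op t) (s i) l) ∈ (Submodule.span ℝ (wds opE sE)).topologicalClosure
    rw [e]
    exact Submodule.le_topologicalClosure _ (Submodule.subset_span (wd_mem_wds _ _ i _))
  exact this hx

/-- bilinear terms: the closed span of `B u u'` over words contains `B a b` for `a, b` in the closed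
span of the words -/
theorem bil_mem_closure {E E' F : Type*} [NormedAddCommGroup E] [NormedSpace ℝ E]
    [NormedAddCommGroup E'] [NormedSpace ℝ E'] [NormedAddCommGroup F] [NormedSpace ℝ F]
    (B : E →L[ℝ] E' →L[ℝ] F) {W : Set E} {W' : Set E'} {U : Submodule ℝ F}
    (hU : IsClosed (U : Set F)) (h : ∀ u ∈ W, ∀ u' ∈ W', B u u' ∈ U) {a : E} {b : E'}
    (ha : a ∈ (Submodule.span ℝ W).topologicalClosure)
    (hb : b ∈ (Submodule.span ℝ W').topologicalClosure) : B a b ∈ U := by
  have h1 : ∀ u ∈ W, B u b ∈ U := fun u hu =>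
    Submodule.topologicalClosure_minimal (t := U.comap (B u : E' →ₗ[ℝ] F)) _
      (Submodule.span_le.2 fun u' hu' => h u hu u' hu') (hU.preimage (B u).continuous) hb
  exact Submodule.topologicalClosure_minimal (t := U.comap (B.flip b : E →ₗ[ℝ] F)) _
    (Submodule.span_le.2 fun u hu => h1 u hu) (hU.preimage (B.flip b).continuous) ha

theorem lin_mem_closure {E F : Type*} [NormedAddCommGroup E] [NormedSpace ℝ E]
    [NormedAddCommGroup F] [NormedSpace ℝ F] (T : E →L[ℝ] F) {W : Set E} {U : Submodule ℝ F}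
    (hU : IsClosed (U : Set F)) (h : ∀ u ∈ W, T u ∈ U) {a : E}
    (ha : a ∈ (Submodule.span ℝ W).topologicalClosure) : T a ∈ U :=
  Submodule.topologicalClosure_minimal (t := U.comap (T : E →ₗ[ℝ] F)) _
    (Submodule.span_le.2 fun u hu => h u hu) (hU.preimage T.continuous) ha

/-- **the commutant lemma for words.**  If the resolvent is a letter, the projector onto the closed
span of the words is induced by a map `Q` of the smooth sections commuting with `L`. -/
theorem exists_Q (r : Res S H) (op : τ → H →L[ℝ] H) (s : σ → H) {g : τ} (hg : op g = r.G) :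
    ∃ Q : S →ₗ[ℝ] S, (∀ u, r.ι (Q u) = prj op s (r.ι u)) ∧ (∀ u, Q (r.L u) = r.L (Q u)) ∧
      (∀ u, Q (Q u) = Q u) := by
  have hP : ∀ x, prj op s (r.G x) = r.G (prj op s x) := fun x => by
    rw [← hg]
    exact prj_comm op s (t' := g) 1 (fun x y => by rw [hg, r.symm, one_mul]) x
  refine ⟨r.lift _ (r.exists_of_comm hP), r.ι_lift _ _, r.comm_L hP (r.ι_lift _ _), fun u => ?_⟩
  apply r.inj
  rw [r.ι_lift, r.ι_lift, prj_idem]

end dens

end Crest.Agent.X212.Wrd81
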